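import Crest.Agent.N207.T.Lo1
import Crest.Agent.N207.T.Defs
import Crest.Agent.N207.V.Area
import Crest.Agent.N207.AI.Par2

/-!
# Row 207, block TOP (helper22): caps exist away from the bad scales
-/

set_option autoImplicit false
set_option linter.unusedSectionVars false

open scoped ContDiff Manifold Topology
open Set MeasureTheory Filter Metric
open Crest.GeometryTopology.CoordMetric Crest.GeometryTopology.ChartCurvature
  Crest.GeometryTopology.MetricFamily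
open Crest.Agent.R247

noncomputable section

namespace Crest.Agent.N207.T

open Sk

variable {M : Type*} [TopologicalSpace M] [ChartedSpace E4 M] [IsManifold 𝓘(ℝ, E4) ∞ M]
  [T3Space M] [ConnectedSpace M] [CompactSpace M] [MeasurableSpace M] [BorelSpace M]

theorem JG_entry {m : ℕ} {G : MetricField 4} {x : E4} {s c : ℝ} (h : JG m G x s c) (i j : Fin 4) :
    |G x i j - (1 : Matrix (Fin 4) (Fin 4) ℝ) i j| ≤ c := by
  simpa [J1, dv] using h 0 (Nat.zero_le _) i j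

theorem wt_le_two {a b : ℝ} (ha : 0 < a) {x : E4} (hx : x ∈ shell a b) : wt a b x ≤ 2 := by
  have h0 : 0 < ‖x‖ := ha.trans hx.1
  have h1 : √(a / ‖x‖) ≤ 1 := Real.sqrt_le_one.2 ((div_le_one h0).2 hx.1.le)
  have h2 : √(‖x‖ / b) ≤ 1 := Real.sqrt_le_one.2 ((div_le_one (h0.trans hx.2)).2 hx.2.le)
  unfold wt; linarith

theorem good_rough0 {g : Met 4 M} {N : Nk M} {m : ℕ} {η η' V : ℝ} {Cs : ℕ → ℝ} (hT : N.Top)
    (h : Good g N m η Cs V) (h0 : 0 ≤ η) (h1 : 2 * η ≤ η') : Rough g N m η' V :=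
  ⟨fun x hx k hk i j => (h.jet x hx k hk i j).trans
    (by nlinarith [mul_le_mul_of_nonneg_left (wt_le_two hT.a_pos hx) h0]), h.vol⟩

theorem en_eq (F : Flow M) (t : ℝ) (x : M) (r : ℝ) : Sk.en (F.m t) x r = F.hc.en t x r := by
  have : (F.m t).ball x r = F.hc.B t x r := by
    ext y; simp only [Met.ball, HC.B, Flow.hc_d, Met.d, mem_ofPred_eq, dist_comm (α := Sl (F.m t)) y x]
  unfold Sk.en HC.en
  rw [this]; rfl

/-- Lipschitz bound along a segment in a parametrisation -/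
theorem seg_lip {Ψ : E4 → M} {U : Set E4} (hP : Par Ψ U) (g : Met 4 M) {u : M → ℝ} (hu : Sm 4 u)
    {c Λ : ℝ} (hc : 0 ≤ c) (hΛ : 0 ≤ Λ) {p q : E4} (hU : segment ℝ p q ⊆ U)
    (hG : ∀ z ∈ segment ℝ p q, ∀ ξ : Fin 4 → ℝ,
      ∑ i, ξ i ^ 2 ≤ c ^ 2 * ∑ i, ∑ j, (g.pm Ψ z)⁻¹ i j * ξ i * ξ j)
    (hb : ∀ z ∈ segment ℝ p q, g.gam u u (Ψ z) ≤ Λ ^ 2) :
    |u (Ψ q) - u (Ψ p)| ≤ c * Λ * ‖q - p‖ := by
  refine Convex.norm_image_sub_le_of_norm_fderiv_le (𝕜 := ℝ) (f := fun z => u (Ψ z))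
    (fun z hz => ?_) (fun z hz => ?_) (convex_segment p q) (left_mem_segment ℝ p q)
    (right_mem_segment ℝ p q)
  · have h1 := (hu (Ψ z)).comp z (hP.sm.contMDiffAt (hP.isOpen.mem_nhds (hU hz)))
    exact (contMDiffAt_iff_contDiffAt.1 h1).differentiableAt (by simp)
  · refine ContinuousLinearMap.opNorm_le_bound _ (by positivity) fun v => ?_
    have h1 := Hd.fderiv_sq_le (fun z => u (Ψ z)) z v
    have h2 := hG z hz fun i => pderiv i (fun z => u (Ψ z)) z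
    have h3 := hb z hz
    rw [hP.par_gam g hu hu (hU hz)] at h3
    have h4 : Hd.g2 (fun z => u (Ψ z)) z ≤ c ^ 2 * Λ ^ 2 :=
      h2.trans (mul_le_mul_of_nonneg_left h3 (sq_nonneg c))
    refine abs_le_of_sq_le_sq' ?_ (by positivity) |> abs_le.2
    nlinarith [mul_le_mul_of_nonneg_left h4 (sq_nonneg ‖v‖)]

theorem cap_of_neck (F : Flow M) {t : ℝ} [IsFiniteMeasure (F.m t).vol] {N : Nk M} (hT : N.Top)
    {w : M} {ρ θ κ : ℝ} (hρ : 0 < ρ) (hθ : 0 < θ) (hθ1 : θ ≤ 1) (hκ : 0 < κ) (hκ1 : κ ≤ 1)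
    (ha : N.a ≤ ρ / 64) (hb : 64 * ρ ≤ N.b) (hn : 2 * θ * Nat.card N.Γ ≤ 1)
    (hG : ∀ z ∈ shell N.a N.b, 1 - κ ≤ √((F.m t).pm N.Ψ z).det ∧ ∀ ξ : Fin 4 → ℝ,
      ∑ i, ξ i ^ 2 ≤ (1 + κ) ^ 2 * ∑ i, ∑ j, ((F.m t).pm N.Ψ z)⁻¹ i j * ξ i * ξ j)
    (d1 : ∀ x ∈ shell N.a N.b, 24 / 25 * (‖x‖ - N.a) ≤ (F.m t).d w (N.Ψ x) ∧
      (F.m t).d w (N.Ψ x) ≤ 26 / 25 * ‖x‖ + ρ / 2)
    (d2 : ∀ p ∉ N.Om N.b, 24 / 25 * (N.b - N.a) ≤ (F.m t).d w p)
    (d3 : ∀ p ∈ N.In, (F.m t).d w p ≤ ρ / 2) :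
    Cap F.hc t w ρ θ (om * (1 / 2 + (θ / 1280) ^ 4) * (1 - κ) / (1 + κ) ^ 4) (N.Om ρ) := by
  have a0 := hT.a_pos
  have fin := hT.grp.fin
  have inb : ∀ p, (F.m t).d w p < 8 * ρ → p ∈ N.Om N.b := fun p hp => by
    by_contra hc
    linarith [d2 p hc]
  have out : ∀ x : E4, ρ ≤ ‖x‖ → ‖x‖ ≤ 6 * ρ →
      x ∈ shell N.a N.b ∧ N.Ψ x ∈ F.hc.B t w (8 * ρ) \ N.Om ρ := fun x h1 h2 => by
    have hx : x ∈ shell N.a N.b := ⟨by linarith, by linarith⟩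
    refine ⟨hx, show (F.m t).d w (N.Ψ x) < 8 * ρ by linarith [(d1 x hx).2], ?_⟩
    rintro (h | ⟨x', hx', e⟩)
    · exact hT.disj x hx h
    · obtain ⟨γ, -, rfl⟩ := (hT.fib x' ⟨hx'.1, by linarith [hx'.2]⟩ x hx).1 e
      rw [γ.norm_map] at h1
      linarith [hx'.2]
  refine ⟨fun p hp => ?_, ?_, fun y hy hy' => ?_⟩
  · have hp' : (F.m t).d w p < ρ / 2 := hp
    rcases inb p (by linarith) with h | ⟨x, hx, rfl⟩
    · exact Or.inl h
    · exact Or.inr ⟨x, ⟨hx.1, by linarith [(d1 x hx).1]⟩, rfl⟩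
  · rintro p (h | ⟨x, hx, rfl⟩)
    · show (F.m t).d w p < 2 * ρ
      linarith [d3 p h]
    · show (F.m t).d w (N.Ψ x) < 2 * ρ
      linarith [(d1 x ⟨hx.1, by linarith [hx.2]⟩).2, hx.2]
  have hy0 : (F.m t).d w y < 4 * ρ := hy
  obtain ⟨p, hp, rfl⟩ : y ∈ N.Ψ '' shell N.a N.b :=
    (inb y (by linarith)).resolve_left fun h => hy' (Or.inl h)
  have p1 : ρ ≤ ‖p‖ := not_lt.1 fun h => hy' (Or.inr ⟨p, ⟨hp.1, h⟩, rfl⟩)
  have p2 : ‖p‖ ≤ 5 * ρ := by linarith [(d1 p hp).1]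
  obtain ⟨r, hr⟩ : ∃ r, r = θ * ρ / (1 + κ) := ⟨_, rfl⟩
  have r0 : 0 < r := by rw [hr]; positivity
  have r1 : (1 + κ) * r = θ * ρ := by rw [hr]; field_simp
  have r2 : r ≤ θ * ρ := by nlinarith
  have r3 : θ * ρ ≤ ρ := by nlinarith
  obtain ⟨S, mS, sS, vS, pS⟩ := geom p r0 (by linarith)
  have nb : ∀ z ∈ closedBall p r, ‖z‖ ≤ 6 * ρ := fun z hz => by
    have := norm_le_norm_add_norm_sub' z p
    linarith [mem_closedBall_iff_norm.1 hz]
  have S1 : ∀ x ∈ S, ρ ≤ ‖x‖ := fun x hx => by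
    obtain ⟨x', -, -, h⟩ := pS x hx
    exact p1.trans (h x (right_mem_segment ℝ x' x))
  have S2 := fun x (hx : x ∈ S) => out x (S1 x hx) (nb x (ball_subset_closedBall (sS hx)))
  refine ⟨N.Ψ '' S, by rintro _ ⟨x, hx, rfl⟩; exact (S2 x hx).2, ?_, ?_⟩
  · have inj : InjOn N.Ψ S := fun x hx x' hx' e => by
      obtain ⟨γ, hγ, rfl⟩ := (hT.fib x (S2 x hx).1 x' (S2 x' hx').1).1 e
      by_cases h1 : γ = 1
      · rw [h1]; rfl
      have k1 := move_ge hT.grp.free hγ h1 x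
      have k2 : ‖γ x - x‖ < 2 * r := by
        have := norm_sub_le_norm_sub_add_norm_sub (γ x) p x
        rw [norm_sub_rev p x] at this
        linarith [mem_ball_iff_norm.1 (sS hx), mem_ball_iff_norm.1 (sS hx')]
      have n0 : (0 : ℝ) < Nat.card N.Γ := by exact_mod_cast Nat.card_pos
      have k3 := mul_lt_mul_of_pos_left k2 n0
      have k4 := mul_le_mul_of_nonneg_left r2 n0.le
      have k5 := mul_le_mul_of_nonneg_right hn hρ.le
      linarith [S1 x hx]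
    have v1 : ENNReal.ofReal (1 - κ) * volume S ≤ (F.m t).vol (N.Ψ '' S) := by
      rw [V.vol_par hT.par (F.m t) (fun x hx => (S2 x hx).1) mS inj, ← setLIntegral_const]
      exact setLIntegral_mono' mS fun x hx => ENNReal.ofReal_le_ofReal (hG x (S2 x hx).1).1
    have v2 := ENNReal.toReal_mono (measure_ne_top _ _) v1
    rw [ENNReal.toReal_mul, ENNReal.toReal_ofReal (by linarith)] at v2
    refine le_trans ?_ v2
    refine le_trans ?_ (mul_le_mul_of_nonneg_left vS (by linarith))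
    have v3 : θ / 1280 ≤ r / (128 * ‖p‖) := by
      rw [div_le_div_iff₀ (by norm_num) (by linarith)]
      nlinarith [mul_le_mul_of_nonneg_left p2 hθ.le]
    have o := om_pos
    have k0 : 0 ≤ 1 - κ := by linarith
    calc _ = (1 - κ) * (om * (1 / 2 + (θ / 1280) ^ 4) * r ^ 4) := by rw [← r1]; field_simp
      _ ≤ _ := by gcongr
  rintro u hu Λ hΛ hg _ ⟨x, hx, rfl⟩
  obtain ⟨x', l, s1, s2⟩ := pS x hx
  have m1 : p ∈ closedBall p r := mem_closedBall_self r0.le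
  have m2 : x' ∈ closedBall p r := mem_closedBall_iff_norm.2 (by linarith [norm_nonneg (x - x')])
  have m3 : x ∈ closedBall p r := ball_subset_closedBall (sS hx)
  have key : ∀ a ∈ closedBall p r, ∀ b ∈ closedBall p r, (∀ z ∈ segment ℝ a b, ‖p‖ ≤ ‖z‖) →
      |u (N.Ψ b) - u (N.Ψ a)| ≤ (1 + κ) * Λ * ‖b - a‖ := fun a ha' b hb' h => by
    have o := fun z (hz : z ∈ segment ℝ a b) =>
      out z (p1.trans (h z hz)) (nb z ((convex_closedBall p r).segment_subset ha' hb' hz))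
    exact seg_lip hT.par (F.m t) hu (by linarith) hΛ (fun z hz => (o z hz).1)
      (fun z hz => (hG z (o z hz).1).2) fun z hz => hg _ (o z hz).2.1 (o z hz).2.2
  have k1 := key p m1 x' m2 s1
  have k2 := key x' m2 x m3 s2
  have k3 := abs_sub_le (u (N.Ψ x)) (u (N.Ψ x')) (u (N.Ψ p))
  have k4 := mul_le_mul_of_nonneg_left l (by positivity : 0 ≤ (1 + κ) * Λ)
  have k5 : (1 + κ) * Λ * r = Λ * (θ * ρ) := by rw [← r1]; ring
  linarith

theorem nvLo {F : Flow M} (hB : Base F) (hC : CONE F) (hH : HDEC F) (hD : DIST F) (hV : VOLN F)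
    {ε : ℝ} (hε : 0 < ε) : ∃ θ v : ℝ, 0 < θ ∧ θ ≤ 1 ∧ om / 2 < v ∧ NVLo F.hc ε θ v := by
  obtain ⟨η1, hη1, hH⟩ := hH
  obtain ⟨V, K1, r1, n1, hK1, hr1, hC⟩ := hC η1 ε hη1 hε
  obtain ⟨K3, r3, hK3, hr3, hD⟩ := hD 6
  obtain ⟨n0, K4, r4, hr4, hV⟩ := hV.2 6
  obtain ⟨θ, hθ⟩ : ∃ θ : ℝ, θ = 1 / (2 * (n0 + 1)) := ⟨_, rfl⟩
  have θ0 : 0 < θ := by rw [hθ]; positivity
  have θ2 : 2 * θ * (n0 + 1) = 1 := by rw [hθ]; field_simp
  have θ1 : θ ≤ 1 := by nlinarith [mul_nonneg θ0.le (Nat.cast_nonneg (α := ℝ) n0)]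
  obtain ⟨c, hc⟩ : ∃ c, c = (θ / 1280) ^ 4 := ⟨_, rfl⟩
  have c0 : 0 < c := by rw [hc]; positivity
  have c1 : c ≤ 1 := hc ▸ pow_le_one₀ (by positivity) (by linarith)
  obtain ⟨η0, hη0, hn⟩ := near_one (κ := c / 10) (by positivity)
  obtain ⟨η, η0', η2, η3⟩ : ∃ η, 0 < η ∧ 2 * η ≤ η0 ∧ 2 * η ≤ 1 / 100 :=
    ⟨min η0 (1 / 100) / 2, by positivity, by linarith [min_le_left η0 (1 / 100)],
      by linarith [min_le_right η0 (1 / 100)]⟩
  obtain ⟨K2, r2, Cs, hK2, hr2, hH⟩ := hH V 0 η η0'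
  obtain ⟨L, hL⟩ : ∃ L, L = 64 + 2 * K3 + |K4| + K2 := ⟨_, rfl⟩
  have k4 := abs_nonneg K4
  have L0 : 64 ≤ L := by linarith
  refine ⟨θ, om * (1 / 2 + (θ / 1280) ^ 4) * (1 - c / 10) / (1 + c / 10) ^ 4, θ0, θ1, ?_,
    K1 * (L * K2), min (min r1 r2) (min r3 r4), n1, by nlinarith [mul_le_mul L0 hK2 (by norm_num) (by linarith)], by positivity,
    fun t ht w => ?_⟩
  · rw [← hc, lt_div_iff₀ (by positivity)]
    have e1 : (1 + c / 10) ^ 2 ≤ 1 + 3 * (c / 10) := by nlinarith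
    have e2 : (1 + c / 10) ^ 4 ≤ 1 + 15 * (c / 10) := by
      have := pow_le_pow_left₀ (by positivity) e1 2
      nlinarith
    have e3 : 1 / 2 * (1 + c / 10) ^ 4 < (1 / 2 + c) * (1 - c / 10) := by nlinarith
    nlinarith [mul_lt_mul_of_pos_left e3 om_pos]
  obtain ⟨Bad, hBad, hC⟩ := hC t ht w
  refine ⟨Bad, hBad, fun ρ hρ hr hb he => ?_⟩
  have LK : 128 ≤ L * K2 := by nlinarith
  have b1 : L * K2 * ρ ≤ min (min r1 r2) (min r3 r4) :=
    le_trans (by nlinarith [mul_pos (by linarith : 0 < L * K2) hρ]) hr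
  have b2 : L * ρ ≤ L * K2 * ρ := by nlinarith [mul_pos (by linarith : 0 < L) hρ]
  have e1 : ρ / (L * K2) / K1 = ρ / (K1 * (L * K2)) := by field_simp
  obtain ⟨N, hT, na, nb, hw, hR⟩ := hC (ρ / (L * K2)) (L * K2 * ρ) (by positivity)
    (by rw [div_lt_iff₀ (by positivity)]; nlinarith [mul_le_mul LK LK (by norm_num) (by linarith)])
    (b1.trans ((min_le_left _ _).trans (min_le_left _ _)))
    (fun j hj => by rw [e1, ← mul_assoc K1 (L * K2) ρ]; exact hb j hj) (by rw [e1, en_eq]; exact he)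
  obtain ⟨N', hT', na', nb', hI, hG, -⟩ := hH t ht N hT hR
    (nb ▸ b1.trans ((min_le_left _ _).trans (min_le_right _ _))) (by
      rw [na, nb, show K2 ^ 3 * (ρ / (L * K2)) = K2 / L * K2 * ρ by field_simp]
      gcongr
      rw [div_le_iff₀ (by linarith)]; nlinarith)
  have a1 : N'.a = ρ / L := by rw [na', na]; field_simp
  have a2 : N'.b = L * ρ := by rw [nb', nb]; field_simp
  have a3 : N'.a ≤ ρ / 64 := by rw [a1]; gcongr
  have a4 : 64 * ρ ≤ N'.b := by rw [a2]; gcongr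
  have a5 : K3 * N'.a ≤ ρ / 2 := by
    rw [a1, ← mul_div_assoc, div_le_div_iff₀ (by linarith) (by norm_num)]; nlinarith
  have a0 := hT'.a_pos
  have R1 := good_rough0 hT' hG η0'.le η3
  obtain ⟨d1, d2, d3⟩ := hD t ht N' (1 / 100) hT' R1 le_rfl
    (a2 ▸ b2.trans (b1.trans ((min_le_right _ _).trans (min_le_left _ _)))) (by linarith) w (hI hw)
  have n2 := hV t ht N' hT' R1
    (a2 ▸ b2.trans (b1.trans ((min_le_right _ _).trans (min_le_right _ _)))) (by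
      have : K4 * N'.a ≤ L * N'.a := by gcongr; linarith [le_abs_self K4]
      have h2 : L * N'.a = ρ := by rw [a1]; field_simp
      linarith)
  have : IsFiniteMeasure (F.m t).vol :=
    hB.ok.int.fin t ⟨(half_pos F.hT).trans_le ht.1, ht.2⟩
  refine ⟨_, cap_of_neck F hT' hρ θ0 θ1 (by positivity) (by linarith) a3 a4 ?_
    (fun z hz => hn _ (JG_entry ((good_rough0 hT' hG η0'.le η2).jet z hz)))
    (fun x hx => ⟨by linarith [(d1 x hx).1], by linarith [(d1 x hx).2]⟩)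
    (fun p hp => by linarith [d2 p hp]) fun p hp => (d3 p hp).trans a5⟩
  have : (Nat.card N'.Γ : ℝ) ≤ n0 := by exact_mod_cast n2
  nlinarith

end Crest.Agent.N207.T

end
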