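import Crest.Agent.N207.K.Hd1

/-!
# Row 207, block TOP (helper22): Euclidean lemmas for the lower volume ratio
-/

set_option autoImplicit false
open MeasureTheory Set Filter Topology Metric
open scoped ContDiff RealInnerProductSpace
open Crest.GeometryTopology.CoordMetric

noncomputable section

namespace Crest.Agent.N207.T

/-- the volume of the unit ball of `ℝ⁴` -/
def om : ℝ := (volume (ball (0 : E4) 1)).toReal

theorem om_pos : 0 < om :=
  ENNReal.toReal_pos (measure_ball_pos _ _ one_pos).ne' measure_ball_lt_top.ne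

theorem vol_ball (y : E4) {r : ℝ} (hr : 0 < r) : volume.real (ball y r) = om * r ^ 4 := by
  rw [Measure.real, Measure.addHaar_ball_of_pos _ _ hr, ENNReal.toReal_mul,
    ENNReal.toReal_ofReal (by positivity), om]
  simp [mul_comm]

theorem seg_out {x y : E4} (h : 0 ≤ ⟪x - y, y⟫) : ∀ z ∈ segment ℝ y x, ‖y‖ ≤ ‖z‖ := by
  rw [segment_eq_image']
  rintro _ ⟨t, ht, rfl⟩
  refine le_of_sq_le_sq ?_ (norm_nonneg _) |>.trans le_rfl
  rw [norm_add_sq_real, inner_smul_right, real_inner_comm]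
  nlinarith [mul_nonneg ht.1 h, sq_nonneg ‖t • (x - y)‖]

theorem exists_perp (y : E4) : ∃ e : E4, ‖e‖ = ‖y‖ ∧ ⟪e, y⟫ = 0 := by
  refine ⟨!₂[-y 1, y 0, -y 3, y 2], ?_, ?_⟩
  · simp only [EuclideanSpace.norm_eq, Fin.sum_univ_four]
    congr 1
    simp; ring
  · simp [PiLp.inner_apply, Fin.sum_univ_four]; ring

/-- more than half of a ball can be reached outside a sphere -/
theorem geom (y : E4) {r : ℝ} (hr : 0 < r) (hy : r ≤ ‖y‖) : ∃ S : Set E4, MeasurableSet S ∧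
    S ⊆ ball y r ∧ om * (1 / 2 + (r / (128 * ‖y‖)) ^ 4) * r ^ 4 ≤ volume.real S ∧
    ∀ x ∈ S, ∃ x', ‖x' - y‖ + ‖x - x'‖ ≤ r ∧ (∀ z ∈ segment ℝ y x', ‖y‖ ≤ ‖z‖) ∧
      ∀ z ∈ segment ℝ x' x, ‖y‖ ≤ ‖z‖ := by
  obtain ⟨e, e1, e2⟩ := exists_perp y
  have y0 : 0 < ‖y‖ := hr.trans_le hy
  obtain ⟨s, hs⟩ : ∃ s, s = r ^ 2 / (64 * ‖y‖) := ⟨_, rfl⟩
  have s0 : 0 < s := by rw [hs]; positivity
  have s1 : s * ‖y‖ = r ^ 2 / 64 := by rw [hs]; field_simp
  have s2 : s ≤ r / 64 := by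
    rw [hs, div_le_div_iff₀ (by positivity) (by norm_num)]; nlinarith
  set c : E4 := y + ((r / (2 * ‖y‖)) • e - (s / ‖y‖) • y) with hc
  set Hb : Set E4 := ball y r ∩ {x | 0 ≤ ⟪x - y, y⟫} with hH
  have mH : MeasurableSet Hb := measurableSet_ball.inter
    (isClosed_le continuous_const (by fun_prop)).measurableSet
  have k1 : ∀ x ∈ ball c (s / 2), ‖x - y‖ < r / 2 + 3 * s / 2 ∧ ⟪x - y, y⟫ < 0 ∧
      -(3 * s / 2 * ‖y‖) ≤ ⟪x - y, y⟫ ∧ r / 4 * ‖y‖ ≤ ⟪x - y, e⟫ := fun x hx => by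
    have w : ‖x - c‖ < s / 2 := mem_ball_iff_norm.1 hx
    have ex : x - y = (x - c) + ((r / (2 * ‖y‖)) • e - (s / ‖y‖) • y) := by rw [hc]; abel
    have n1 : ‖(r / (2 * ‖y‖)) • e‖ = r / 2 := by
      rw [norm_smul, e1, Real.norm_of_nonneg (by positivity)]; field_simp
    have n2 : ‖(s / ‖y‖) • y‖ = s := by
      rw [norm_smul, Real.norm_of_nonneg (by positivity)]; field_simp
    have i1 : ⟪x - y, y⟫ = ⟪x - c, y⟫ - s * ‖y‖ := by
      rw [ex, inner_add_left, inner_sub_left (_ • e), real_inner_smul_left, real_inner_smul_left, e2,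
        real_inner_self_eq_norm_sq]; field_simp; ring
    have i2 : ⟪x - y, e⟫ = ⟪x - c, e⟫ + r / 2 * ‖y‖ := by
      rw [ex, inner_add_left, inner_sub_left (_ • e), real_inner_smul_left, real_inner_smul_left,
        real_inner_comm e y, e2, real_inner_self_eq_norm_sq, e1]; field_simp; ring
    have a1 := abs_le.1 (abs_real_inner_le_norm (x - c) y)
    have a2 := abs_le.1 (abs_real_inner_le_norm (x - c) e)
    rw [e1] at a2
    have a3 : ‖x - c‖ * ‖y‖ ≤ s / 2 * ‖y‖ := by gcongr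
    refine ⟨?_, by nlinarith [mul_pos s0 y0], by linarith, by nlinarith⟩
    have := (norm_add_le (x - c) _).trans (add_le_add le_rfl
      (norm_sub_le ((r / (2 * ‖y‖)) • e) ((s / ‖y‖) • y)))
    rw [← ex, n1, n2] at this
    linarith
  refine ⟨Hb ∪ ball c (s / 2), mH.union measurableSet_ball, union_subset inter_subset_left
    fun x hx => mem_ball_iff_norm.2 (by linarith [(k1 x hx).1]), ?_, ?_⟩
  · have f1 : volume Hb ≠ ⊤ := ((measure_mono inter_subset_left).trans_lt measure_ball_lt_top).ne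
    rw [measureReal_union (disjoint_left.2 fun x h1 h2 => absurd h1.2 (not_le.2 (k1 x h2).2.1))
      measurableSet_ball f1 measure_ball_lt_top.ne, vol_ball _ (by positivity)]
    have v1 : volume.real (ball y r) ≤ volume.real Hb + volume.real Hb := by
      have mp := Measure.measurePreserving_sub_left (volume : Measure E4) (y + y)
      have e3 : volume.real ((fun x => y + y - x) ⁻¹' Hb) = volume.real Hb := by
        rw [Measure.real, mp.measure_preimage mH.nullMeasurableSet, Measure.real]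
      refine (measureReal_mono (s₂ := Hb ∪ (fun x => y + y - x) ⁻¹' Hb) (fun x hx => ?_)
        (measure_union_ne_top f1 (by rwa [mp.measure_preimage mH.nullMeasurableSet]))).trans
        ((measureReal_union_le _ _).trans (by rw [e3]))
      rcases le_total 0 ⟪x - y, y⟫ with h | h
      · exact Or.inl ⟨hx, h⟩
      · have e4 : y + y - x - y = -(x - y) := by abel
        refine Or.inr ⟨mem_ball_iff_norm.2 ?_, ?_⟩
        · rw [e4, norm_neg]; exact mem_ball_iff_norm.1 hx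
        · show 0 ≤ ⟪y + y - x - y, y⟫
          rw [e4, inner_neg_left]; linarith
    rw [vol_ball _ hr] at v1
    have e5 : (r / (128 * ‖y‖)) ^ 4 * r ^ 4 = (s / 2) ^ 4 := by rw [hs]; field_simp; norm_num
    have e6 : om * (1 / 2 + (r / (128 * ‖y‖)) ^ 4) * r ^ 4 =
        om * r ^ 4 / 2 + om * ((r / (128 * ‖y‖)) ^ 4 * r ^ 4) := by ring
    rw [e6, e5]; linarith
  rintro x (hx | hx)
  · refine ⟨x, by simpa using (mem_ball_iff_norm.1 hx.1).le, seg_out hx.2, fun z hz => ?_⟩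
    rw [segment_same, mem_singleton_iff] at hz
    exact seg_out hx.2 z (hz ▸ right_mem_segment ℝ y x)
  obtain ⟨b1, b2, b3, b4⟩ := k1 x hx
  set h := ⟪x - y, y⟫ / ‖y‖ ^ 2 with hh
  have h1 : h * ‖y‖ ^ 2 = ⟪x - y, y⟫ := by rw [hh]; field_simp
  have h0 : h ≤ 0 := div_nonpos_of_nonpos_of_nonneg b2.le (sq_nonneg _)
  have h2 : -(3 * s / 2) ≤ h * ‖y‖ := by
    by_contra hn
    nlinarith [mul_lt_mul_of_pos_right (not_le.1 hn) y0]
  have p1 : ⟪x - h • y - y, y⟫ = 0 := by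
    rw [sub_right_comm, inner_sub_left, real_inner_smul_left, real_inner_self_eq_norm_sq, h1,
      sub_self]
  have p2 : r / 4 ≤ ‖x - h • y - y‖ := by
    have a1 := real_inner_le_norm (x - h • y - y) e
    rw [sub_right_comm, inner_sub_left, real_inner_smul_left, real_inner_comm e y, e2, e1,
      ← sub_right_comm] at a1
    exact le_of_mul_le_mul_right (by linarith) y0
  have n1 : ‖h • y‖ = -(h * ‖y‖) := by rw [norm_smul, Real.norm_of_nonpos h0]; ring
  refine ⟨x - h • y, ?_, seg_out p1.ge, ?_⟩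
  · have a1 := norm_sub_le (x - y) (h • y)
    rw [← sub_right_comm] at a1
    rw [sub_sub_cancel, n1]
    linarith
  · rw [segment_eq_image']
    rintro _ ⟨t, ht, rfl⟩
    refine le_of_sq_le_sq ?_ (norm_nonneg _) |>.trans le_rfl
    have e3 : x - h • y + t • (x - (x - h • y)) = (x - h • y - y) + (1 + t * h) • y := by
      module
    simp only []
    rw [e3, norm_add_sq_real, inner_smul_right, p1, norm_smul, mul_pow, Real.norm_eq_abs, sq_abs]
    have a1 : (r / 4) ^ 2 ≤ ‖x - h • y - y‖ ^ 2 := by gcongr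
    have a2 : -(3 * s / 2) * ‖y‖ ≤ t * (h * ‖y‖) * ‖y‖ := by
      refine mul_le_mul_of_nonneg_right ?_ y0.le
      nlinarith [ht.1, ht.2, mul_nonpos_of_nonpos_of_nonneg h0 y0.le]
    nlinarith [sq_nonneg (t * h * ‖y‖)]

/-- a finite group acting freely moves points by a definite amount -/
theorem move_ge {Γ : Subgroup (E4 ≃ₗᵢ[ℝ] E4)} [Finite Γ]
    (hf : ∀ γ ∈ Γ, ∀ x : E4, x ≠ 0 → γ x = x → γ = 1) {γ : E4 ≃ₗᵢ[ℝ] E4} (hγ : γ ∈ Γ)
    (h1 : γ ≠ 1) (x : E4) : ‖x‖ ≤ Nat.card Γ * ‖γ x - x‖ := by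
  set n := Nat.card Γ with hn
  have n0 : 0 < n := Nat.card_pos
  have e1 : γ ^ n = 1 := by
    have : (⟨γ, hγ⟩ : Γ) ^ n = 1 := pow_card_eq_one'
    exact congrArg Subtype.val this
  have e2 : ∀ k : ℕ, (γ ^ (k + 1)) x = γ ((γ ^ k) x) := fun k => by rw [pow_succ']; rfl
  have e3 : ∑ k ∈ Finset.range n, (γ ^ k) x = 0 := by
    by_contra hne
    refine h1 (hf γ hγ _ hne ?_)
    rw [map_sum]
    simp only [← e2]
    have := Finset.sum_range_succ' (fun k => (γ ^ k) x) n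
    rw [Finset.sum_range_succ, e1, pow_zero] at this
    exact (add_right_cancel this).symm
  have e4 : ∀ k : ℕ, ‖(γ ^ k) x - x‖ ≤ k * ‖γ x - x‖ := fun k => by
    induction k with
    | zero => simp
    | succ k ih =>
      have : (γ ^ (k + 1)) x - x = γ ((γ ^ k) x - x) + (γ x - x) := by rw [e2, map_sub]; abel
      rw [this]
      refine (norm_add_le _ _).trans ?_
      rw [γ.norm_map]; push_cast; linarith
  have e5 : ∑ k ∈ Finset.range n, ((γ ^ k) x - x) = -((n : ℝ) • x) := by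
    rw [Finset.sum_sub_distrib, e3, Finset.sum_const, Finset.card_range, zero_sub, Nat.cast_smul_eq_nsmul]
  have e6 : ‖∑ k ∈ Finset.range n, ((γ ^ k) x - x)‖ ≤ ∑ _k ∈ Finset.range n, n * ‖γ x - x‖ :=
    (norm_sum_le _ _).trans (Finset.sum_le_sum fun k hk => (e4 k).trans (by
      have : (k : ℝ) ≤ n := by exact_mod_cast (Finset.mem_range.1 hk).le
      gcongr))
  rw [e5, norm_neg, norm_smul, Finset.sum_const, Finset.card_range, nsmul_eq_mul,
    Real.norm_of_nonneg (Nat.cast_nonneg n)] at e6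
  exact le_of_mul_le_mul_left e6 (by exact_mod_cast n0)

/-- matrices close to the identity -/
theorem near_one {κ : ℝ} (hκ : 0 < κ) : ∃ η, 0 < η ∧ ∀ G : Matrix (Fin 4) (Fin 4) ℝ,
    (∀ i j, |G i j - (1 : Matrix (Fin 4) (Fin 4) ℝ) i j| ≤ η) → 1 - κ ≤ √G.det ∧
      ∀ ξ : Fin 4 → ℝ, ∑ i, ξ i ^ 2 ≤ (1 + κ) ^ 2 * ∑ i, ∑ j, G⁻¹ i j * ξ i * ξ j := by
  obtain ⟨β, hβ⟩ : ∃ β, β = κ / (4 * (1 + κ) ^ 2) := ⟨_, rfl⟩
  have β0 : 0 < β := by rw [hβ]; positivity
  have c1 : ContinuousAt (fun G : Matrix (Fin 4) (Fin 4) ℝ => √G.det) 1 :=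
    (continuous_id.matrix_det.sqrt).continuousAt
  have c2 : ContinuousAt (fun G : Matrix (Fin 4) (Fin 4) ℝ => G⁻¹) 1 :=
    continuousAt_matrix_inv _ (by
      rw [Matrix.det_one]; exact NormedRing.inverse_continuousAt (1 : ℝˣ))
  have v1 : ∀ᶠ G : Matrix (Fin 4) (Fin 4) ℝ in 𝓝 1, 1 - κ < √G.det :=
    c1.eventually (lt_mem_nhds (by simp [hκ]))
  have v2 : ∀ᶠ G : Matrix (Fin 4) (Fin 4) ℝ in 𝓝 1, ∀ i j,
      |G⁻¹ i j - (1 : Matrix (Fin 4) (Fin 4) ℝ) i j| < β := by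
    refine eventually_all.2 fun i => eventually_all.2 fun j => ?_
    have c3 : ContinuousAt (fun G : Matrix (Fin 4) (Fin 4) ℝ =>
        |G⁻¹ i j - (1 : Matrix (Fin 4) (Fin 4) ℝ) i j|) 1 :=
      (((continuous_id.matrix_elem i j).continuousAt.comp c2).sub continuousAt_const).abs
    exact c3.eventually (gt_mem_nhds (by simp [β0]))
  obtain ⟨ε, hε, h⟩ := (Metric.eventually_nhds_iff (α := Fin 4 → Fin 4 → ℝ)).1 (v1.and v2)
  refine ⟨ε / 2, by positivity, fun G hG => ?_⟩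
  obtain ⟨k1, k2⟩ := @h G ((dist_pi_lt_iff hε).2 fun i => (dist_pi_lt_iff hε).2 fun j => by
    rw [Real.dist_eq]; exact (hG i j).trans_lt (by linarith))
  refine ⟨k1.le, fun ξ => ?_⟩
  have a1 : ∀ i j, (1 : Matrix (Fin 4) (Fin 4) ℝ) i j * ξ i * ξ j - β * ((ξ i ^ 2 + ξ j ^ 2) / 2)
      ≤ G⁻¹ i j * ξ i * ξ j := fun i j => by
    have b1 := abs_lt.1 (k2 i j)
    nlinarith [mul_nonneg (sub_nonneg.2 b1.1.le) (sq_nonneg (ξ i + ξ j)),
      mul_nonneg (sub_nonneg.2 b1.2.le) (sq_nonneg (ξ i - ξ j))]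
  have a2 := Finset.sum_le_sum fun i (_ : i ∈ Finset.univ) =>
    Finset.sum_le_sum fun j (_ : j ∈ Finset.univ) => a1 i j
  have a3 : ∑ i, ∑ j, ((1 : Matrix (Fin 4) (Fin 4) ℝ) i j * ξ i * ξ j -
      β * ((ξ i ^ 2 + ξ j ^ 2) / 2)) = (1 - 4 * β) * ∑ i, ξ i ^ 2 := by
    simp [Fin.sum_univ_four, Matrix.one_apply]; ring
  rw [a3] at a2
  have a4 : 0 ≤ ∑ i, ξ i ^ 2 := Finset.sum_nonneg fun _ _ => sq_nonneg _
  have a5 : (1 + κ) ^ 2 * (1 - 4 * β) = (1 + κ) ^ 2 - κ := by rw [hβ]; field_simp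
  calc _ ≤ (1 + κ) ^ 2 * ((1 - 4 * β) * ∑ i, ξ i ^ 2) := by
        rw [← mul_assoc, a5]; nlinarith [mul_nonneg a4 hκ.le, mul_nonneg a4 (sq_nonneg κ)]
    _ ≤ _ := by gcongr

end Crest.Agent.N207.T

end
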