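import Crest.Agent.N207.T.Pers2
import Crest.Agent.N207.T.Defs
import Crest.Agent.N207.AI.Par2
import Crest.Agent.N207.Rad.Crd

/-!
# Row 207 (helper7): the statements `PERS` and `CURV` of block TOP
-/

set_option autoImplicit false
set_option linter.unusedSectionVars false

open Set Metric Filter Topology Function MeasureTheory
open scoped ContDiff BigOperators Manifold
open Crest.GeometryTopology.CoordMetric Crest.GeometryTopology.ChartCurvature
open Crest.Agent.R202.Tens Crest.Agent.N207.AI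

noncomputable section

namespace Crest.Agent.N207.Pw

namespace PDat

variable {n M : ℕ} {K : ℝ} {A B : ℕ → ℝ}

theorem chr_eq (d : PDat n M K A B) {σ : ℝ} (hσ : σ ∈ uIcc d.t d.s) {x : En n} (hx : x ∈ d.D.U)
    (l i j : Fin n) : d.D.ρ * christoffel (d.G σ) x l i j =
      ∑ p, 1 / 2 * (d.G σ x)⁻¹ l p * (d.D.ρ * pderiv i (U n M K A B j p d σ) x +
        d.D.ρ * pderiv j (U n M K A B i p d σ) x - d.D.ρ * pderiv p (U n M K A B i j d σ) x) := by
  have e : ∀ k a b, pderiv k (U n M K A B a b d σ) x = pderiv k (fun y => d.G σ y a b) x := by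
    intro k a b
    have hd := differentiableAt_entry (d.riem hσ) hx a b
    unfold U
    rw [F.pd_sub hd (differentiableAt_const _), F.pd_const, sub_zero]
  simp only [christoffel, e, inverseField, Finset.mul_sum]
  refine Finset.sum_congr rfl fun p _ => ?_
  ring

theorem step {m : ℕ} (hm : m + 1 ≤ M)
    (hinv : ∀ a b, Bd (R n M K A B) m fun p x => (p.1.1.G p.1.2 x)⁻¹ a b)
    (hT : ∀ j, j + m ≤ M → ∀ I, Bd (R n M K A B) m fun p => T n M K A B j I p.1.1 p.1.2)
    (k a b : Fin n) :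
    Bd (R n M K A B) m fun p x => p.1.1.D.ρ * pderiv k (U n M K A B a b p.1.1 p.1.2) x := by
  let π : Fin n × Fin n × Fin n → Fin n × Fin n × Fin 6 → Fin n × Fin n × Fin n := fun c q =>
    ![(c.1, c.2.1, q.2.1), (c.2.1, c.1, q.2.1), (q.2.1, c.1, c.2.1),
      (c.1, c.2.2, q.2.1), (c.2.2, c.1, q.2.1), (q.2.1, c.1, c.2.2)] q.2.2
  let sg : Fin 6 → ℝ := ![-1, -1, 1, -1, -1, 1]
  let ix : Fin n × Fin n × Fin n → Fin n × Fin n × Fin 6 → Fin (2 + 0) → Fin n := fun c q =>
    ![![q.1, c.2.2], ![q.1, c.2.2], ![q.1, c.2.2], ![c.2.1, q.1], ![c.2.1, q.1], ![c.2.1, q.1]]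
      q.2.2
  refine Bd.tode win π (C := fun c q d σ x => sg q.2.2 * d.δ * (d.G σ x)⁻¹ q.1 q.2.1 *
      T n M K A B 0 (ix c q) d σ x) m
    (u := fun c d σ x => d.D.ρ * pderiv c.1 (U n M K A B c.2.1 c.2.2 d σ) x)
    (f := fun c d σ x => -2 * d.δ * T n M K A B 1 ![c.1, c.2.1, c.2.2] d σ x)
    (fun c d => contDiffOn_const.mul (st_pderiv d.D.op (st_U _ _ d) _)) ?_
    (fun c q => (((Bd.const' _).mul bd_del).mul (hinv _ _)).mul (hT 0 (by omega) _))
    (fun c => ((Bd.const' _).mul bd_del).mul (hT 1 (by omega) _))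
    (fun c => (bd_init hm _ _).2 c.1) (k, a, b)
  rintro ⟨k, i, j⟩ d σ hσ x hx
  have h1 := (F.dt_pd d.fl.isOpenJ d.D.op (st_U i j d) (d.sub hσ)
    (fun y hy => dt_U i j d hσ hy) hx k).const_mul d.D.ρ
  refine h1.congr_deriv ?_
  have hw := (d.w0 σ hσ).ne'
  have hδ := d.hδ.ne'
  have hd : DifferentiableAt ℝ (fun y => ricci (d.G σ) y i j) x :=
    (SmT.ricT (d.riem hσ)).dAt d.D.op hx ![i, j]
  have e1 : pderiv k (fun y => -2 * ricci (d.G σ) y i j) x =
      -2 * pderiv k (fun y => ricci (d.G σ) y i j) x := by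
    rw [F.pd_mul (differentiableAt_const _) hd, F.pd_const]
    ring
  have e2 : T n M K A B 1 ![k, i, j] d σ x = d.D.ρ ^ 1 / (d.δ * d.w σ) *
      (pderiv k (fun y => ricci (d.G σ) y i j) x
        - ∑ l, christoffel (d.G σ) x l k i * ricci (d.G σ) x l j
        - ∑ l, christoffel (d.G σ) x l k j * ricci (d.G σ) x i l) :=
    congrArg (d.D.ρ ^ 1 / (d.δ * d.w σ) * ·) (cov_two (d.G σ) (ricT (d.G σ)) x k i j)
  have e4 : ∑ q : Fin n × Fin n × Fin 6, sg q.2.2 * d.δ * (d.G σ x)⁻¹ q.1 q.2.1 *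
      T n M K A B 0 (ix (k, i, j) q) d σ x * (d.D.ρ * pderiv (π (k, i, j) q).1
        (U n M K A B (π (k, i, j) q).2.1 (π (k, i, j) q).2.2 d σ) x) =
      -2 * (d.δ * (d.δ * d.w σ)⁻¹) *
        (∑ l, d.D.ρ * christoffel (d.G σ) x l k i * ricci (d.G σ) x l j +
          ∑ l, d.D.ρ * christoffel (d.G σ) x l k j * ricci (d.G σ) x i l) := by
    rw [Fintype.sum_prod_type, ← Finset.sum_add_distrib, Finset.mul_sum]
    refine Finset.sum_congr rfl fun l _ => ?_
    rw [Fintype.sum_prod_type, d.chr_eq hσ hx, d.chr_eq hσ hx, Finset.sum_mul, Finset.sum_mul,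
      ← Finset.sum_add_distrib, Finset.mul_sum]
    refine Finset.sum_congr rfl fun p _ => ?_
    simp only [Fin.sum_univ_six, π, sg, ix, Matrix.cons_val, T_zero]
    ring
  rw [e1, e4, e2]
  simp only [mul_assoc, ← Finset.mul_sum]
  field_simp
  ring

theorem bd_all (m : ℕ) : m ≤ M →
    (∀ a b, Bd (R n M K A B) m fun p x => (p.1.1.G p.1.2 x)⁻¹ a b) ∧
    ∀ j, j + m ≤ M → ∀ I, Bd (R n M K A B) m fun p => T n M K A B j I p.1.1 p.1.2 := by
  induction m with
  | zero => exact fun _ => ⟨bd0_inv, fun j hj => bd0_T hj⟩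
  | succ m ih =>
    intro hm
    obtain ⟨hinv, hT⟩ := ih (by omega)
    have hA := step hm hinv hT
    have hΓ : ∀ l i j, Bd (R n M K A B) m fun p x =>
        p.1.1.D.ρ * christoffel (p.1.1.G p.1.2) x l i j := fun l i j =>
      (Bd.sum Finset.univ fun q _ => ((Bd.const' (1 / 2)).mul (hinv l q)).mul
        (((hA i j q).add (hA j i q)).sub (hA q i j))).congr fun p x hx => by
          simp only [p.1.1.chr_eq p.2 hx]
    refine ⟨fun a b => ⟨bd0_inv a b, fun k => ?_⟩, fun j hj I => ⟨bd0_T (by omega) I, fun k => ?_⟩⟩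
    · refine ((Bd.sum Finset.univ fun q _ => (hΓ a k q).mul (hinv q b)).neg.sub
        (Bd.sum Finset.univ fun q _ => (hΓ b k q).mul (hinv a q))).congr fun p x hx => ?_
      simp only [Pw.D, pd_ginv (p.1.1.riem p.2) hx, mul_sub, mul_neg, Finset.mul_sum, mul_assoc]
    · refine ((hT (j + 1) (by omega) (Fin.cons k I : Fin (2 + j + 1) → Fin n)).add
        (Bd.sum Finset.univ fun s _ => Bd.sum Finset.univ fun q _ =>
          (hΓ q k (I s)).mul (hT j (by omega) (update I s q)))).congr ?_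
      rintro ⟨⟨d, σ⟩, hσ⟩ x hx
      have hd := (smT ⟨(d, σ), hσ⟩ j).dAt d.D.op hx I
      have e1 : pderiv k (T n M K A B j I d σ) x = d.D.ρ ^ j / (d.δ * d.w σ) *
          pderiv k (fun y => covN (d.G σ) (ricT (d.G σ)) j y I) x := by
        unfold T
        rw [F.pd_mul (differentiableAt_const _) hd, F.pd_const]
        ring
      have e2 : T n M K A B (j + 1) (Fin.cons k I : Fin (2 + j + 1) → Fin n) d σ x =
          d.D.ρ ^ (j + 1) / (d.δ * d.w σ) *
            (pderiv k (fun y => covN (d.G σ) (ricT (d.G σ)) j y I) x -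
              ∑ s, ∑ q, christoffel (d.G σ) x q k (I s) *
                covN (d.G σ) (ricT (d.G σ)) j x (update I s q)) := rfl
      simp only [Pw.D, e1, e2]
      simp only [T, mul_sub, Finset.mul_sum]
      rw [sub_add, ← Finset.sum_sub_distrib, Finset.sum_eq_zero, sub_zero]
      · ring
      · intro s _
        rw [← Finset.sum_sub_distrib]
        exact Finset.sum_eq_zero fun q _ => by ring

theorem bd_V (a b : Fin n) : Bd (R n M K A B) M fun p x =>
    p.1.1.δ⁻¹ * (p.1.1.G p.1.2 x a b - p.1.1.G p.1.1.t x a b) := by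
  refine Bd.tode win (κ := Unit) (Q := Empty) (fun _ _ => ()) (C := fun _ _ _ _ _ => 0) M
    (u := fun _ d σ x => d.δ⁻¹ * (d.G σ x a b - d.G d.t x a b))
    (f := fun _ d σ x => -2 * T n M K A B 0 ![a, b] d σ x)
    (fun _ d => contDiffOn_const.mul ((d.fl.sm a b).sub
      (st_const ((d.riem left_mem_uIcc).contDiffOn a b)))) ?_ (fun _ q => q.elim)
    (fun _ => (Bd.const' _).mul ((bd_all M le_rfl).2 0 (by omega) _))
    (fun _ => (Bd.const' 0).congr fun d x _ => by simp) ()
  intro _ d σ hσ x hx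
  refine (((d.fl.rf σ (d.sub hσ) x hx a b).sub_const _).const_mul _).congr_deriv ?_
  have hw := (d.w0 σ hσ).ne'
  have hδ := d.hδ.ne'
  rw [T_zero]
  simp only [Finset.univ_eq_empty, Finset.sum_empty]
  field_simp
  ring

end PDat

/-- persistence of the jet of order `M` -/
theorem pt_bound (n M : ℕ) (K : ℝ) (A B : ℕ → ℝ) : ∃ C, 0 ≤ C ∧ ∀ (d : PDat n M K A B) (a b : Fin n),
    ‖iteratedFDeriv ℝ M (fun y => d.G d.s y a b - d.G d.t y a b) d.D.x‖ * d.D.ρ ^ M ≤ C * d.δ := by
  choose C hC0 hC using fun p : Fin n × Fin n =>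
    (PDat.bd_V (M := M) (K := K) (A := A) (B := B) p.1 p.2).to_jet
  refine ⟨∑ p, C p, Finset.sum_nonneg fun p _ => hC0 p, fun d a b => ?_⟩
  have h2 := (hC (a, b) ⟨(d, d.s), right_mem_uIcc⟩).trans
    (Finset.single_le_sum (f := C) (fun p _ => hC0 p) (Finset.mem_univ _))
  have hδ := d.hδ
  have hc : ContDiffAt ℝ M (fun y => d.G d.s y a b - d.G d.t y a b) d.D.x :=
    ((((d.riem right_mem_uIcc).contDiffOn a b).sub
      ((d.riem left_mem_uIcc).contDiffOn a b)).contDiffAt (d.D.op.mem_nhds d.D.mem)).of_le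
      (by exact_mod_cast le_top)
  have e := iteratedFDeriv_const_smul_apply' (a := d.δ⁻¹) hc
  simp only [smul_eq_mul] at e h2
  rwa [e, norm_smul, Real.norm_of_nonneg (by positivity), mul_assoc, inv_mul_le_iff₀ hδ,
    mul_comm d.δ] at h2

end Crest.Agent.N207.Pw

namespace Crest.Agent.N207.T

open Sk

variable {M : Type*} [TopologicalSpace M] [ChartedSpace E4 M] [IsManifold 𝓘(ℝ, E4) ∞ M]

theorem curv : CURV M := by
  refine ⟨30000 ^ 2, by norm_num, fun g Ψ U x r δ hP hx hr hδ0 hδ h => ?_⟩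
  have h1 := Rad.jg_rm (hP.riem g) hx h hδ le_rfl hr
  rw [Real.sqrt_le_left (by positivity)] at h1
  rw [hP.par_rm g 0 hx]
  refine h1.trans_eq ?_
  field_simp

variable [T3Space M] [ConnectedSpace M] [MeasurableSpace M] [BorelSpace M]

theorem pers (F : Flow M) : PERS F := by
  intro Cs B
  choose C hC0 hC using fun k => Pw.pt_bound 4 k 2 (fun j => |B j|) Cs
  refine ⟨1, fun k => C k + 1, one_pos, fun k => by linarith [hC0 k], ?_⟩
  intro m Ψ U x r t0 t1 ζ hP hx hr hsub hJ0 hJ hζ hζ0 hric hint k hk i j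
  rcases eq_or_ne t0 t1 with rfl | hne
  · simp [J1, iteratedFDeriv_fun_zero]
  have fl := hP.cflow F
  have hric' : ∀ l ≤ m, ∀ s ∈ uIcc t0 t1, r ^ l * √(nsq ((F.m s).pm Ψ)
      (covN ((F.m s).pm Ψ) (ricT ((F.m s).pm Ψ)) l) x) ≤ B l * ζ s := by
    intro l hl s hs
    have h1 : ContinuousOn (fun s => nsq ((F.m s).pm Ψ)
        (covN ((F.m s).pm Ψ) (ricT ((F.m s).pm Ψ)) l) x) (uIcc t0 t1) :=
      (st_tslice (fl.toCFam.st_nsq (fl.toCFam.smTT_ricT.covN fl.toCFam l)) hx).continuousOn.mono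
        hsub
    have hcl : closure (Ioo (min t0 t1) (max t0 t1)) = uIcc t0 t1 :=
      closure_Ioo (min_lt_max.2 hne).ne
    refine le_on_closure (s := Ioo (min t0 t1) (max t0 t1))
      (f := fun s => r ^ l * √(nsq ((F.m s).pm Ψ)
        (covN ((F.m s).pm Ψ) (ricT ((F.m s).pm Ψ)) l) x)) (g := fun s => B l * ζ s)
      (fun s hs => ?_) ?_ ?_ (hcl ▸ hs)
    · rw [← hP.par_rc _ l hx]; exact hric s hs l hl
    · rw [hcl]; exact continuousOn_const.mul h1.sqrt
    · rw [hcl]; exact continuousOn_const.mul hζ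
  set Z := |∫ s in t0..t1, ζ s| with hZ
  have hZ0 : 0 ≤ Z := abs_nonneg _
  have hL : 0 < |t1 - t0| := abs_pos.2 (sub_ne_zero.2 hne.symm)
  have key : ∀ ε, 0 < ε → ε ≤ 1 → ‖iteratedFDeriv ℝ k
      (fun y => (F.m t1).pm Ψ y i j - (F.m t0).pm Ψ y i j) x‖ * r ^ k ≤ C k * (Z + ε) := by
    intro ε hε hε1
    have hδ : 0 < Z + ε := by positivity
    let d : Pw.PDat 4 k 2 (fun j => |B j|) Cs :=
      { D := ⟨U, x, r, hP.isOpen, hx, hr⟩, G := fun σ => (F.m σ).pm Ψ, J := Ioo 0 F.T, t := t0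
        s := t1, w := fun σ => (ζ σ + ε / |t1 - t0|) / (Z + ε), δ := Z + ε, fl := fl, sub := hsub
        wc := (hζ.add continuousOn_const).div_const _
        w0 := fun σ hσ => by have := hζ0 σ hσ; positivity
        w1 := by
          rw [intervalIntegral.integral_div, intervalIntegral.integral_add hζ.intervalIntegrable
            intervalIntegrable_const, abs_div, abs_of_pos hδ, div_le_one hδ]
          refine (abs_add_le _ _).trans (add_le_add le_rfl (le_of_eq ?_))
          rw [intervalIntegral.integral_const, smul_eq_mul, abs_mul, abs_of_pos (by positivity :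
            0 < ε / |t1 - t0|)]
          field_simp
        hδ := hδ, hK := by linarith
        ric := fun l hl σ hσ => by
          refine (hric' l (hl.trans hk) σ hσ).trans ?_
          have h1 := hζ0 σ hσ
          have h2 : 0 < ε / |t1 - t0| := by positivity
          rw [mul_div_cancel₀ _ hδ.ne']
          exact mul_le_mul (le_abs_self _) (by linarith) h1 (abs_nonneg _)
        lo := Rad.jg_low hJ0 le_rfl
        up := Rad.jg_up hJ0 le_rfl
        jet := fun l hl a b => hJ l (hl.trans hk) a b }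
    exact hC k d i j
  refine le_of_forall_pos_le_add fun ε hε => ?_
  have h1 := key (min 1 (ε / (C k + 1))) (lt_min one_pos (by have := hC0 k; positivity))
    (min_le_left _ _)
  have h2 : C k * min 1 (ε / (C k + 1)) ≤ ε := by
    have := hC0 k
    refine (mul_le_mul_of_nonneg_left (min_le_right _ _) this).trans ?_
    rw [mul_div_assoc', div_le_iff₀ (by positivity)]
    nlinarith
  nlinarith

end Crest.Agent.N207.T
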