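import Crest.Agent.N207.T.St

/-!
# Row 207 (helper86): the leaf `ASM` (last failure times, piecewise constant charts)
-/

set_option autoImplicit false
set_option linter.unusedSectionVars false

open scoped ContDiff Manifold Topology
open Set MeasureTheory Filter

noncomputable section

namespace Crest.Agent.N207.T

open Sk

/-- the last failure times -/
theorem asm_times {T ts : ℝ} {P : ℕ → ℝ → Prop} (hts : ts < T)
    (ev : ∀ n, ∃ t0 < T, ∀ t ∈ Ico t0 T, P n t)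
    (mono : ∀ n, ∀ t ∈ Ico ts T, P (n + 1) t → P n t) (fail : ∀ t ∈ Ico ts T, ∃ n, ¬P n t) :
    ∃ t : ℕ → ℝ, Monotone t ∧ (∀ n, ts ≤ t n) ∧ (∀ n, t n < T) ∧ Tendsto t atTop (𝓝 T) ∧
      (∀ n, ∀ v ∈ Ioo (t n) T, P n v) ∧
      ∀ n, ts < t n → ∀ ε > 0, ∃ s ∈ Ico ts T, ¬P n s ∧ t n - ε < s ∧ s ≤ t n := by
  set S : ℕ → Set ℝ := fun n => insert ts {t | t ∈ Ico ts T ∧ ¬P n t} with hS
  have ne : ∀ n, (S n).Nonempty := fun n => ⟨ts, mem_insert _ _⟩
  have bd : ∀ n, BddAbove (S n) := fun n => ⟨T, by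
    rintro x (rfl | hx)
    exacts [hts.le, hx.1.2.le]⟩
  have h0 : ∀ n, ts ≤ sSup (S n) := fun n => le_csSup (bd n) (mem_insert _ _)
  have hm : Monotone fun n => sSup (S n) := monotone_nat_of_le_succ fun n =>
    csSup_le_csSup (bd _) (ne n) (insert_subset_insert fun x hx =>
      ⟨hx.1, fun h => hx.2 (mono n x hx.1 h)⟩)
  have hT : ∀ n, sSup (S n) < T := fun n => by
    obtain ⟨t0, h1, h2⟩ := ev n
    refine (csSup_le (ne n) (a := max ts t0) ?_).trans_lt (max_lt hts h1)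
    rintro x (rfl | hx)
    · exact le_max_left _ _
    · exact le_max_of_le_right (not_lt.1 fun h => hx.2 (h2 x ⟨h.le, hx.1.2⟩))
  refine ⟨fun n => sSup (S n), hm, h0, hT, ?_, fun n v hv => ?_, fun n hn ε hε => ?_⟩
  · refine tendsto_order.2 ⟨fun x hx => ?_, fun x hx => Eventually.of_forall fun n => ?_⟩
    · obtain ⟨y, y1, y2⟩ := exists_between (max_lt hx hts)
      have hy : y ∈ Ico ts T := ⟨((le_max_right _ _).trans_lt y1).le, y2⟩
      obtain ⟨n, hn⟩ := fail y hy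
      filter_upwards [eventually_ge_atTop n] with k hk
      exact (((le_max_left _ _).trans_lt y1).trans_le
        (le_csSup (bd n) (Or.inr ⟨hy, hn⟩))).trans_le (hm hk)
    · exact (hT n).trans hx
  · by_contra h
    exact not_le.2 hv.1 (le_csSup (bd n) (Or.inr ⟨⟨(h0 n).trans hv.1.le, hv.2⟩, h⟩))
  · obtain ⟨s, hs, h1⟩ := exists_lt_of_lt_csSup (ne n)
      (max_lt hn (sub_lt_self (sSup (S n)) hε))
    rcases hs with rfl | hs
    · exact absurd h1 (not_lt.2 (le_max_left _ _))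
    · exact ⟨s, hs.1, hs.2, (le_max_right _ _).trans_lt h1, le_csSup (bd n) (Or.inr hs)⟩

/-- integrability of a function made of finitely many measurable pieces -/
theorem asm_pieces {a b : ℝ} (hab : a ≤ b) {j : ℝ → ℕ} (hj : Measurable j) {J : ℕ}
    (hJ : ∀ u ∈ Ico a b, j u < J) {g : ℝ → ℝ} {f : ℕ → ℝ → ℝ}
    (hf : ∀ i, IntervalIntegrable (f i) volume a b) (e : ∀ u ∈ Ico a b, g u = f (j u) u) :
    IntervalIntegrable g volume a b := by
  rw [intervalIntegrable_iff_integrableOn_Ico_of_le hab]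
  have : IntegrableOn g (⋃ i ∈ Finset.range J, Ico a b ∩ j ⁻¹' {i}) volume := by
    refine integrableOn_finset_iUnion.2 fun i _ => ?_
    refine (((intervalIntegrable_iff_integrableOn_Ico_of_le hab).1 (hf i)).mono_set
      inter_subset_left).congr_fun (fun u hu => ?_)
      (measurableSet_Ico.inter (hj (measurableSet_singleton i)))
    have h2 : j u = i := hu.2
    rw [e u hu.1, h2]
  exact this.mono_set fun u hu =>
    mem_iUnion₂.2 ⟨j u, Finset.mem_range.2 (hJ u hu), hu, rfl⟩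

/-- levels and piecewise constant anchors -/
theorem asm_anchor {t h : ℕ → ℝ} (ht : StrictMono t) (hh : ∀ n, 0 < h n) :
    ∃ (lv : ℝ → ℕ) (v : ℝ → ℝ),
      (∀ n, ∀ u ∈ Ico (t n) (t (n + 1)), lv u = n ∧ v u ∈ Ioc (t n) (t (n + 1)) ∧
        |u - v u| ≤ h n) ∧
      ∀ (n : ℕ) (f : ℝ → ℝ → ℝ),
        (∀ w ∈ Ioc (t n) (t (n + 1)), IntervalIntegrable (f w) volume (t n) (t (n + 1))) →
        IntervalIntegrable (fun u => f (v u) u) volume (t n) (t (n + 1)) := by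
  classical
  set lv : ℝ → ℕ := fun u => if H : ∃ n, u ∈ Ico (t n) (t (n + 1)) then H.choose else 0 with hlv
  have e : ∀ n, ∀ u ∈ Ico (t n) (t (n + 1)), lv u = n := fun n u hu => by
    have H : ∃ n, u ∈ Ico (t n) (t (n + 1)) := ⟨n, hu⟩
    have h1 := H.choose_spec
    have h2 := ht.lt_iff_lt.1 (h1.1.trans_lt hu.2)
    have h3 := ht.lt_iff_lt.1 (hu.1.trans_lt h1.2)
    simp only [hlv, dif_pos H]
    omega
  set w : ℕ → ℕ → ℝ := fun n i => min (t n + (i + 1) * h n) (t (n + 1)) with hw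
  have wm : ∀ n i, w n i ∈ Ioc (t n) (t (n + 1)) := fun n i =>
    ⟨lt_min (lt_add_of_pos_right _ (mul_pos (by positivity) (hh n))) (ht n.lt_succ_self),
      min_le_right _ _⟩
  refine ⟨lv, fun u => w (lv u) ⌊(u - t (lv u)) / h (lv u)⌋₊, fun n u hu => ?_, fun n f hf => ?_⟩
  · simp only [e n u hu]
    refine ⟨trivial, wm _ _, abs_le.2 ⟨?_, ?_⟩⟩
    · have h1 := Nat.floor_le (div_nonneg (sub_nonneg.2 hu.1) (hh n).le)
      rw [le_div_iff₀ (hh n)] at h1
      have h2 : w n ⌊(u - t n) / h n⌋₊ ≤ t n + (⌊(u - t n) / h n⌋₊ + 1) * h n := min_le_left _ _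
      linarith
    · have h1 := Nat.lt_floor_add_one ((u - t n) / h n)
      rw [div_lt_iff₀ (hh n)] at h1
      have h2 : u < w n ⌊(u - t n) / h n⌋₊ := lt_min (by linarith) hu.2
      linarith [hh n]
  · refine asm_pieces (ht n.lt_succ_self).le (j := fun u => ⌊(u - t n) / h n⌋₊)
      (Nat.measurable_floor.comp ((measurable_id.sub_const _).div_const _))
      (J := ⌊(t (n + 1) - t n) / h n⌋₊ + 1) (fun u hu => Nat.lt_succ_of_le (Nat.floor_le_floor
        (div_le_div_of_nonneg_right (by linarith [hu.2]) (hh n).le)))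
      (f := fun i => f (w n i)) (fun i => hf _ (wm n i)) fun u hu => ?_
    simp only [e n u hu]

variable {M : Type*} [TopologicalSpace M] [ChartedSpace E4 M] [IsManifold 𝓘(ℝ, E4) ∞ M]
  [T3Space M] [ConnectedSpace M] [MeasurableSpace M] [BorelSpace M]

/-- forgetting the first `n0` levels -/
theorem Wd.shift {F : Flow M} {m : ℕ} {η : ℝ} {Cs : ℕ → ℝ} {V c K R l ts : ℝ}
    {P : ℕ → ℝ → Prop} {G : ℕ → ℝ → Nk M → Prop} (W : Wd F m η Cs V c K R l ts P G) (n0 : ℕ) :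
    Wd F m η Cs V c K R (l / K ^ n0) ts (fun n => P (n0 + n)) fun n => G (n0 + n) := by
  have K1 : 1 ≤ K := by linarith [W.K_ge]
  have e : ∀ n, l / K ^ n0 / K ^ n = l / K ^ (n0 + n) := fun n => by rw [div_div, ← pow_add]
  have lp := W.l_pos
  refine ⟨W.K_ge, by positivity, (mul_le_mul_of_nonneg_left
    (div_le_self lp.le (one_le_pow₀ K1)) (sq_nonneg K)).trans W.l_le, W.R_le, W.c_pos, W.c_le,
    W.ts_mem, fun n => W.ev _, fun n => W.mono _, fun t ht => ?_, fun n => W.ex _, ?_, ?_, ?_, ?_,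
    ?_, ?_⟩
  · obtain ⟨n, hn⟩ := W.fail t ht
    refine ⟨n, fun h => hn ?_⟩
    have : ∀ k, P (n + k) t → P n t := fun k => by
      induction k with
      | zero => exact id
      | succ k ih => exact fun h => ih (W.mono _ t ht h)
    exact this n0 (by rwa [add_comm])
  all_goals simp only [e]
  exacts [fun n => W.top _, fun n => W.good _, fun n => W.far _,
    fun n v N n' => W.cmp _ v N _, fun n => W.back _, fun n => W.stat _]

/-- the assembly when the first time is late enough -/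
theorem asm_main {F : Flow M} (hI : MII F) {m : ℕ} {η : ℝ} {Cs : ℕ → ℝ} {V c K R l ts : ℝ}
    {P : ℕ → ℝ → Prop} {G : ℕ → ℝ → Nk M → Prop} (W : Wd F m η Cs V c K R l ts P G)
    {t : ℕ → ℝ} (hT : ∀ n, t n < F.T) (lim : Tendsto t atTop (𝓝 F.T))
    (h0 : ∀ n, ts ≤ t n - c * (l / K ^ n)) (hP : ∀ n, ∀ v ∈ Ioo (t n) F.T, P n v)
    (hm : Monotone t)
    (hF : ∀ n, ∀ ε > 0, ∃ s ∈ Ico ts F.T, ¬P n s ∧ t n - ε < s ∧ s ≤ t n) :
    ∃ τ : TopD M, τ.Ok F m η Cs V := by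
  have K4 := W.K_ge
  have K1 : 1 ≤ K := by linarith
  have lp := W.l_pos
  have cp := W.c_pos
  have lam0 : ∀ n, 0 < l / K ^ n := fun n => by positivity
  have hp : ∀ n, 0 < c * (l / K ^ n) := fun n => mul_pos cp (lam0 n)
  have ts1 : ∀ n, ts ≤ t n := fun n => by linarith [h0 n, hp n]
  have T0 : 0 < ts := by linarith [W.ts_mem.1, W.ts_mem.2]
  have dge : ∀ n, c * (l / K ^ n) ≤ t (n + 1) - t n := fun n => by
    by_contra hc
    obtain ⟨v, v1, v2⟩ := exists_between (lt_min (hT (n + 1))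
      (lt_add_of_pos_right (t (n + 1)) (half_pos (hp n))))
    have v3 := v2.trans_le (min_le_left _ _)
    have v4 := v2.trans_le (min_le_right _ _)
    obtain ⟨N, hN⟩ := W.ex (n + 1) v ⟨(ts1 _).trans v1.le, v3⟩ (hP _ v ⟨v1, v3⟩)
    obtain ⟨s, hs, h1, h2, h3⟩ := hF n _ (half_pos (hp n))
    have := hm n.le_succ
    exact h1 (W.back n v N hN s hs (abs_le.2 ⟨by linarith [not_le.1 hc], by linarith [hp n]⟩))
  have sm : StrictMono t := strictMono_nat_of_lt_succ fun n => by linarith [dge n, hp n]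
  obtain ⟨lv, v, hv, hi⟩ := asm_anchor sm hp
  obtain ⟨N0, -⟩ := W.ex 0 (t 1) ⟨ts1 1, hT 1⟩ (hP 0 _ ⟨sm zero_lt_one, hT 1⟩)
  have exN : ∀ n w, ∃ N, w ∈ Ioc (t n) (t (n + 1)) → G n w N := fun n w => by
    by_cases hw : w ∈ Ioc (t n) (t (n + 1))
    · have w1 := hw.2.trans_lt (hT _)
      obtain ⟨N, hN⟩ := W.ex n w ⟨(ts1 n).trans hw.1.le, w1⟩ (hP n w ⟨hw.1, w1⟩)
      exact ⟨N, fun _ => hN⟩
    · exact ⟨N0, fun h => absurd h hw⟩
  choose C hC using exN
  set N : ℝ → Nk M := fun u => C (lv u) (v u) with hN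
  have gN : ∀ n, ∀ u ∈ Ico (t n) (t (n + 1)), G n (v u) (N u) := fun n u hu => by
    simp only [hN, (hv n u hu).1]
    exact hC n _ (hv n u hu).2.1
  have gd : ∀ n, ∀ u ∈ Ico (t n) (t (n + 1)), ∀ s, u ≤ s → s ≤ u + c * (l / K ^ n) → s < F.T →
      Good (F.m s) (N u) m η Cs V ∧ ∀ r ∈ Icc (l / K ^ n) R,
        (F.m s).vol.real ((N u).Om r) ≤ V * r ^ 4 ∧ mass (F.m s) ((N u).Om r) ≤ V * r ^ 2 :=
    fun n u hu s s1 s2 s3 => by
      have := abs_le.1 (hv n u hu).2.2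
      exact W.good n _ _ (gN n u hu) s ⟨((ts1 n).trans hu.1).trans s1, s3⟩
        (abs_le.2 ⟨by linarith [hp n], by linarith⟩)
  have ii : ∀ n, ∀ r ∈ Icc (l / K ^ n) R, IntervalIntegrable
      (fun s => mass (F.m s) ((N s).Om r)) volume (t n) (t (n + 1)) := fun n r hr => by
    refine (hi n (fun w s => mass (F.m s) ((C n w).Om r)) fun w hw => ?_).congr_ae ?_
    · obtain ⟨h1, h2, h3⟩ := W.top n w _ (hC n w hw)
      exact hI _ h1 r (by rwa [h2, h3]) _ _ (T0.trans_le (ts1 n)) (hm n.le_succ) (hT _)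
    · rw [uIoc_of_le (hm n.le_succ), ← Measure.restrict_congr_set Ico_ae_eq_Ioc]
      filter_upwards [ae_restrict_mem measurableSet_Ico] with u hu
      simp only [hN, (hv n u hu).1]
  refine ⟨⟨R, K, l, c, t, N⟩, K4, lp, W.l_le, W.R_le, cp, W.c_le, W.ts_mem.1.trans (ts1 0), hT,
    lim, dge, fun n u hu => (W.top n _ _ (gN n u hu)).1,
    fun n u hu => (W.top n _ _ (gN n u hu)).2.1, fun n u hu => (W.top n _ _ (gN n u hu)).2.2,
    fun n u hu s s1 s2 s3 => (gd n u hu s s1 s2 s3).1,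
    fun n u hu r r1 r2 s s1 s2 s3 => W.far n _ _ (gN n u hu) u (hv n u hu).2.2 r r1 r2 s
      ⟨(ts1 0).trans s1, s2⟩ s3,
    fun n n' u hu u' hu' r r1 r2 r3 => W.cmp n _ _ n' _ _ (gN n u hu) (gN n' u' hu') r r1 r2 ?_,
    ii, fun n u hu s s1 s2 s3 r hr => ((gd n u hu s s1 s2 s3).2 r hr).1,
    fun n u hu r hr => ((gd n u hu u le_rfl (le_add_of_nonneg_right (hp n).le)
      (hu.2.trans (hT _))).2 r hr).2, fun n => ?_⟩
  · have a1 := abs_le.1 (hv n u hu).2.2
    have a2 := abs_le.1 (hv n' u' hu').2.2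
    have a3 : -(c * r) ≤ u - u' ∧ u - u' ≤ c * r := abs_le.1 r3
    have b1 : K * (l / K ^ n) ≤ r := r1
    have b2 : K * (l / K ^ n') ≤ r := r2
    have c1 : c * (4 * (l / K ^ n)) ≤ c * r := mul_le_mul_of_nonneg_left
      ((mul_le_mul_of_nonneg_right K4 (lam0 n).le).trans b1) cp.le
    have c2 : c * (4 * (l / K ^ n')) ≤ c * r := mul_le_mul_of_nonneg_left
      ((mul_le_mul_of_nonneg_right K4 (lam0 n').le).trans b2) cp.le
    exact abs_le.2 ⟨by linarith [hp n, hp n'], by linarith [hp n, hp n']⟩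
  · by_contra hc
    have e1 : t (n + 1) ∈ Ico (t (n + 1)) (t (n + 1 + 1)) := ⟨le_rfl, sm (Nat.lt_succ_self _)⟩
    have hr : K * (l / K ^ n) ∈ Icc (l / K ^ n) R := ⟨le_mul_of_one_le_left (lam0 n).le K1, by
      have h1 : l / K ^ n ≤ l := div_le_self lp.le (one_le_pow₀ K1)
      have h2 : K * l ≤ K ^ 2 * l := mul_le_mul_of_nonneg_right (by nlinarith) lp.le
      linarith [W.l_le, mul_le_mul_of_nonneg_left h1 (zero_le_one.trans K1)]⟩
    obtain ⟨s, hs, h1, h2, h3⟩ := hF n _ (hp n)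
    exact h1 (W.stat n (t n) (t (n + 1)) N v _ (h0 n) (sm n.lt_succ_self) (hT _)
      (fun u hu => ⟨gN n u hu, (hv n u hu).2.2, le_rfl⟩) (gN _ _ e1) (hv _ _ e1).2.2 (ii n _ hr)
      (not_le.1 hc) s hs (abs_le.2 ⟨by linarith, by linarith [hp n]⟩))

/-- the leaf `ASM` -/
theorem asm {F : Flow M} (hI : MII F) : ASM F := by
  intro m η Cs V c K R l ts P G W
  obtain ⟨t, hm, -, hT, lim, hP, hF⟩ := asm_times W.ts_mem.2 W.ev W.mono W.fail
  have K1 : 1 < K := by linarith [W.K_ge]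
  have lp := W.l_pos
  have cp := W.c_pos
  have l0 : Tendsto (fun n : ℕ => t n - c * (l / K ^ n)) atTop (𝓝 (F.T - c * 0)) :=
    lim.sub ((tendsto_const_nhds.div_atTop (tendsto_pow_atTop_atTop_of_one_lt K1)).const_mul c)
  obtain ⟨n0, hn0⟩ := eventually_atTop.1
    (l0.eventually (lt_mem_nhds (show ts < F.T - c * 0 by linarith [W.ts_mem.2])))
  have e : ∀ n, l / K ^ n0 / K ^ n = l / K ^ (n0 + n) := fun n => by rw [div_div, ← pow_add]
  refine asm_main hI (W.shift n0) (t := fun n => t (n0 + n)) (fun n => hT _)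
    (lim.comp (tendsto_atTop_mono (fun n => Nat.le_add_left n n0) tendsto_id)) (fun n => ?_) (fun n => hP _)
    (fun a b h => hm (Nat.add_le_add_left h n0)) fun n => hF _ ?_
  · rw [e]
    exact (hn0 _ (Nat.le_add_right n0 n)).le
  · have : 0 < c * (l / K ^ (n0 + n)) := by positivity
    linarith [hn0 _ (Nat.le_add_right n0 n)]

end Crest.Agent.N207.T

end
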