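import Crest.Agent.N207.T.Kit3

/-!
# Row 207 (helper36): clusters at a fixed time
-/

set_option autoImplicit false
set_option linter.unusedSectionVars false

open scoped ContDiff Topology
open Set MeasureTheory Filter

noncomputable section

namespace Crest.Agent.N207.T

variable {M : Type*} [TopologicalSpace M] [CompactSpace M] [MeasurableSpace M]
  [OpensMeasurableSpace M] {H : HC M}

/-- maximal separated families -/
theorem exists_net {X : Type*} (d : X → X → ℝ) (hs : ∀ x y, d x y = d y x) (h0 : ∀ x, d x x = 0)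
    (S : Set X) {r : ℝ} (hr : 0 < r) (n : ℕ) (hn : ∀ F : Finset X, (∀ w ∈ F, w ∈ S) →
      (∀ w ∈ F, ∀ w' ∈ F, w ≠ w' → r ≤ d w w') → F.card ≤ n) :
    ∃ F : Finset X, (∀ w ∈ F, w ∈ S) ∧ (∀ w ∈ F, ∀ w' ∈ F, w ≠ w' → r ≤ d w w') ∧
      ∀ y ∈ S, ∃ w ∈ F, d w y < r := by
  classical
  let P : ℕ → Prop := fun k => ∃ F : Finset X, (∀ w ∈ F, w ∈ S) ∧
    (∀ w ∈ F, ∀ w' ∈ F, w ≠ w' → r ≤ d w w') ∧ F.card = k
  obtain ⟨F, f1, f2, f3⟩ : P (Nat.findGreatest P n) :=
    Nat.findGreatest_spec (Nat.zero_le n) ⟨∅, by simp, by simp, rfl⟩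
  refine ⟨F, f1, f2, fun y hy => ?_⟩
  by_contra hc
  push Not at hc
  have hyF : y ∉ F := fun h => by have := hc y h; rw [h0] at this; linarith
  have g1 : ∀ w ∈ insert y F, w ∈ S := fun w hw => by
    rcases Finset.mem_insert.1 hw with rfl | h
    exacts [hy, f1 w h]
  have g2 : ∀ w ∈ insert y F, ∀ w' ∈ insert y F, w ≠ w' → r ≤ d w w' := fun w hw w' hw' e => by
    rcases Finset.mem_insert.1 hw with rfl | h <;> rcases Finset.mem_insert.1 hw' with rfl | h'
    exacts [absurd rfl e, hs w w' ▸ hc w' h', hc w h, f2 w h w' h' e]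
  have := Nat.le_findGreatest (P := P) (hn _ g1 g2) ⟨_, g1, g2, rfl⟩
  rw [Finset.card_insert_of_notMem hyF] at this
  omega

theorem exists_drop {f : ℕ → ℝ} {I : ℕ} (h0 : ∀ i, 0 ≤ f i) (hI : f 0 < I) :
    ∃ i < I, f i - f (i + 1) < 1 := by
  by_contra hc
  push Not at hc
  have : ∀ i ≤ I, f i + i ≤ f 0 := fun i hi => by
    induction i with
    | zero => simp
    | succ i ih => have := ih (by omega); have := hc i (by omega); push_cast; linarith
  linarith [this I le_rfl, h0 I]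

theorem clB (h : H.Ok) : CL H := by
  classical
  intro ε ε2 K E n0 hε hε2 hK
  set N0 := ⌊E / ε⌋₊ with hN0
  obtain ⟨I, hI⟩ := exists_nat_gt ((N0 : ℝ) * N0 + N0 * (|E| / ε2) + N0 * n0)
  have q1 : 1 ≤ 4 * K ^ 2 := by nlinarith
  refine ⟨1 / (2 * (4 * K ^ 2) ^ I), by positivity, fun t ht hE U r Bad hr hBad => ?_⟩
  set g := 1 / (2 * (4 * K ^ 2) ^ I) with hg
  have g0 : 0 < g := by positivity
  have card_le : ∀ F : Finset M, (∀ w ∈ F, ε < H.en t w (g * r)) →
      (∀ w ∈ F, ∀ w' ∈ F, w ≠ w' → 2 * (g * r) ≤ H.d t w w') → F.card * ε ≤ E := fun F f1 f2 =>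
    calc (F.card : ℝ) * ε = ∑ _w ∈ F, ε := by simp
      _ ≤ ∑ w ∈ F, H.en t w (g * r) := Finset.sum_le_sum fun w hw => (f1 w hw).le
      _ ≤ E := (sum_en_le h ht F (W := univ) f2 fun _ _ => subset_univ _).trans
          ((intN_le h ht _).trans hE)
  obtain ⟨F0, f1, f2, f3⟩ := exists_net (H.d t) (h.dist.symm t ht) (h.dist.self t ht)
    {y | y ∈ U ∧ ε < H.en t y (g * r)} (r := 2 * (g * r)) (by positivity) N0 fun F f1 f2 =>
      Nat.le_floor (by rw [le_div_iff₀ hε]; exact card_le F (fun w hw => (f1 w hw).2) f2)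
  have c0 := card_le F0 (fun w hw => (f1 w hw).2) f2
  have c1 : F0.card ≤ N0 := Nat.le_floor (by rw [le_div_iff₀ hε]; exact c0)
  have c2 : (F0.card : ℝ) ≤ N0 := by exact_mod_cast c1
  let R : ℕ → ℝ := fun i => r / (4 * K ^ 2) ^ i
  have R0 : ∀ i, 0 < R i := fun i => by positivity
  have Rs : ∀ i, R i = 4 * K ^ 2 * R (i + 1) := fun i => by
    simp only [R, pow_succ]; field_simp
  have Ra : ∀ i, R (i + 1) ≤ R i := fun i => by
    rw [Rs i]; exact le_mul_of_one_le_left (R0 _).le q1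
  let A : ℕ → Finset (M × M) := fun i => (F0 ×ˢ F0).filter fun p => H.d t p.1 p.2 < R i
  let C : ℕ → M → Finset ℤ := fun i w => (Bad w).filter fun j => (2 : ℝ) ^ j ≤ R i
  have en0 : ∀ w s, 0 ≤ H.en t w s := fun w s => HC.en_nonneg h.evo ht w s
  obtain ⟨i, hi, hd⟩ := exists_drop (I := I) (f := fun i => (A i).card +
      ∑ w ∈ F0, H.en t w (R i) / ε2 + ∑ w ∈ F0, ((C i w).card : ℝ))
    (fun i => by
      exact add_nonneg (add_nonneg (Nat.cast_nonneg _)
        (Finset.sum_nonneg fun w _ => div_nonneg (en0 w (R i)) hε2.le))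
        (Finset.sum_nonneg fun w _ => Nat.cast_nonneg _)) (by
      refine lt_of_le_of_lt (add_le_add (add_le_add ?_ ?_) ?_) hI
      · have : (A 0).card ≤ N0 * N0 := (Finset.card_filter_le _ _).trans
          (by rw [Finset.card_product]; exact Nat.mul_le_mul c1 c1)
        exact_mod_cast this
      · refine (Finset.sum_le_card_nsmul _ _ (|E| / ε2) fun w _ => ?_).trans ?_
        · gcongr
          exact (intN_le h ht _).trans (hE.trans (le_abs_self E))
        · rw [nsmul_eq_mul]; gcongr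
      · refine (Finset.sum_le_card_nsmul _ _ (n0 : ℝ) fun w _ => ?_).trans ?_
        · exact_mod_cast (Finset.card_filter_le _ _).trans (hBad w)
        · rw [nsmul_eq_mul]; gcongr)
  have sA : A (i + 1) ⊆ A i := fun p hp =>
    Finset.mem_filter.2 ⟨(Finset.mem_filter.1 hp).1, (Finset.mem_filter.1 hp).2.trans_le (Ra i)⟩
  have sC : ∀ w, C (i + 1) w ⊆ C i w := fun w j hj =>
    Finset.mem_filter.2 ⟨(Finset.mem_filter.1 hj).1, (Finset.mem_filter.1 hj).2.trans (Ra i)⟩
  have d1 : ((A (i + 1)).card : ℝ) ≤ (A i).card := by exact_mod_cast Finset.card_le_card sA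
  have m2 : ∀ w, 0 ≤ H.en t w (R i) / ε2 - H.en t w (R (i + 1)) / ε2 := fun w =>
    sub_nonneg.2 (by gcongr; exact en_mono h ht w (Ra i))
  have m3 : ∀ w, 0 ≤ ((C i w).card : ℝ) - (C (i + 1) w).card := fun w =>
    sub_nonneg.2 (by exact_mod_cast Finset.card_le_card (sC w))
  have d2 := Finset.sum_nonneg fun w (_ : w ∈ F0) => m2 w
  have d3 := Finset.sum_nonneg fun w (_ : w ∈ F0) => m3 w
  have e2 := fun w (hw : w ∈ F0) => Finset.single_le_sum (fun w _ => m2 w) hw
  have e3 := fun w (hw : w ∈ F0) => Finset.single_le_sum (fun w _ => m3 w) hw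
  simp only [Finset.sum_sub_distrib] at d2 d3 e2 e3
  have eA : A (i + 1) = A i := Finset.eq_of_subset_of_card_le sA (by
    have : ((A i).card : ℝ) < (A (i + 1)).card + 1 := by linarith
    have : (A i).card < (A (i + 1)).card + 1 := by exact_mod_cast this
    omega)
  have eC : ∀ w ∈ F0, C (i + 1) w = C i w := fun w hw => Finset.eq_of_subset_of_card_le (sC w) (by
    have : ((C i w).card : ℝ) < (C (i + 1) w).card + 1 := by linarith [e3 w hw]
    have : (C i w).card < (C (i + 1) w).card + 1 := by exact_mod_cast this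
    omega)
  obtain ⟨F, g1, g2, g3⟩ := exists_net (H.d t) (h.dist.symm t ht) (h.dist.self t ht)
    (F0 : Set M) (R0 i) F0.card fun F f1 _ => Finset.card_le_card f1
  have K0 : 0 < K := by linarith
  have e1 : K * (R i / (2 * K)) = R i / 2 := by field_simp
  have e4 : R i / (2 * K) / K = 2 * R (i + 1) := by rw [Rs i]; field_simp; ring
  have e5 : R i / (2 * K) = K * (2 * R (i + 1)) := by rw [Rs i]; field_simp; ring
  have gr : 2 * (g * r) ≤ R (i + 1) := by
    have a1 : 2 * (g * r) = r / (4 * K ^ 2) ^ I := by rw [hg]; field_simp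
    rw [a1]
    exact div_le_div_of_nonneg_left hr.le (by positivity) (pow_le_pow_right₀ q1 hi)
  have gr0 : 0 < g * r := by positivity
  refine ⟨F, R i / (2 * K), fun w hw => (f1 w (g1 w hw)).1, ?_, ?_, ?_,
    fun w hw => (f1 w (g1 w hw)).2, fun w hw w' hw' e => ?_, fun w hw => ?_, fun w hw j hj => ?_,
    fun y hy hc => ?_⟩
  · rw [e5]; exact mul_le_mul_of_nonneg_left (by linarith [R0 (i + 1)]) K0.le
  · rw [e1]
    have : R i ≤ r := div_le_self hr.le (one_le_pow₀ q1)
    linarith [R0 i]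
  · refine le_trans ?_ c0
    gcongr
    exact g1
  · rw [e1]; linarith [g2 w hw w' hw' e]
  · rw [e1, e4]
    have a1 := en_mono h ht w (show R i / 2 ≤ R i by linarith [R0 i])
    have a2 := en_mono h ht w (show R (i + 1) ≤ 2 * R (i + 1) by linarith [R0 (i + 1)])
    have a3 : H.en t w (R i) / ε2 - H.en t w (R (i + 1)) / ε2 < 1 := by linarith [e2 w (g1 w hw)]
    rw [← sub_div, div_lt_one hε2] at a3
    linarith
  · rw [e1, e4]
    by_contra hc
    push Not at hc
    have a1 : j ∈ C i w := Finset.mem_filter.2 ⟨hj, by linarith [hc.2, R0 i]⟩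
    rw [← eC w (g1 w hw)] at a1
    linarith [(Finset.mem_filter.1 a1).2, hc.1, R0 (i + 1)]
  · by_contra hy2
    obtain ⟨w0, hw0, a1⟩ := f3 y ⟨hy, not_le.1 hy2⟩
    obtain ⟨w, hw, a2⟩ := g3 w0 hw0
    have a3 : (w, w0) ∈ A i := Finset.mem_filter.2 ⟨Finset.mem_product.2 ⟨g1 w hw, hw0⟩, a2⟩
    rw [← eA] at a3
    have a4 : H.d t w w0 < R (i + 1) := (Finset.mem_filter.1 a3).2
    have a5 := h.dist.tri t ht w w0 y
    have a6 := hc w hw
    rw [e5] at a6
    nlinarith [R0 (i + 1)]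

end Crest.Agent.N207.T

end
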