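import Crest.Agent.N207.T.St2
import Crest.Agent.N207.E.Reg

/-!
# Row 207 (helper65): block TOP, the leaf `CTX`
-/

set_option autoImplicit false
set_option linter.unusedSectionVars false

open scoped ContDiff Topology
open Set MeasureTheory Filter

noncomputable section

namespace Crest.Agent.N207.T

/-- the majorant `√(K ∫_{t-h}^t Y)` -/
theorem zeta_int {s τ q h K δ : ℝ} {Y : ℝ → ℝ} (hs : s ≤ τ) (h0 : 0 ≤ h) (hh : h ≤ q)
    (hY : IntervalIntegrable Y volume (s - q) τ) (Y0 : ∀ t ∈ Icc (s - q) τ, 0 ≤ Y t) (hK : 0 ≤ K)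
    (hδ : 0 < δ) (hb : K * h * ((τ - s) * ∫ t in (s - q)..τ, Y t) ≤ δ ^ 2) :
    ContinuousOn (fun t => √(K * ∫ u in (t - h)..t, Y u)) (Icc s τ) ∧
      ∫ t in s..τ, √(K * ∫ u in (t - h)..t, Y u) ≤ δ := by
  have hq : s - q ≤ τ := by linarith
  set P : ℝ → ℝ := fun t => ∫ u in (s - q)..t, Y u with hP
  have cP : ContinuousOn P (Icc (s - q) τ) := by
    have := intervalIntegral.continuousOn_primitive_interval' hY left_mem_uIcc
    rwa [uIcc_of_le hq] at this
  have iY : ∀ t ∈ Icc (s - q) τ, IntervalIntegrable Y volume (s - q) t := fun t ht =>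
    hY.mono_set (uIcc_subset_uIcc left_mem_uIcc (by rwa [uIcc_of_le hq]))
  have e : ∀ t ∈ Icc s τ, ∫ u in (t - h)..t, Y u = P t - P (t - h) := fun t ht =>
    (intervalIntegral.integral_interval_sub_left (iY t ⟨by linarith [ht.1], ht.2⟩)
      (iY _ ⟨by linarith [ht.1], by linarith [ht.2]⟩)).symm
  have c1 : ContinuousOn P (Icc s τ) := cP.mono (Icc_subset_Icc (by linarith) le_rfl)
  have c2 : ContinuousOn (fun t => P (t - h)) (Icc s τ) :=
    cP.comp (by fun_prop) fun t ht => ⟨by linarith [ht.1], by linarith [ht.2]⟩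
  have cZ : ContinuousOn (fun t => K * ∫ u in (t - h)..t, Y u) (Icc s τ) :=
    continuousOn_const.mul ((c1.sub c2).congr e)
  refine ⟨cZ.sqrt, ?_⟩
  rcases hs.eq_or_lt with rfl | hlt
  · simpa using hδ.le
  have P0 : ∀ t ∈ Icc (s - q) τ, 0 ≤ P t := fun t ht =>
    intervalIntegral.integral_nonneg ht.1 fun u hu => Y0 u ⟨hu.1, hu.2.trans ht.2⟩
  have P1 : ∀ t ∈ Icc (s - q) τ, P t ≤ P τ := fun t ht =>
    intervalIntegral.integral_mono_interval le_rfl ht.1 ht.2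
      ((ae_restrict_mem measurableSet_Ioc).mono fun u hu => Y0 u (Ioc_subset_Icc_self hu)) hY
  have iP : ∀ a ∈ Icc (s - q) τ, ∀ b ∈ Icc (s - q) τ, IntervalIntegrable P volume a b :=
    fun a ha b hb => (cP.mono (uIcc_subset_Icc ha hb)).intervalIntegrable
  have m1 : s ∈ Icc (s - q) τ := ⟨by linarith, hs⟩
  have m2 : τ ∈ Icc (s - q) τ := ⟨hq, le_rfl⟩
  have m3 : s - h ∈ Icc (s - q) τ := ⟨by linarith, by linarith⟩
  have m4 : τ - h ∈ Icc (s - q) τ := ⟨by linarith, by linarith⟩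
  have k1 : ∫ t in s..τ, (P t - P (t - h)) ≤ h * P τ := by
    rw [intervalIntegral.integral_sub (iP _ m1 _ m2) (c2.intervalIntegrable_of_Icc hs),
      intervalIntegral.integral_comp_sub_right P h,
      intervalIntegral.integral_interval_sub_interval_comm' (iP _ m1 _ m2) (iP _ m3 _ m4)
        (iP _ m1 _ m3)]
    have a1 : 0 ≤ ∫ t in (s - h)..s, P t := intervalIntegral.integral_nonneg (by linarith)
      fun u hu => P0 u ⟨m3.1.trans hu.1, hu.2.trans hs⟩
    have a2 := intervalIntegral.integral_mono_on (by linarith) (iP _ m4 _ m2)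
      (intervalIntegrable_const (c := P τ)) fun u hu => P1 u ⟨m4.1.trans hu.1, hu.2⟩
    rw [intervalIntegral.integral_const, smul_eq_mul] at a2
    linarith
  have l0 : 0 < τ - s := sub_pos.2 hlt
  have k2 : ∫ t in s..τ, √(K * ∫ u in (t - h)..t, Y u) ≤
      ∫ t in s..τ, ((τ - s) * K / (2 * δ) * (P t - P (t - h)) + δ / (2 * (τ - s))) := by
    refine intervalIntegral.integral_mono_on hs (cZ.sqrt.intervalIntegrable_of_Icc hs)
      (((continuousOn_const.mul (c1.sub c2)).add continuousOn_const).intervalIntegrable_of_Icc hs)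
      fun t ht => ?_
    rw [← e t ht]
    have z0 : 0 ≤ K * ∫ u in (t - h)..t, Y u := mul_nonneg hK
      (intervalIntegral.integral_nonneg (by linarith) fun u hu =>
        Y0 u ⟨by linarith [hu.1, ht.1], hu.2.trans ht.2⟩)
    have a := Real.sq_sqrt z0
    have b : (τ - s) * K / (2 * δ) * (∫ u in (t - h)..t, Y u) + δ / (2 * (τ - s)) -
        √(K * ∫ u in (t - h)..t, Y u) =
        (τ - s) / (2 * δ) * (√(K * ∫ u in (t - h)..t, Y u) - δ / (τ - s)) ^ 2 := by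
      rw [sub_sq, a]; field_simp; ring
    have : 0 ≤ (τ - s) / (2 * δ) * (√(K * ∫ u in (t - h)..t, Y u) - δ / (τ - s)) ^ 2 := by
      positivity
    linarith
  have j : IntervalIntegrable (fun t => (τ - s) * K / (2 * δ) * (P t - P (t - h))) volume s τ :=
    (continuousOn_const.mul (c1.sub c2)).intervalIntegrable_of_Icc hs
  rw [intervalIntegral.integral_add j intervalIntegrable_const,
    intervalIntegral.integral_const_mul, intervalIntegral.integral_const, smul_eq_mul] at k2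
  have k3 := mul_le_mul_of_nonneg_left k1 (show 0 ≤ (τ - s) * K / (2 * δ) by positivity)
  have k4 : (τ - s) * K / (2 * δ) * (h * P τ) ≤ δ / 2 := by
    rw [div_mul_eq_mul_div, div_le_iff₀ (by positivity)]
    simp only [hP]; nlinarith
  have k5 : (τ - s) * (δ / (2 * (τ - s))) = δ / 2 := by field_simp
  linarith

variable {M : Type*} [TopologicalSpace M] [CompactSpace M] [MeasurableSpace M]
  [OpensMeasurableSpace M] {H : HC M}

theorem mem_B_self (h : H.Ok) {t : ℝ} (ht : t ∈ Ioo 0 H.T) (x : M) {r : ℝ} (hr : 0 < r) :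
    x ∈ H.B t x r := by
  show H.d t x x < r
  rwa [h.dist.self t ht]

/-- the space-time integral of `|Ric|²` over a fixed ball -/
theorem int_Q_le (h : H.Ok) {a t r : ℝ} (st : H.St a t) {y : M} {Y : ℝ → ℝ} {S : ℝ → Set M}
    (hY : IntervalIntegrable Y volume a t) (hS : ∀ u ∈ Icc a t, H.B t y r ⊆ S u)
    (hQ : ∀ u ∈ Icc a t, ∫ v in S u, H.Q 0 u v ∂H.vol u ≤ Y u) :
    ∫ u in a..t, ∫ v in H.B t y r, H.Q 0 u v ∂H.vol u ≤ ∫ u in a..t, Y u := by
  refine intervalIntegral.integral_mono_on st.2.1.le (E.ball_ii h.alg h.int h.dist st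
    (h.alg.sm_Q 0 st) (fun σ hσ => h.evo.Q_nonneg 0 σ (st.mem hσ))
    (st.mem (right_mem_Icc.2 st.2.1.le)) y r) hY fun u hu => le_trans ?_ (hQ u hu)
  exact setIntegral_mono_set
    (h.alg.integrable h.int (st.mem hu) (h.alg.s0_Q (st.mem hu) 0)).integrableOn
    (Eventually.of_forall fun v => h.evo.Q_nonneg 0 u (st.mem hu) v) (hS u hu).eventuallyLE

set_option maxHeartbeats 1600000 in
/-- **CTX** -/
theorem ctx (h : H.Ok) (c : H.COut) (hP : H.EPers) (hR : H.EReg) (h2 : TR2 H) : CTX H := by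
  have T0 := half_pos h.alg.T_pos
  obtain ⟨ε0, cE, rE, hε0, hcE, hrE, -, hk⟩ := hR _ T0
  choose Ck hCk hreg using hk
  obtain ⟨D, C2, hD, hC2, tr⟩ := h2
  obtain ⟨Cd, hCd, dl⟩ := c.dlo
  have C00 := hCk 0
  refine ⟨ε0, √(Ck 0 * (ε0 + 1)), fun k => √(Ck k / Ck 0), hε0, Real.sqrt_nonneg _,
    fun _ => Real.sqrt_nonneg _, by simp [div_self C00.ne'], fun εb hεb => ?_⟩
  obtain ⟨A, hA⟩ : ∃ A, A = √(Ck 0 * (ε0 + 1)) := ⟨_, rfl⟩
  obtain ⟨B1, hB1⟩ : ∃ B, B = √(Ck 1 / Ck 0) := ⟨_, rfl⟩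
  have A0 : 0 ≤ A := hA ▸ Real.sqrt_nonneg _
  have B0 : 0 ≤ B1 := hB1 ▸ Real.sqrt_nonneg _
  obtain ⟨cP, lam, rP, hcP, hl, hrP, pers⟩ := hP _ T0 (εb / 5) (by positivity)
  obtain ⟨E, hE, eE⟩ : ∃ E, 0 < E ∧ lam * E = D + 1 := ⟨(D + 1) / lam, by positivity, by field_simp⟩
  obtain ⟨cw, w0, w1, w2⟩ : ∃ cw, 0 < cw ∧ cw ≤ 1 ∧ cw ≤ cP * E ^ 2 :=
    ⟨min 1 (cP * E ^ 2), by positivity, min_le_left _ _, min_le_right _ _⟩
  refine ⟨εb / 5, 2 * D + 3, min 1 (cw / (2 * cE)), by positivity, by linarith, by positivity,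
    fun L hL => ⟨2 * (2 * E + 1 + D + 5 * L + Cd), by linarith, fun Kr hKr θ hθ δ hδ => ?_⟩⟩
  have θ0 := hθ.1
  have θ1 : θ ≤ 1 := hθ.2.trans (min_le_left _ _)
  have θ2 : θ * (2 * cE) ≤ cw := (le_div_iff₀ (by positivity)).1 (hθ.2.trans (min_le_right _ _))
  have K0 : 0 < Kr := by linarith
  obtain ⟨d, d0, d1, d2, d3⟩ : ∃ d, 0 < d ∧ d ≤ δ ∧ d ≤ 1 / 2 ∧
      d * (4 * (C2 * (A * B1 * (Kr / θ) ^ 3)) + 1) ≤ εb :=
    ⟨min (min δ (1 / 2)) (εb / (4 * (C2 * (A * B1 * (Kr / θ) ^ 3)) + 1)), by positivity,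
      (min_le_left _ _).trans (min_le_left _ _), (min_le_left _ _).trans (min_le_right _ _),
      (le_div_iff₀ (by positivity)).1 (min_le_right _ _)⟩
  refine ⟨d ^ 2 * θ ^ 4 / (Ck 0 * cE), min (min 1 rE) (min (rP / E) (εb / (4 * C2))),
    by positivity, by positivity,
    fun s τ a σ z Y hs hsτ hτ hr hσ hσa haσ ha hz iY hb => ?_⟩
  have a0 : 0 < a := hσ.trans_le hσa
  have a1 : a ≤ 1 := ha.trans ((min_le_left _ _).trans (min_le_left _ _))
  have a2 : a ≤ rE := ha.trans ((min_le_left _ _).trans (min_le_right _ _))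
  have a3 : a * E ≤ rP := (le_div_iff₀ hE).1 (ha.trans ((min_le_right _ _).trans (min_le_left _ _)))
  have a4 : a * (4 * C2) ≤ εb :=
    (le_div_iff₀ (by positivity)).1 (ha.trans ((min_le_right _ _).trans (min_le_right _ _)))
  have r1 : τ - s ≤ 1 := hr.trans ((min_le_left _ _).trans (min_le_left _ _))
  obtain ⟨C, hC⟩ : ∃ C, C = 2 * (2 * E + 1 + D + 5 * L + Cd) := ⟨_, rfl⟩
  rw [← hC] at hz
  obtain ⟨ρ, hρ⟩ : ∃ ρ, ρ = θ * σ := ⟨_, rfl⟩
  rw [← hρ, ← hA]
  have ρ0 : 0 < ρ := by rw [hρ]; positivity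
  have ρ1 : ρ ≤ a := by rw [hρ]; exact (mul_le_of_le_one_left hσ.le θ1).trans hσa
  have q0 : 0 < a ^ 2 := by positivity
  have q1 : 0 < cE * ρ ^ 2 := by positivity
  have q2 : cE * ρ ^ 2 ≤ cw * a ^ 2 / 2 := by
    have k1 : ρ ^ 2 ≤ θ * a ^ 2 := by
      rw [hρ, mul_pow]
      exact mul_le_mul (by rw [sq]; exact mul_le_of_le_one_left θ0.le θ1)
        (pow_le_pow_left₀ hσ.le hσa 2) (sq_nonneg _) θ0.le
    linarith [mul_le_mul_of_nonneg_left k1 hcE.le, mul_le_mul_of_nonneg_right θ2 q0.le]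
  have q3 : cw * a ^ 2 ≤ a ^ 2 := mul_le_of_le_one_left q0.le w1
  have mem : ∀ t ∈ Icc (s - a ^ 2) τ, t ∈ Ico (H.T / 2) H.T := fun t ht =>
    ⟨hs.trans ht.1, ht.2.trans_lt hτ⟩
  have mo : ∀ t ∈ Icc (s - a ^ 2) τ, t ∈ Ioo 0 H.T := fun t ht =>
    ⟨T0.trans_le (mem t ht).1, (mem t ht).2⟩
  have sub : ∀ t ∈ Icc s τ, t ∈ Icc (s - a ^ 2) τ := fun t ht => ⟨by linarith [ht.1], ht.2⟩
  have mτ := mo τ (sub τ ⟨hsτ, le_rfl⟩)
  have Y0 : ∀ t ∈ Icc (s - a ^ 2) τ, 0 ≤ Y t := fun t ht =>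
    (integral_nonneg fun y => h.evo.Q_nonneg 0 t (mo t ht) y).trans (hz t ht).2.2
  obtain ⟨cζ, iζ⟩ := zeta_int (h := cE * ρ ^ 2) (K := Ck 0 / ρ ^ 6) hsτ q1.le (by linarith) iY Y0
    (by positivity) d0 ((mul_le_mul_of_nonneg_left hb (by positivity)).trans_eq (by
      rw [hρ]; field_simp))
  set ζ : ℝ → ℝ := fun t => √(Ck 0 / ρ ^ 6 * ∫ u in (t - cE * ρ ^ 2)..t, Y u) with hζ
  have La : 2 * a ≤ L * a := mul_le_mul_of_nonneg_right hL a0.le
  have Ea : 0 < E * a := by positivity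
  have Da : 0 < D * a := by positivity
  have Cda : 0 < Cd * a := by positivity
  have eC : C * a = 2 * (2 * (E * a) + a + D * a + 5 * (L * a) + Cd * a) := by rw [hC]; ring
  have wC : z τ ∈ H.B τ (z τ) (C * a) := mem_B_self h mτ _ (by linarith)
  -- pointwise regularity
  have regp : ∀ t ∈ Icc s τ, ∀ y, H.en t y ρ ≤ ε0 →
      (∀ u ∈ Icc (t - cE * ρ ^ 2) t, H.d u (z u) y ≤ C * a / 2) →
      √(H.N 0 t y) ≤ A / ρ ^ 2 ∧ ∀ k, ρ ^ k * √(H.Q k t y) ≤ √(Ck k / Ck 0) * ζ t := by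
    intro t ht y hy hW
    have mt := mo t (sub t ht)
    have yB := mem_B_self h mt y (half_pos ρ0)
    have sb : Icc (t - cE * ρ ^ 2) t ⊆ Icc (s - a ^ 2) τ :=
      Icc_subset_Icc (by linarith [ht.1]) ht.2
    have st : H.St (t - cE * ρ ^ 2) t :=
      ⟨(mo _ (sb (left_mem_Icc.2 (by linarith)))).1, by linarith, mt.2⟩
    have iQ := int_Q_le h st (y := y) (r := ρ) (S := fun u => H.B u (z u) (C * a))
      (iY.mono_set (by
        rw [uIcc_of_le st.2.1.le, uIcc_of_le (by linarith)]; exact sb))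
      (fun u hu v hv => by
        have k1 := dl u t (mo u (sb hu)).1 hu.2 mt.2 y v
        have k2 : H.d t y v < ρ := hv
        have k3 : √(t - u) ≤ a := Real.sqrt_le_iff.2 ⟨a0.le, by linarith [hu.1]⟩
        have k4 := h.dist.tri u (mo u (sb hu)) (z u) y v
        have k5 := mul_le_mul_of_nonneg_left k3 hCd.le
        show H.d u (z u) v < C * a
        linarith [hW u hu])
      fun u hu => (hz u (sb hu)).2.2
    refine ⟨?_, fun k => ?_⟩
    · have k1 := ((hreg 0 t (mem t (sub t ht)) y ρ ρ0 (ρ1.trans a2) hy y yB).1 t mt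
        (by rw [sub_self, abs_zero]; exact q1.le)).1
      refine Real.sqrt_le_iff.2 ⟨by positivity, k1.trans ?_⟩
      rw [div_pow, hA, Real.sq_sqrt (by positivity), ← pow_mul]
      gcongr
      linarith
    · have k1 := ((hreg k t (mem t (sub t ht)) y ρ ρ0 (ρ1.trans a2) hy y yB).2).trans
        (mul_le_mul_of_nonneg_left iQ (by have := hCk k; positivity))
      have := hCk k
      rw [hζ, ← Real.sqrt_mul (by positivity), ← Real.sqrt_sq (pow_pos ρ0 k).le,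
        ← Real.sqrt_mul (sq_nonneg _)]
      refine Real.sqrt_le_sqrt ((mul_le_mul_of_nonneg_left k1 (sq_nonneg _)).trans_eq ?_)
      field_simp
      ring
  -- the state at time `t`
  obtain ⟨S, hS⟩ : ∃ S : ℝ → Prop, S = fun t => (∀ y, H.d τ (z τ) y < 2 * L * a →
      H.d t (z τ) y ≤ (D + 5 * L) * a) ∧ εb / 2 ≤ H.en t (z τ) ((D + 1) * a) := ⟨_, rfl⟩
  have regS : ∀ t ∈ Icc s τ, Reg H t τ {y | a ≤ H.d τ (z τ) y ∧ H.d τ (z τ) y < 2 * L * a} ζ
      (A / ρ ^ 2) (B1 / ρ) → S t := by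
    intro t ht R
    have mt := R.mem_a
    have i1 : ∫ u in t..τ, ζ u ≤ d := le_trans (intervalIntegral.integral_mono_interval ht.1 ht.2
      le_rfl (Eventually.of_forall fun u => Real.sqrt_nonneg _)
      (cζ.intervalIntegrable_of_Icc hsτ)) iζ
    have ex : Real.exp (∫ u in t..τ, ζ u) ≤ 2 := by
      refine (Real.exp_le_exp.2 (i1.trans d2)).trans ?_
      have := Real.exp_one_lt_three
      have e : Real.exp (1 / 2) * Real.exp (1 / 2) = Real.exp 1 := by
        rw [← Real.exp_add]; norm_num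
      nlinarith [Real.exp_pos (1 / 2)]
    obtain ⟨t1, -, t3⟩ := tr R (mem t (sub t ht)).1 (by linarith [ht.1]) (by positivity)
      (by positivity) ex (z τ) a a0 a1 fun x x1 x2 => ⟨x1.le, by linarith⟩
    rw [hS]
    refine ⟨fun y hy => ?_, ?_⟩
    · obtain ⟨x, x1, x2⟩ := reach h mt mτ two_pos (R.cp h ex).2 a0 (fun x x1 x2 => ⟨x1, x2⟩) hy
        (D := 5 * L * a) (by linarith)
      have k1 := h.dist.tri t mt (z τ) x y
      rw [h.dist.symm t mt x y] at k1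
      linarith [t1 x (by linarith)]
    · have k1 : ∫ x in H.B τ (z τ) (2 * a), H.N 0 t x ∂H.vol t ≤ H.en t (z τ) ((D + 1) * a) :=
        setIntegral_mono_set (h.alg.integrable h.int mt (h.alg.s0_N mt 0)).integrableOn
          (Eventually.of_forall fun v => h.evo.N_nonneg 0 t mt v)
          (HasSubset.Subset.eventuallyLE fun x hx =>
            show H.d t (z τ) x < _ by linarith [t1 x hx])
      have k2 : A / ρ ^ 2 * (B1 / ρ) * a ^ 3 ≤ A * B1 * (Kr / θ) ^ 3 := by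
        have : a / ρ ≤ Kr / θ := by
          rw [div_le_div_iff₀ ρ0 θ0, hρ]; linarith [mul_le_mul_of_nonneg_right haσ θ0.le]
        calc _ = A * B1 * (a / ρ) ^ 3 := by field_simp
          _ ≤ _ := by gcongr
      have k3 := mul_le_mul k2 i1 R.int_nonneg (by positivity)
      have k4 := mul_le_mul_of_nonneg_left k3 hC2.le
      have k5 : C2 * a ^ 2 ≤ C2 * a := by
        rw [sq]; exact mul_le_mul_of_nonneg_left (mul_le_of_le_one_left a0.le a1) hC2.le
      linarith [(hz τ (sub τ ⟨hsτ, le_rfl⟩)).1]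
  have SW : ∀ t ∈ Icc s τ, S t → ∀ u, t - cw * a ^ 2 ≤ u → u ≤ t → ∀ y,
      H.d τ (z τ) y < 2 * L * a → H.d u (z u) y ≤ C * a / 2 := by
    intro t ht hSt u u1 u2 y hy
    rw [hS] at hSt
    have mu : u ∈ Icc (s - a ^ 2) τ := ⟨by linarith [ht.1], u2.trans ht.2⟩
    have mt := mo t (sub t ht)
    have k1 : εb / 5 < H.en u (z τ) (E * a) := by
      by_contra k
      have := pers u (mem u mu) (z τ) (E * a) Ea (by linarith) (not_lt.1 k) t mt (by
        rw [abs_of_nonneg (sub_nonneg.2 u2), mul_pow]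
        linarith [mul_le_mul_of_nonneg_right w2 q0.le])
      rw [← mul_assoc, eE] at this
      linarith [hSt.2]
    have k2 := (hz u mu).2.1 _ wC _ (mem_B_self h (mo u mu) _ (by linarith)) _ Ea (by linarith) k1
    have k3 := dl u t (mo u mu).1 u2 mt.2 (z τ) y
    have k4 : √(t - u) ≤ a := Real.sqrt_le_iff.2 ⟨a0.le, by linarith⟩
    have k5 := mul_le_mul_of_nonneg_left k4 hCd.le
    have k6 := h.dist.tri u (mo u mu) (z u) (z τ) y
    linarith [hSt.1 y hy]
  refine ⟨ζ, cζ, fun t _ => Real.sqrt_nonneg _, iζ.trans d1, fun t1 ht1 hA' => ?_⟩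
  have mkR : ∀ t ∈ Icc t1 τ, (∀ u ∈ Ioo t τ, ∀ v ∈ Icc (u - cE * ρ ^ 2) u, ∀ y,
      H.d τ (z τ) y < 2 * L * a → H.d v (z v) y ≤ C * a / 2) → S t := by
    intro t ht hW
    have ht' : t ∈ Icc s τ := ⟨ht1.1.trans ht.1, ht.2⟩
    have k : ∀ u ∈ Ioo t τ, ∀ y ∈ {y | a ≤ H.d τ (z τ) y ∧ H.d τ (z τ) y < 2 * L * a}, _ :=
      fun u hu y hy => regp u ⟨ht'.1.trans hu.1.le, hu.2.le⟩ y
        (hA' u ⟨ht.1.trans_lt hu.1, hu.2.le⟩ y hy.1 hy.2) fun v hv => hW u hu v hv y hy.2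
    refine regS t ht' ⟨(mo t (sub t ht')).1, ht.2, hτ, cζ.mono (Icc_subset_Icc ht'.1 le_rfl),
      fun u _ => Real.sqrt_nonneg _, fun u hu y hy => ?_, fun u hu y hy => ?_,
      fun u hu y hy => (k u hu y hy).1⟩
    · simpa [div_self C00.ne'] using (k u hu y hy).2 0
    · have := (k u hu y hy).2 1
      rw [pow_one, ← hB1] at this
      rw [div_mul_eq_mul_div, le_div_iff₀ ρ0]
      linarith
  have boot : ∀ n : ℕ, ∀ t ∈ Icc t1 τ, τ - n * (cw * a ^ 2 / 2) ≤ t → S t := by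
    intro n
    induction n with
    | zero =>
      intro t ht h0
      refine mkR t ht fun u hu => absurd (hu.1.trans hu.2) ?_
      simpa using h0
    | succ n ih =>
      intro t ht h0
      refine mkR t ht fun u hu v hv => ?_
      have n0 : 0 ≤ n * (cw * a ^ 2 / 2) := by positivity
      have m1 : max u (τ - n * (cw * a ^ 2 / 2)) ∈ Icc t1 τ :=
        ⟨(ht.1.trans hu.1.le).trans (le_max_left _ _), max_le hu.2.le (by linarith)⟩
      push_cast at h0
      refine SW _ ⟨ht1.1.trans m1.1, m1.2⟩ (ih _ m1 (le_max_right _ _)) v ?_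
        (hv.2.trans (le_max_left _ _))
      have : max u (τ - n * (cw * a ^ 2 / 2)) ≤ v + cw * a ^ 2 :=
        max_le (by linarith [hv.1]) (by linarith [hv.1, hu.1])
      linarith
  have all : ∀ t ∈ Icc t1 τ, S t := fun t ht => by
    obtain ⟨n, hn⟩ := exists_nat_ge ((τ - t) / (cw * a ^ 2 / 2))
    rw [div_le_iff₀ (by positivity)] at hn
    exact boot n t ht (by linarith)
  refine ⟨fun t ht => ?_, fun t ht y hy he => ?_⟩
  · have ht' := sub t ⟨ht1.1.trans ht.1, ht.2⟩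
    have k := all t ht
    rw [hS] at k
    have := (hz t ht').2.1 _ wC _ (mem_B_self h (mo t ht') _ (by linarith)) ((D + 1) * a)
      (by positivity) (by linarith) (by linarith [k.2])
    linarith
  · have ht' : t ∈ Icc s τ := ⟨ht1.1.trans ht.1.le, ht.2⟩
    exact regp t ht' y he fun u hu =>
      SW t ht' (all t (Ioc_subset_Icc_self ht)) u (by linarith [hu.1]) hu.2 y hy

end Crest.Agent.N207.T

end
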