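import Crest.Agent.N207.T.St
import Crest.Agent.N207.GE.Dist

/-!
# Row 207 (helper31): block TOP, the leaves `RES`, `GNL`, `FIN`
-/

set_option autoImplicit false
set_option linter.unusedSectionVars false

open scoped ContDiff Manifold Topology
open Set MeasureTheory Filter
open Crest.GeometryTopology.CoordMetric Crest.GeometryTopology.ChartCurvature
  Crest.GeometryTopology.MetricFamily

noncomputable section

namespace Crest.Agent.N207.T

open Sk

namespace Gn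

variable {M : Type*} [TopologicalSpace M] [ChartedSpace E4 M] [IsManifold 𝓘(ℝ, E4) ∞ M]
  {N : Nk M} {a' b' r : ℝ}

theorem res_om (ha : N.a < a') (hr : a' < r) : (N.res a' b').Om r = N.Om r := by
  ext p
  constructor
  · rintro ((h | ⟨x, hx, rfl⟩) | ⟨x, hx, rfl⟩)
    · exact Or.inl h
    · exact Or.inr ⟨x, ⟨hx.1, hx.2.trans_lt hr⟩, rfl⟩
    · exact Or.inr ⟨x, ⟨ha.trans hx.1, hx.2⟩, rfl⟩
  · rintro (h | ⟨x, hx, rfl⟩)
    · exact Or.inl (Or.inl h)
    · rcases le_or_gt ‖x‖ a' with e | e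
      · exact Or.inl (Or.inr ⟨x, ⟨hx.1, e⟩, rfl⟩)
      · exact Or.inr ⟨x, ⟨e, hx.2⟩, rfl⟩

theorem res_in_sub (hr : a' < r) : (N.res a' b').In ⊆ N.Om r := by
  rintro p (h | ⟨x, hx, rfl⟩)
  · exact Or.inl h
  · exact Or.inr ⟨x, ⟨hx.1, hx.2.trans_lt hr⟩, rfl⟩

theorem res_top (hN : N.Top) (ha : N.a < a') (hab : a' < b') (hb : b' ≤ N.b) :
    (N.res a' b').Top := by
  have hs : shell a' b' ⊆ shell N.a N.b := shell_mono ha.le hb
  refine ⟨hN.grp, hN.a_pos.trans ha, hab, hN.par.mono (isOpen_shell _ _) hs,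
    fun x hx y hy => hN.fib x (hs hx) y (hs hy), ?_, fun r hr => ?_, fun r hr => ?_,
    hN.ne.mono subset_union_left⟩
  · rintro x hx (h | ⟨y, hy, e⟩)
    · exact hN.disj x (hs hx) h
    · have := hN.norm_eq ⟨hy.1, by linarith [hy.2]⟩ (hs hx) e
      have hx1 : a' < ‖x‖ := hx.1
      linarith [hy.2]
  · rw [res_om ha hr.1]
    exact hN.opn r ⟨ha.trans hr.1, hr.2.trans hb⟩
  · have hr1 : a' < r := hr.1
    have hr2 : r < b' := hr.2
    have e : (N.res a' b').In ∪ (N.res a' b').Ψ '' {x | (N.res a' b').a < ‖x‖ ∧ ‖x‖ ≤ r} =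
        N.In ∪ N.Ψ '' {x | N.a < ‖x‖ ∧ ‖x‖ ≤ r} := by
      ext p
      constructor
      · rintro ((h | ⟨x, hx, rfl⟩) | ⟨x, hx, rfl⟩)
        · exact Or.inl h
        · exact Or.inr ⟨x, ⟨hx.1, hx.2.trans hr1.le⟩, rfl⟩
        · exact Or.inr ⟨x, ⟨ha.trans hx.1, hx.2⟩, rfl⟩
      · rintro (h | ⟨x, hx, rfl⟩)
        · exact Or.inl (Or.inl h)
        · rcases le_or_gt ‖x‖ a' with e | e
          · exact Or.inl (Or.inr ⟨x, ⟨hx.1, e⟩, rfl⟩)
          · exact Or.inr ⟨x, ⟨e, hx.2⟩, rfl⟩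
    rw [e]
    exact hN.cls r ⟨ha.trans hr1, hr2.trans_le hb⟩

theorem wt_nonneg (a b : ℝ) (x : E4) : 0 ≤ wt a b x := by unfold wt; positivity

theorem wt_mono {a b a' b' : ℝ} (x : E4) (h1 : a ≤ a') (hb : 0 < b') (h2 : b' ≤ b) :
    wt a b x ≤ wt a' b' x :=
  add_le_add (Real.sqrt_le_sqrt (div_le_div_of_nonneg_right h1 (norm_nonneg x)))
    (Real.sqrt_le_sqrt (div_le_div_of_nonneg_left (norm_nonneg x) hb h2))

theorem wt_le_two {a b : ℝ} (ha : 0 < a) {x : E4} (hx : x ∈ shell a b) : wt a b x ≤ 2 := by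
  have h0 : 0 < ‖x‖ := ha.trans hx.1
  have h1 : √(a / ‖x‖) ≤ 1 := Real.sqrt_le_one.2 ((div_le_one h0).2 hx.1.le)
  have h2 : √(‖x‖ / b) ≤ 1 := Real.sqrt_le_one.2 ((div_le_one (h0.trans hx.2)).2 hx.2.le)
  unfold wt
  linarith

variable [T3Space M] [ConnectedSpace M] [MeasurableSpace M] [BorelSpace M] {F : Flow M}

theorem vol_mono (hB : Base F) {s : ℝ} (hs : s ∈ Ioo 0 F.T) {A B : Set M} (h : A ⊆ B) :
    (F.m s).vol.real A ≤ (F.m s).vol.real B := by
  have := hB.ok.int.fin s hs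
  exact measureReal_mono (μ := F.hc.vol s) h

/-- volumes at most double in a short time -/
theorem vol_two (hB : Base F) : ∃ c : ℝ, 0 < c ∧ ∀ s ∈ Ioo 0 F.T, ∀ t ∈ Ioo 0 F.T, |s - t| ≤ c →
    ∀ S : Set M, (F.m s).vol.real S ≤ 2 * (F.m t).vol.real S := by
  obtain ⟨K, hK⟩ := hB.ok.evo.R_bd
  refine ⟨1 / (2 * (|K| + 1)), by positivity, fun s hs t ht h S => ?_⟩
  have := hB.ok.int.fin t ht
  have k := hB.ok.int.vol_le (K := |K|) (fun s hs x => (hK s hs x).trans (le_abs_self _)) t ht s hs S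
  rw [Measure.smul_apply, smul_eq_mul] at k
  have k2 := ENNReal.toReal_mono (ENNReal.mul_ne_top ENNReal.ofReal_ne_top (measure_ne_top _ _)) k
  rw [ENNReal.toReal_mul, ENNReal.toReal_ofReal (Real.exp_pos _).le] at k2
  refine le_trans k2 (mul_le_mul_of_nonneg_right ?_ ENNReal.toReal_nonneg)
  have h1 : |K| * |s - t| ≤ 1 / 2 := by
    refine (mul_le_mul_of_nonneg_left h (abs_nonneg K)).trans ?_
    rw [mul_one_div, div_le_div_iff₀ (by positivity) (by norm_num)]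
    linarith [abs_nonneg K]
  have h2 := Real.add_one_le_exp (-(1 / 2 : ℝ))
  have h3 : Real.exp (1 / 2) * Real.exp (-(1 / 2)) = 1 := by rw [← Real.exp_add]; simp
  have h4 := Real.exp_pos (1 / 2 : ℝ)
  exact (Real.exp_le_exp.2 h1).trans (by nlinarith)

theorem exists_small (Cp : ℕ → ℝ) (h : ∀ k, 0 < Cp k) (m : ℕ) {η : ℝ} (hη : 0 < η) :
    ∃ c : ℝ, 0 < c ∧ ∀ k ≤ m, Cp k * c ≤ η := by
  have hs : 0 < ∑ k ∈ Finset.range (m + 1), Cp k :=
    Finset.sum_pos (fun k _ => h k) Finset.nonempty_range_add_one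
  refine ⟨η / ∑ k ∈ Finset.range (m + 1), Cp k, by positivity, fun k hk => ?_⟩
  rw [← mul_div_assoc, div_le_iff₀ hs, mul_comm]
  exact mul_le_mul_of_nonneg_left (Finset.single_le_sum (fun k _ => (h k).le)
    (Finset.mem_range.2 (by omega))) hη.le

end Gn

open Gn

variable {M : Type*} [TopologicalSpace M] [ChartedSpace E4 M] [IsManifold 𝓘(ℝ, E4) ∞ M]
  [T3Space M] [ConnectedSpace M] [MeasurableSpace M] [BorelSpace M] [CompactSpace M] {F : Flow M}

theorem res (hB : Base F) : RES F := by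
  intro m η Cs c v N r s h hm hη hc hb har hrb hs hsv
  have ha := h.top.a_pos
  have hr : 0 < r := ha.trans har
  refine ⟨hs, res_top h.top har hrb le_rfl, fun x hx k hk i j => ?_, ?_⟩
  · have hx1 : r < ‖x‖ := hx.1
    have hx0 : 0 < ‖x‖ := hr.trans hx1
    refine ((h.jet x ⟨har.trans hx1, hx.2⟩ s hs.2
      (hsv.trans (mul_le_mul_of_nonneg_left hx1.le hc.le))).1 k (hk.trans hm) i j).trans ?_
    have h1 : wt N.a N.b x ≤ wt r N.b x := wt_mono x har.le (hr.trans hrb) le_rfl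
    have h2 : |s - v| / ‖x‖ / c ≤ r / ‖x‖ := by
      rw [div_div, div_le_div_iff₀ (by positivity) hx0]
      nlinarith
    have h3 : r / ‖x‖ ≤ √(r / ‖x‖) :=
      Real.le_sqrt_of_sq_le (by
        have : r / ‖x‖ ≤ 1 := (div_le_one hx0).2 hx1.le
        have : 0 ≤ r / ‖x‖ := by positivity
        nlinarith)
    have h4 : √(r / ‖x‖) ≤ wt r N.b x := le_add_of_nonneg_right (Real.sqrt_nonneg _)
    change η * _ ≤ 2 * η * wt r N.b x
    nlinarith
  · have h1 : r < min (2 * r) N.b := lt_min (by linarith) hrb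
    refine (vol_mono hB (late_Ioo hs) (res_in_sub h1)).trans ((h.vol s (late_Ioo hs)
      (hsv.trans (by nlinarith)) _ ⟨har.le.trans h1.le, min_le_right _ _⟩).trans ?_)
    have h2 : min (2 * r) N.b ^ 4 ≤ (2 * r) ^ 4 :=
      pow_le_pow_left₀ (hr.le.trans h1.le) (min_le_left _ _) 4
    change _ ≤ 192 * r ^ 4
    nlinarith

theorem gnl (hB : Base F) (hH : HDEC F) (hN : NPERS F) : GNL F := by
  obtain ⟨η1, hη1, hH⟩ := hH
  obtain ⟨r0, hr0, hN⟩ := hN
  obtain ⟨c0, hc0, hv⟩ := vol_two hB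
  refine ⟨min η1 (1 / 100), by positivity, min_le_right _ _, fun V m η hm hη hη4 => ?_⟩
  obtain ⟨K, r1, Cs, hK, hr1, hH⟩ := hH V m η hη
  obtain ⟨c1, Cp, hc1, hc1', hCp, hN⟩ := hN fun k => 2 * max (Cs k) 0
  obtain ⟨c2, hc2, hs⟩ := exists_small Cp hCp m hη
  obtain ⟨c, hc, l0, l1, l2⟩ : ∃ c : ℝ, 0 < c ∧ c ≤ c0 ∧ c ≤ c1 ∧ c ≤ c2 :=
    ⟨min c0 (min c1 c2), by positivity, min_le_left _ _,
      (min_le_right _ _).trans (min_le_left _ _), (min_le_right _ _).trans (min_le_right _ _)⟩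
  refine ⟨2 * K, c, min r1 (min r0 1), fun k => max (Cs k) 0 + Cp k, by linarith, hc,
    l1.trans hc1', by positivity, (min_le_right _ _).trans (min_le_right _ _),
    fun k => add_nonneg (le_max_right _ _) (hCp k).le, fun t ht N hT hR hb hab => ?_⟩
  have ha := hT.a_pos
  have hb0 : 0 < N.b := ha.trans hT.a_lt
  have hK0 : 0 < K := by linarith
  have hKa : 0 < K ^ 3 * N.a := by positivity
  obtain ⟨N0, T0, e1, e2, s0, G0, C0⟩ := hH t ht N hT (hR.mono le_rfl (min_le_left _ _) le_rfl)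
    (hb.trans (min_le_left _ _)) (by nlinarith)
  have a0 := T0.a_pos
  have lt : 2 * N0.a < N0.b / 2 := by
    rw [e1, e2, div_div, lt_div_iff₀ (by positivity)]
    have : 0 < K ^ 2 * N.a := by positivity
    nlinarith
  have b0 : N0.b ≤ r0 := by
    rw [e2]
    exact (div_le_self hb0.le (by linarith)).trans
      (hb.trans ((min_le_right _ _).trans (min_le_left _ _)))
  have j0 : ∀ x ∈ shell N0.a N0.b, JG 2 ((F.m t).pm N0.Ψ) x ‖x‖ (1 / 100) :=
    fun x hx k hk i j => (G0.jet x hx k (hk.trans hm) i j).trans (by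
      nlinarith [wt_le_two a0 hx])
  refine ⟨N0.res (2 * N0.a) (N0.b / 2), by change 2 * N0.a = _; rw [e1]; ring,
    by change N0.b / 2 = _; rw [e2, div_div, mul_comm], s0.trans subset_union_left,
    fun r h1 h2 => ?_, res_top T0 (by linarith) lt (by linarith), fun x hx s hsT hst => ?_,
    fun s hs0 hst r hr => ?_⟩
  · have h1' : 2 * N0.a ≤ r := h1
    have h2' : r ≤ N0.b / 2 := h2
    rw [res_om (by linarith) (by linarith)]
    have := (C0 (2 * r) ⟨by linarith, by linarith⟩).1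
    rwa [show 2 * r / 2 = r by ring] at this
  · have hx' : x ∈ shell (2 * N0.a) (N0.b / 2) := hx
    have hx0 : x ∈ shell N0.a N0.b := shell_mono (by linarith) (by linarith) hx'
    have n0 : 0 < ‖x‖ := a0.trans hx0.1
    have w0 := wt_nonneg N0.a N0.b x
    have w1 : wt N0.a N0.b x ≤ wt (2 * N0.a) (N0.b / 2) x :=
      wt_mono x (by linarith) (by linarith) (by linarith)
    have w2 := wt_le_two a0 hx0
    have al : ∀ k i j, J1 k (dv ((F.m t).pm N0.Ψ) i j) x ‖x‖ (max (Cs k) 0 * wt N0.a N0.b x) :=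
      fun k i j => (G0.all x hx0 k i j).trans (mul_le_mul_of_nonneg_right (le_max_left _ _) w0)
    have key : ∀ k i j e, J1 k (dv ((F.m t).pm N0.Ψ) i j) x ‖x‖ e →
        J1 k (dv ((F.m s).pm N0.Ψ) i j) x ‖x‖ (e + Cp k * (|s - t| / ‖x‖)) := fun k i j e =>
      (hN t ht N0 T0 j0 b0 x hx' k (fun k' _ i j => (al k' i j).trans (by
        nlinarith [le_max_right (Cs k') 0])) s hsT
        (hst.trans (mul_le_mul_of_nonneg_right l1 n0.le))).2 k le_rfl i j e
    obtain ⟨q, hq, q0⟩ : ∃ q, |s - t| / ‖x‖ = c * q ∧ 0 ≤ q :=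
      ⟨|s - t| / ‖x‖ / c, by field_simp, by positivity⟩
    have hq' : |s - t| / ‖x‖ / c = q := by rw [hq]; field_simp
    rw [hq']
    rw [hq] at key
    change JG m ((F.m s).pm N0.Ψ) x ‖x‖ (η * (wt (2 * N0.a) (N0.b / 2) x + q)) ∧
      JAll _ ((F.m s).pm N0.Ψ) x ‖x‖ (wt (2 * N0.a) (N0.b / 2) x + q)
    refine ⟨fun k hk i j => (key k i j _ (G0.jet x hx0 k hk i j)).trans ?_,
      fun k i j => (key k i j _ (al k i j)).trans ?_⟩
    · have h1 : Cp k * c ≤ η := (mul_le_mul_of_nonneg_left l2 (hCp k).le).trans (hs k hk)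
      nlinarith [mul_le_mul_of_nonneg_right h1 q0]
    · have h1 : c * q ≤ q := mul_le_of_le_one_left q0 (l1.trans hc1')
      have h2 := le_max_right (Cs k) 0
      have h3 := hCp k
      nlinarith [mul_le_mul_of_nonneg_left h1 h3.le, mul_le_mul_of_nonneg_left w1 h2,
        mul_nonneg h2 q0, mul_nonneg h3.le (w0.trans w1)]
  · have h1 : 2 * N0.a ≤ r := hr.1
    have h2 : r ≤ N0.b / 2 := hr.2
    have sub : (N0.res (2 * N0.a) (N0.b / 2)).Om r ⊆ N0.Om (11 / 10 * r) := by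
      rw [← res_om (N := N0) (a' := 2 * N0.a) (b' := N0.b / 2) (r := 11 / 10 * r) (by linarith)
        (by linarith)]
      exact Nk.Om_mono _ (by linarith)
    have v1 := T0.vol_Om (F.m t) (V := 6) (r := 11 / 10 * r)
      ⟨fun x hx k hk => j0 x hx k (by omega), G0.vol⟩ ⟨by linarith, by linarith⟩
    have v2 := hv s hs0 t (late_Ioo ht) (hst.trans l0) (N0.Om (11 / 10 * r))
    have v3 : N0.a ^ 4 ≤ (r / 2) ^ 4 := pow_le_pow_left₀ a0.le (by linarith) 4
    have v4 : 0 < r ^ 4 := by have : 0 < r := by linarith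
                              positivity
    refine (vol_mono hB hs0 sub).trans ?_
    nlinarith

theorem fin' (hB : Base F) (hG : GLUE M) (hN : NPERS F) : FIN F := by
  obtain ⟨η0, C, hη0, hC, hG⟩ := hG
  obtain ⟨r0, hr0, hN⟩ := hN
  obtain ⟨c0, hc0, hv⟩ := vol_two hB
  obtain ⟨c1, Cp, hc1, -, hCp, hN⟩ := hN fun _ => 1 / 100
  intro η1 hη1
  obtain ⟨c2, hc2, hs⟩ := exists_small Cp hCp 2 (half_pos hη1)
  have hT := F.hT
  have C0 : 0 < C := by linarith
  obtain ⟨c, hc, l0, l1, l2, l3⟩ : ∃ c : ℝ, 0 < c ∧ c ≤ c0 ∧ c ≤ c1 ∧ c ≤ c2 ∧ c ≤ F.T / 4 :=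
    ⟨min (min c0 c1) (min c2 (F.T / 4)), by positivity, (min_le_left _ _).trans (min_le_left _ _),
      (min_le_left _ _).trans (min_le_right _ _), (min_le_right _ _).trans (min_le_left _ _),
      (min_le_right _ _).trans (min_le_right _ _)⟩
  obtain ⟨δ, hδ, d0, d1, d2⟩ : ∃ δ : ℝ, 0 < δ ∧ δ ≤ η0 ∧ C * δ ≤ 1 / 100 ∧ C * δ ≤ η1 / 2 := by
    refine ⟨min η0 (min (1 / 100) (η1 / 2) / C), by positivity, min_le_left _ _, ?_⟩
    rw [← le_min_iff, ← le_div_iff₀' C0]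
    exact min_le_right _ _
  refine ⟨δ, c, min r0 1, hδ, by nlinarith, hc, by positivity,
    fun t ht N N' ρ1 ρ2 T T' R R' h1 h2 h3 h4 h5 h6 hc' => ?_⟩
  have ha := T.a_pos
  obtain ⟨N0, T0, e1, e2, -, R0, o0⟩ := hG (F.m t) N N' 192 192 δ ρ1 ρ2 T T' hδ.le d0 R R' h1 h2 h3
    (by linarith) h5 hc'
  have b1 : N'.b ≤ 1 := h6.trans (min_le_right _ _)
  rw [← e1] at ha h1 ⊢
  rw [← e2] at h4 h6 b1 o0 ⊢
  have j0 := (R0.mono le_rfl d1 le_rfl).jet
  refine ⟨N0.res (2 * N0.a) (N0.b / 2), res_top T0 (by linarith) (by linarith) (by linarith), rfl,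
    rfl, ?_, fun s hsT hst => ⟨fun x hx k hk i j => ?_, ?_⟩⟩
  · rw [res_om (by linarith) (by linarith), o0 ρ2 ⟨le_rfl, by linarith⟩]
    exact N'.In_sub _
  · have hx' : x ∈ shell (2 * N0.a) (N0.b / 2) := hx
    have hx0 : x ∈ shell N0.a N0.b := shell_mono (by linarith) (by linarith) hx'
    have n0 : 0 < ‖x‖ := ha.trans hx0.1
    have q : |s - t| ≤ c * ‖x‖ := hst.trans (mul_le_mul_of_nonneg_left hx0.1.le hc.le)
    refine ((hN t ht N0 T0 j0 (h6.trans (min_le_left _ _)) x hx' 2 (j0 x hx0) s hsT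
      (q.trans (mul_le_mul_of_nonneg_right l1 n0.le))).2 k hk i j _ (R0.jet x hx0 k hk i j)).trans ?_
    have q1 : |s - t| / ‖x‖ ≤ c2 := ((div_le_iff₀ n0).2 q).trans l2
    nlinarith [mul_le_mul_of_nonneg_left q1 (hCp k).le, hs k hk]
  · have q : |s - t| ≤ c := hst.trans (mul_le_of_le_one_right hc.le (by linarith))
    have hs0 : s ∈ Ioo 0 F.T := ⟨by linarith [(abs_le.1 q).1, ht.1], hsT⟩
    have v1 := T0.vol_Om (F.m t) (r := 3 * N0.a) (R0.mono (Nat.zero_le 2) d1 le_rfl)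
      ⟨by linarith, by linarith⟩
    have v2 := hv s hs0 t (late_Ioo ht) (q.trans l0) (N0.Om (3 * N0.a))
    have v4 : 0 < N0.a ^ 4 := by positivity
    refine (vol_mono hB hs0 (res_in_sub (r := 3 * N0.a) (by linarith))).trans ?_
    change _ ≤ 192 * (2 * N0.a) ^ 4
    nlinarith

end Crest.Agent.N207.T

end
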