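import Crest.Agent.N207.T.St
import Crest.Agent.N207.C.Max
import Crest.Agent.N207.GE.Rad

/-!
# Row 207 (helper86): the leaf `MII` (time integrability of the mass of `N.Om r`)
-/

set_option autoImplicit false
set_option linter.unusedSectionVars false

open scoped ContDiff Manifold Topology
open Set MeasureTheory Filter

noncomputable section

namespace Crest.Agent.N207.T

open Sk

variable {M : Type*} [TopologicalSpace M] [ChartedSpace E4 M] [IsManifold 𝓘(ℝ, E4) ∞ M]
  [T3Space M] [ConnectedSpace M] [MeasurableSpace M] [BorelSpace M] [CompactSpace M]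

/-- time integrability of the mass of a fixed open set -/
theorem mass_ii_open {F : Flow M} (hB : Base F) {U : Set M} (hU : IsOpen U) {a b : ℝ}
    (st : F.hc.St a b) : IntervalIntegrable (fun u => mass (F.m u) U) volume a b := by
  have hA := hB.ok.alg
  have hI := hB.ok.int
  obtain ⟨f, fs, sf, f0⟩ := hU.exists_contMDiff_support_eq (n := ⊤) 𝓘(ℝ, E4)
  set φ : ℕ → M → ℝ := fun n z => Real.smoothTransition (n * f z) with hφ
  have sφ : ∀ n, F.hc.S0 (φ n) := fun n =>
    (Real.smoothTransition.contDiff.comp (contDiff_const.mul contDiff_id)).contMDiff.comp sf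
  have sF : F.hc.Sm a b (F.hc.Q 0) := hA.sm_Q 0 st
  have F0 : ∀ σ ∈ Icc a b, ∀ z, 0 ≤ F.hc.Q 0 σ z := fun σ hσ z =>
    hB.ok.evo.Q_nonneg 0 σ (st.mem hσ) z
  have mB := hU.measurableSet
  have iF : ∀ σ ∈ Icc a b, Integrable (F.hc.Q 0 σ) (F.hc.vol σ) := fun σ hσ =>
    hA.integrable hI (st.mem hσ) (hA.sm_s0 sF σ hσ)
  change IntervalIntegrable (fun σ => ∫ z in U, F.hc.Q 0 σ z ∂F.hc.vol σ) volume a b
  rw [intervalIntegrable_iff_integrableOn_Icc_of_le st.2.1.le]
  refine Integrable.mono' (hA.int_cont hI st sF).integrableOn_Icc ?_ ?_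
  · refine aestronglyMeasurable_of_tendsto_ae atTop
      (f := fun n σ => ∫ z, φ n z * F.hc.Q 0 σ z ∂F.hc.vol σ)
      (fun n => (hA.int_cont hI st (hA.sm_mul (hA.sm_static (sφ n)) sF)).aestronglyMeasurable
        measurableSet_Icc) ?_
    filter_upwards [ae_restrict_mem measurableSet_Icc] with σ hσ
    rw [← integral_indicator mB]
    refine tendsto_integral_of_dominated_convergence (F.hc.Q 0 σ) (fun n => (hA.integrable hI
      (st.mem hσ) (hA.s0_mul (sφ n) (hA.sm_s0 sF σ hσ))).aestronglyMeasurable) (iF σ hσ)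
      (fun n => Eventually.of_forall fun z => ?_) (Eventually.of_forall fun z => ?_)
    · rw [Real.norm_of_nonneg (mul_nonneg (Real.smoothTransition.nonneg _) (F0 σ hσ z))]
      exact mul_le_of_le_one_left (F0 σ hσ z) (Real.smoothTransition.le_one _)
    · by_cases hz : z ∈ U
      · have h1 : 0 < f z := (f0 z).lt_of_ne' (by rw [← fs] at hz; exact hz)
        rw [indicator_of_mem hz]
        refine tendsto_const_nhds.congr' ?_
        filter_upwards [tendsto_natCast_atTop_atTop.eventually (eventually_ge_atTop (1 / f z))]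
          with n hn
        have : φ n z = 1 := Real.smoothTransition.one_of_one_le ((div_le_iff₀ h1).1 hn)
        rw [this, one_mul]
      · have h1 : f z = 0 := by rw [← fs] at hz; simpa using hz
        rw [indicator_of_notMem hz]
        refine tendsto_const_nhds.congr fun n => ?_
        have : φ n z = 0 := Real.smoothTransition.zero_of_nonpos (by rw [h1, mul_zero])
        rw [this, zero_mul]
  · filter_upwards [ae_restrict_mem measurableSet_Icc] with σ hσ
    rw [Real.norm_of_nonneg (integral_nonneg (F0 σ hσ))]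
    exact setIntegral_le_integral (iF σ hσ) (Eventually.of_forall (F0 σ hσ))

/-- time integrability of the mass of a fixed closed set -/
theorem mass_ii_closed {F : Flow M} (hB : Base F) {U : Set M} (hU : IsClosed U) {a b : ℝ}
    (st : F.hc.St a b) : IntervalIntegrable (fun u => mass (F.m u) U) volume a b := by
  have hA := hB.ok.alg
  refine ((mass_ii_open hB isOpen_univ st).sub (mass_ii_open hB hU.isOpen_compl st)).congr
    fun σ hσ => ?_
  have hσ' : σ ∈ Icc a b := by
    rw [uIoc_of_le st.2.1.le] at hσ
    exact Ioc_subset_Icc_self hσ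
  have iF : Integrable (F.hc.Q 0 σ) (F.hc.vol σ) :=
    hA.integrable hB.ok.int (st.mem hσ') (hA.sm_s0 (hA.sm_Q 0 st) σ hσ')
  have := integral_add_compl hU.measurableSet iF
  simp only [mass, Measure.restrict_univ]
  exact (eq_sub_of_add_eq this).symm

/-- the leaf `MII` -/
theorem mii {F : Flow M} (hB : Base F) : MII F := by
  intro N hN r hr s t hs hst ht
  rcases hst.eq_or_lt with rfl | hst
  · exact IntervalIntegrable.refl
  rcases hr.1.eq_or_lt with e | h1
  · have : N.Om r = N.In := by
      refine union_eq_left.2 ?_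
      rintro _ ⟨x, hx, rfl⟩
      exact absurd (hx.1.trans hx.2) (by rw [e]; exact lt_irrefl _)
    rw [this]
    exact mass_ii_closed hB hN.isClosed_In ⟨hs, hst, ht⟩
  · exact mass_ii_open hB (hN.opn r ⟨h1, hr.2⟩) ⟨hs, hst, ht⟩

end Crest.Agent.N207.T

end
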