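import Crest.Agent.N207.T.St
import Crest.Agent.N207.GE.Dist

/-!
# Row 207 (helper31): block TOP, the leaf `NPERS`
-/

set_option autoImplicit false
set_option linter.unusedSectionVars false

open scoped ContDiff Manifold Topology
open Set MeasureTheory Filter
open Crest.GeometryTopology.CoordMetric Crest.GeometryTopology.ChartCurvature
  Crest.GeometryTopology.MetricFamily

noncomputable section

namespace Crest.Agent.N207.T

open Sk

namespace Gn

theorem j1_add {k : ℕ} {G G' : MetricField 4} {U : Set E4} {x : E4} {r e e' : ℝ} {i j : Fin 4}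
    (hG : IsRiemannianOn G U) (hG' : IsRiemannianOn G' U) (hx : x ∈ U) (hr : 0 ≤ r)
    (h : J1 k (dv G i j) x r e) (h' : J1 k (fun y => G' y i j - G y i j) x r e') :
    J1 k (dv G' i j) x r (e + e') := by
  have c1 : ContDiffAt ℝ k (fun y => G y i j) x :=
    ((hG.contDiffOn i j).contDiffAt (hG.isOpen.mem_nhds hx)).of_le (by exact_mod_cast le_top)
  have c2 : ContDiffAt ℝ k (fun y => G' y i j) x :=
    ((hG'.contDiffOn i j).contDiffAt (hG'.isOpen.mem_nhds hx)).of_le (by exact_mod_cast le_top)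
  have e0 : dv G' i j = dv G i j + fun y => G' y i j - G y i j := by
    funext y
    simp only [dv, Pi.add_apply]
    ring
  unfold J1 at *
  have c3 : ContDiffAt ℝ k (dv G i j) x := c1.sub contDiffAt_const
  rw [e0, iteratedFDeriv_add_apply c3 (c2.sub c1)]
  refine (mul_le_mul_of_nonneg_right (norm_add_le _ _) (by positivity)).trans ?_
  rw [add_mul]
  exact add_le_add h h'

variable {M : Type*} [TopologicalSpace M] [ChartedSpace E4 M] [IsManifold 𝓘(ℝ, E4) ∞ M]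
  [T3Space M] [ConnectedSpace M] [MeasurableSpace M] [BorelSpace M] [CompactSpace M] {F : Flow M}

/-- small energy around the points of a rough neck -/
theorem en_small (hB : Base F) (hC : CURV M) {ε : ℝ} (hε : 0 < ε) : ∃ θ : ℝ, 0 < θ ∧ θ ≤ 1 ∧
    ∀ t ∈ late F, ∀ N : Nk M, N.Top →
      (∀ x ∈ shell N.a N.b, JG 2 ((F.m t).pm N.Ψ) x ‖x‖ (1 / 100)) →
      ∀ x ∈ shell (2 * N.a) (N.b / 2), F.hc.en t (N.Ψ x) (θ * ‖x‖) ≤ ε := by
  obtain ⟨C, hC0, hC⟩ := hC
  obtain ⟨V, hV0, hV⟩ := hB.c.up _ (half_pos F.hT)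
  obtain ⟨θ, hθ, θ1, θ2⟩ : ∃ θ : ℝ, 0 < θ ∧ θ ≤ 1 / 4 ∧ 16 * C * V * θ ≤ ε :=
    ⟨min (1 / 4) (ε / (16 * C * V)), by positivity, min_le_left _ _,
      (le_div_iff₀' (by positivity)).1 (min_le_right _ _)⟩
  refine ⟨θ, hθ, by linarith, fun t ht N hT hJ x hx => ?_⟩
  have tI := late_Ioo ht
  have ha := hT.a_pos
  have x1 : 2 * N.a < ‖x‖ := hx.1
  have x2 : ‖x‖ < N.b / 2 := hx.2
  have n0 : 0 < ‖x‖ := by linarith
  have hx0 : x ∈ shell N.a N.b := ⟨by linarith, by linarith⟩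
  have key : ∀ q ∈ F.hc.B t (N.Ψ x) (θ * ‖x‖), ‖F.hc.N 0 t q‖ ≤ 16 * C / ‖x‖ ^ 4 := by
    intro q hq
    have d0 : (F.m t).d (N.Ψ x) q < θ * ‖x‖ := hq
    have d1 := hT.rad_le_d (F.m t) (fun y hy => (hJ y hy).near) (by norm_num) q (N.Ψ x)
    have d2 := hT.rad_le_d (F.m t) (fun y hy => (hJ y hy).near) (by norm_num) (N.Ψ x) q
    have d3 : (F.m t).d q (N.Ψ x) = (F.m t).d (N.Ψ x) q := hB.ok.dist.symm t tI _ _
    have d4 : θ * ‖x‖ ≤ 1 / 4 * ‖x‖ := mul_le_mul_of_nonneg_right θ1 n0.le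
    rw [hT.rad_Ψ hx0] at d1 d2
    obtain ⟨y, hy, rfl, ey⟩ := hT.exists_of_rad (p := q) (by linarith) (by linarith)
    have y1 : ‖x‖ / 2 ≤ ‖y‖ := by linarith
    rw [Real.norm_of_nonneg (hB.ok.evo.N_nonneg 0 t tI _)]
    refine (hC (F.m t) N.Ψ _ y ‖y‖ (1 / 100) hT.par hy (by linarith) (by norm_num) le_rfl
      (hJ y hy)).trans ?_
    have y2 : (‖x‖ / 2) ^ 4 ≤ ‖y‖ ^ 4 := pow_le_pow_left₀ (by positivity) y1 4
    have y3 : 0 < ‖x‖ ^ 4 := by positivity
    rw [div_le_div_iff₀ (by nlinarith) y3]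
    nlinarith [mul_le_mul_of_nonneg_left y2 hC0.le, mul_pos hC0 y3]
  have := hB.ok.int.fin t tI
  have k1 := norm_setIntegral_le_of_norm_le_const (μ := F.hc.vol t) (measure_lt_top _ _) key
  refine (le_abs_self _).trans (le_trans k1 ((mul_le_mul_of_nonneg_left
    (hV t ht _ _ (by positivity)) (by positivity)).trans ?_))
  have e : 16 * C / ‖x‖ ^ 4 * (V * (θ * ‖x‖) ^ 4) = 16 * C * V * θ ^ 4 := by field_simp
  have θ4 : θ ^ 4 ≤ θ := pow_le_of_le_one hθ.le (by linarith) (by norm_num)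
  rw [e]
  exact (mul_le_mul_of_nonneg_left θ4 (by positivity)).trans θ2

/-- two-sided persistence of the bounds on the Ricci curvature at the centre -/
theorem rc_stat (hB : Base F) : ∃ ε c r0 : ℝ, 0 < ε ∧ 0 < c ∧ 0 < r0 ∧ ∃ A : ℕ → ℝ,
    ∀ t ∈ late F, ∀ p r, 0 < r → r ≤ r0 → F.hc.en t p r ≤ ε → ∀ s < F.T, |s - t| ≤ c * r → ∀ k,
      √((F.m s).rc k p) ≤ A k / r ^ (k + 1) := by
  have hT : 0 < F.T / 2 := half_pos F.hT
  obtain ⟨e1, c1, r1, he1, hc1, hr1, h1⟩ := hB.e.stat _ hT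
  obtain ⟨e2, c2, r2, he2, hc2, hr2, -, h2⟩ := hB.e.statB _ hT
  choose C1 hC1 h1 using h1
  choose C2 hC2 h2 using h2
  refine ⟨min e1 e2, min c1 c2, min r1 r2, lt_min he1 he2, lt_min hc1 hc2, lt_min hr1 hr2,
    fun k => √(C1 k + C2 k), fun t ht p r hr hrr he s hs hst k => ?_⟩
  have hp : p ∈ F.hc.B t p (r / 2) := by
    change F.hc.d t p p < r / 2
    rw [hB.ok.dist.self t (late_Ioo ht)]
    positivity
  have := hC1 k
  have := hC2 k
  have key : (F.m s).rc k p ≤ (C1 k + C2 k) / r ^ (2 + 2 * k) := by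
    rcases le_total t s with hts | hts
    · exact (h1 k t ht p r hr (hrr.trans (min_le_left _ _)) (he.trans (min_le_left _ _)) p hp s
        ⟨hts, hs⟩ ((le_abs_self _).trans (hst.trans (by gcongr; exact min_le_left _ _)))).2.trans
        (by gcongr; linarith)
    · exact (h2 k t ht p r hr (hrr.trans (min_le_right _ _)) (he.trans (min_le_right _ _)) p hp s
        hts ((le_abs_self _).trans ((abs_sub_comm _ _).trans_le
          (hst.trans (by gcongr; exact min_le_right _ _))))).2.trans (by gcongr; linarith)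
  refine Real.sqrt_le_iff.2 ⟨by positivity, key.trans_eq ?_⟩
  rw [div_pow, Real.sq_sqrt (by positivity), ← pow_mul, show (k + 1) * 2 = 2 + 2 * k by ring]

end Gn

open Gn

variable {M : Type*} [TopologicalSpace M] [ChartedSpace E4 M] [IsManifold 𝓘(ℝ, E4) ∞ M]
  [T3Space M] [ConnectedSpace M] [MeasurableSpace M] [BorelSpace M] [CompactSpace M] {F : Flow M}

theorem npers (hB : Base F) (hP : PERS F) (hC : CURV M) : NPERS F := by
  obtain ⟨ε, c1, r1, hε, hc1, hr1, A, hA⟩ := rc_stat hB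
  obtain ⟨θ, hθ, θ1, hE⟩ := en_small hB hC hε
  refine ⟨min r1 1, by positivity, fun Cs => ?_⟩
  obtain ⟨δ, Cp, hδ, hCp, hP⟩ := hP Cs fun k => A k / θ ^ (k + 1)
  have hT := F.hT
  obtain ⟨c, hc, l0, l1, l2, l3⟩ : ∃ c : ℝ, 0 < c ∧ c ≤ 1 ∧ c ≤ c1 * θ ∧ c ≤ δ ∧ c ≤ F.T / 4 :=
    ⟨min (min 1 (c1 * θ)) (min δ (F.T / 4)), by positivity,
      (min_le_left _ _).trans (min_le_left _ _), (min_le_left _ _).trans (min_le_right _ _),
      (min_le_right _ _).trans (min_le_left _ _), (min_le_right _ _).trans (min_le_right _ _)⟩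
  refine ⟨c, Cp, hc, l0, hCp, fun t ht N hN hJ hb x hx m hm s hs hst => ?_⟩
  have ha := hN.a_pos
  have x1 : 2 * N.a < ‖x‖ := hx.1
  have x2 : ‖x‖ < N.b / 2 := hx.2
  have n0 : 0 < ‖x‖ := by linarith
  have hx0 : x ∈ shell N.a N.b := ⟨by linarith, by linarith⟩
  have b1 := hb.trans (min_le_left _ _)
  have b2 := hb.trans (min_le_right _ _)
  have q : |s - t| ≤ c := hst.trans (mul_le_of_le_one_right hc.le (by linarith))
  have s0 : 0 < s := by linarith [(abs_le.1 q).1, ht.1]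
  have sub : uIcc t s ⊆ Ioo 0 F.T := ordConnected_Ioo.uIcc_subset (late_Ioo ht) ⟨s0, hs⟩
  have ei : |∫ _ in t..s, 1 / ‖x‖| = |s - t| / ‖x‖ := by
    rw [intervalIntegral.integral_const, smul_eq_mul, abs_mul, abs_of_pos (one_div_pos.2 n0),
      mul_one_div]
  have key := hP m N.Ψ _ x ‖x‖ t s (fun _ => 1 / ‖x‖) hN.par hx0 n0 sub
    (fun k hk => hJ x hx0 k (by omega)) hm continuousOn_const (fun _ _ => by positivity)
    (fun u hu k _ => by
      have hu' : u ∈ uIcc t s := Ioo_subset_Icc_self hu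
      have h1 := hA t ht (N.Ψ x) (θ * ‖x‖) (by positivity)
        ((mul_le_of_le_one_left n0.le θ1).trans (by linarith)) (hE t ht N hN hJ x hx) u (sub hu').2
        ((abs_sub_left_of_mem_uIcc hu').trans (hst.trans (by
          rw [← mul_assoc]; exact mul_le_mul_of_nonneg_right l1 n0.le))) k
      refine (mul_le_mul_of_nonneg_left h1 (by positivity)).trans_eq ?_
      rw [mul_pow, pow_succ ‖x‖]
      field_simp)
    (by rw [ei]; exact ((div_le_iff₀ n0).2 hst).trans l2)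
  rw [ei] at key
  exact ⟨s0, fun k hk i j e he =>
    j1_add (hN.par.riem _) (hN.par.riem _) hx0 n0.le he (key k hk i j)⟩

end Crest.Agent.N207.T

end
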