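import Crest.Agent.N207.T.St
import Crest.Agent.N207.T.Lo2
import Crest.Agent.N207.A.Alg
import Crest.Agent.N207.GE.Dist
import Crest.Agent.N207.Rad.Neck2

/-!
# Row 207 (helper16): block TOP, the leaves `SING` and `FAR`
-/

set_option autoImplicit false
set_option linter.unusedSectionVars false

open scoped ContDiff Manifold Topology
open Set MeasureTheory Filter

noncomputable section

namespace Crest.Agent.N207.T

open Sk

variable {M : Type*} [TopologicalSpace M] [ChartedSpace E4 M] [IsManifold 𝓘(ℝ, E4) ∞ M]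
  [T3Space M] [ConnectedSpace M] [MeasurableSpace M] [BorelSpace M] [CompactSpace M] {F : Flow M}

theorem sing (hB : Base F) : SING F := by
  intro hn
  obtain ⟨ε, c, r0, hε, hc, hr, h⟩ := hB.e.stat _ (half_pos F.hT)
  obtain ⟨C, -, h⟩ := h 0
  by_contra hs
  have key : ∀ p : M, ∃ (U : Set M) (t B : ℝ), IsOpen U ∧ p ∈ U ∧ t < F.T ∧
      ∀ s ∈ Ico t F.T, ∀ y ∈ U, (F.m s).rm 0 y ≤ B := fun p => by
    have : ¬∀ t ∈ late F, ∀ r ∈ Ioc 0 r0, F.T - t ≤ c * r → ε ≤ F.hc.en t p r := fun k =>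
      hs ⟨p, ε, c, r0, hε, hc, hr, k⟩
    push Not at this
    obtain ⟨t, ht, r, hr, h1, h2⟩ := this
    refine ⟨F.hc.B t p (r / 2), t, C / r ^ (4 + 2 * 0),
      isOpen_lt (hB.ok.dist.cont t (late_Ioo ht) p) continuous_const, ?_, ht.2, fun s hs y hy =>
        (h t ht p r hr.1 hr.2 h2.le y hy s hs (by linarith [hs.2])).1⟩
    change F.hc.d t p p < r / 2
    rw [hB.ok.dist.self t (late_Ioo ht)]; exact half_pos hr.1
  choose U t B hU hp ht hb using key
  obtain ⟨I, hI⟩ := isCompact_univ.elim_finite_subcover U hU fun p _ => mem_iUnion.2 ⟨p, hp p⟩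
  obtain ⟨t1, h1, h2⟩ : ∃ t1 < F.T, ∀ p ∈ I, t p ≤ t1 := by
    obtain ⟨t1, h1, h2⟩ := (((eventually_all_finset I).2 fun p _ => Ico_mem_nhdsLT (ht p)).and
      (self_mem_nhdsWithin (s := Iio F.T))).exists
    exact ⟨t1, h2, fun p hp => (h1 p hp).1⟩
  obtain ⟨B1, h3⟩ := (I.finite_toSet.image B).bddAbove
  obtain ⟨B2, h4⟩ := Sta.smST_bdd (Sta.smST_rm (F.sm.mono' (J' := Icc 0 t1)
    fun _ hs => ⟨hs.1, hs.2.trans_lt h1⟩) 0) isCompact_Icc
  refine hn ⟨max B1 B2, fun s hs y => ?_⟩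
  rcases le_total s t1 with e | e
  · exact ((le_abs_self _).trans (h4 s ⟨hs.1, e⟩ y)).trans (le_max_right _ _)
  · obtain ⟨p, hp, hy⟩ := mem_iUnion₂.1 (hI (mem_univ y))
    exact ((hb p s ⟨(h2 p hp).trans e, hs.2⟩ y hy).trans (h3 ⟨p, hp, rfl⟩)).trans (le_max_left _ _)

/-- below a fixed level, every bounded range of levels is frequently free of bad levels -/
theorem free_range {α : Type*} {l : Filter α} [l.NeBot] {Bad : α → Finset ℤ} {n0 : ℕ}
    (h : ∀ᶠ t in l, (Bad t).card ≤ n0) :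
    ∃ m : ℤ, ∀ n : ℤ, ∀ {P : α → Prop}, (∀ᶠ t in l, P t) →
      ∃ t, P t ∧ ∀ j ∈ Bad t, j < n ∨ m ≤ j := by
  have hU := Ultrafilter.of_le l
  set U := Ultrafilter.of l
  have hS : {j : ℤ | ∀ᶠ t in U, j ∈ Bad t}.Finite := by
    by_contra k
    obtain ⟨J, h1, h2⟩ := Set.Infinite.exists_subset_card_eq k (n0 + 1)
    obtain ⟨t, a, b⟩ := (((eventually_all_finset J).2 fun j hj => h1 hj).and (hU h)).exists
    have : (Bad t).card ≤ n0 := b
    have := Finset.card_le_card (show J ⊆ Bad t from a)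
    omega
  obtain ⟨m, hm⟩ := hS.bddBelow
  refine ⟨m, fun n P hP => ?_⟩
  obtain ⟨t, a, b⟩ := (((eventually_all_finset (Finset.Ico n m)).2 fun j hj =>
    Ultrafilter.eventually_not.2 fun k : ∀ᶠ t in U, j ∈ Bad t =>
      (Finset.mem_Ico.1 hj).2.not_ge (hm k)).and (hU hP)).exists
  exact ⟨t, b, fun j hj => by_contra fun k => a j (Finset.mem_Ico.2 (by omega)) hj⟩

theorem far (hB : Base F) (hC : CONE F) (hN : NPERS F) : FAR F := by
  intro p ε c r0 ⟨hε, hc, hr0, hS⟩ η hη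
  obtain ⟨r2, hr2, hN⟩ := hN
  obtain ⟨c', Cp, hc', -, hCp, hN⟩ := hN fun _ => 1 / 100
  obtain ⟨V, K, r1, n0, hK, hr1, hC⟩ := hC (min (η / 2) (1 / 100)) ε (by positivity) hε
  choose! Bad hcard hneck using fun t ht => hC t ht p
  obtain ⟨Kr, hKr⟩ := hB.ok.evo.R_bd
  have hl : ∀ᶠ t in 𝓝[<] F.T, t ∈ late F := Ico_mem_nhdsLT (half_lt_self F.hT)
  obtain ⟨m, hm⟩ := free_range (hl.mono hcard)
  have p0 := hCp 0
  have p1 := hCp 1
  have p2 := hCp 2
  refine ⟨Real.exp (|Kr| * F.T) * (|V| + 16), min (min (r1 / 2) (r2 / 2))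
    (min (2 ^ (m - 1) / (2 * K)) r0), by positivity, fun a b ha hab hb => ?_⟩
  simp only [le_min_iff] at hb
  obtain ⟨⟨b1, b2⟩, b3, b4⟩ := hb
  rw [le_div_iff₀ (by positivity)] at b3
  have ha' : 0 < a / 2 / K := by positivity
  have ha2 : a / 2 / K ≤ a := by rw [div_le_iff₀ (by positivity)]; nlinarith
  obtain ⟨n, hn⟩ := exists_mem_Ico_zpow ha' one_lt_two
  set μ := min (c * (a / 2 / K)) (min (c' * a) (a * (η / 2 / (Cp 0 + Cp 1 + Cp 2)))) with hμ
  have μ0 : 0 < μ := by positivity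
  obtain ⟨t, ⟨ht, ht'⟩, hbad⟩ := hm n (hl.and (Ico_mem_nhdsLT (sub_lt_self F.T μ0)))
  have t1 : F.T - t ≤ μ := by linarith [ht'.1]
  simp only [hμ, le_min_iff] at t1
  obtain ⟨N, hT, e1, e2, hp, hR⟩ := hneck t ht (a / 2) (2 * b) (half_pos ha) (by linarith)
    (by linarith) (fun j hj => (hbad j hj).imp
      (fun k => (zpow_lt_zpow_right₀ one_lt_two k).trans_le hn.1)
      fun k => lt_of_le_of_lt (by linarith) (zpow_lt_zpow_right₀ one_lt_two (by omega : m - 1 < j)))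
    (by rw [en_eq]; exact hS t ht _ ⟨ha', by linarith⟩ t1.1)
  have hR1 := hR.mono le_rfl (min_le_right _ _) le_rfl
  refine ⟨N.res a b, t, ht, Rad.res_top hT (by linarith) hab (by linarith), rfl, rfl, .inl hp,
    fun s hs => ⟨fun x hx k hk i j => ?_, ?_⟩⟩
  · have hx1 : a < ‖x‖ := hx.1
    have hx2 : ‖x‖ < b := hx.2
    have hx' : x ∈ shell N.a N.b := ⟨by linarith, by linarith⟩
    have st : |s - t| ≤ F.T - t := by rw [abs_of_nonneg (by linarith [hs.1])]; linarith [hs.2]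
    refine ((hN t ht N hT hR1.jet (by linarith) x ⟨by linarith, by linarith⟩ 2 (hR1.jet x hx') s
      hs.2 (by nlinarith [t1.2.1])).2 k hk i j _ (hR.jet x hx' k hk i j)).trans ?_
    have q1 : |s - t| / ‖x‖ ≤ η / 2 / (Cp 0 + Cp 1 + Cp 2) := by
      rw [div_le_iff₀ (by linarith)]
      have : 0 < η / 2 / (Cp 0 + Cp 1 + Cp 2) := by positivity
      nlinarith [t1.2.2]
    have q2 : Cp k ≤ Cp 0 + Cp 1 + Cp 2 := by interval_cases k <;> linarith
    have q3 := mul_le_mul q2 q1 (by positivity) (by positivity)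
    rw [mul_div_cancel₀ _ (by positivity)] at q3
    linarith [min_le_left (η / 2) (1 / 100)]
  · have hs' : s ∈ Ioo 0 F.T := ⟨(late_Ioo ht).1.trans_le hs.1, hs.2⟩
    have := hB.ok.int.fin t (late_Ioo ht)
    have k := hB.ok.int.vol_le (K := |Kr|) (fun t ht x => (hKr t ht x).trans (le_abs_self _)) t
      (late_Ioo ht) s hs' (N.res a b).In
    rw [Measure.smul_apply, smul_eq_mul] at k
    have k2 := ENNReal.toReal_mono (ENNReal.mul_ne_top ENNReal.ofReal_ne_top (measure_ne_top _ _)) k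
    rw [ENNReal.toReal_mul, ENNReal.toReal_ofReal (Real.exp_pos _).le] at k2
    have k3 : (F.hc.vol t).real (N.res a b).In ≤ _ :=
      (measureReal_mono (Rad.res_in_sub (r := 3 / 2 * a) (by linarith))).trans
        (hT.vol_Om (F.m t) (hR1.mono (Nat.zero_le _) le_rfl (le_abs_self V))
          ⟨by linarith, by linarith⟩)
    rw [e1] at k3
    have a4 : 0 < a ^ 4 := by positivity
    refine k2.trans ?_
    rw [mul_assoc]
    refine mul_le_mul (Real.exp_le_exp.2 (mul_le_mul_of_nonneg_left ?_ (abs_nonneg _)))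
      (k3.trans ?_) ENNReal.toReal_nonneg (Real.exp_pos _).le
    · rw [abs_of_nonneg (by linarith [hs.1])]; linarith [hs.2, (late_Ioo ht).1]
    · change _ ≤ (|V| + 16) * a ^ 4
      nlinarith [mul_nonneg (abs_nonneg V) a4.le]

end Crest.Agent.N207.T

end
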