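import Crest.Agent.N207.T.St
import Crest.Agent.N207.GE.Dist
import Crest.Agent.N207.C.Cutf

/-!
# Row 207 (helper83): block TOP, the leaf `STAT`
-/

set_option autoImplicit false
set_option linter.unusedSectionVars false

open scoped ContDiff Manifold Topology
open Set MeasureTheory Filter
open Crest.GeometryTopology.CoordMetric Crest.GeometryTopology.ChartCurvature
  Crest.GeometryTopology.MetricFamily

noncomputable section

namespace Crest.Agent.N207.T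

open Sk

theorem st_wt {a b : ℝ} (ha : 0 < a) {x : E4} (hx : x ∈ shell a b) : wt a b x ≤ 2 := by
  have h0 : 0 < ‖x‖ := ha.trans hx.1
  have h1 : √(a / ‖x‖) ≤ 1 := Real.sqrt_le_one.2 ((div_le_one h0).2 hx.1.le)
  have h2 : √(‖x‖ / b) ≤ 1 := Real.sqrt_le_one.2 ((div_le_one (h0.trans hx.2)).2 hx.2.le)
  unfold wt; linarith

theorem st_j1 {G G' : MetricField 4} {x : E4} {s e e' : ℝ} {k : ℕ} {i j : Fin 4} (hs : 0 ≤ s)
    (hG : ContDiffAt ℝ ∞ (fun y => G y i j) x) (hG' : ContDiffAt ℝ ∞ (fun y => G' y i j) x)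
    (h1 : J1 k (dv G i j) x s e) (h2 : J1 k (fun y => G' y i j - G y i j) x s e') :
    J1 k (dv G' i j) x s (e + e') := by
  have e1 : dv G' i j = dv G i j + fun y => G' y i j - G y i j := by
    funext y; simp only [dv, Pi.add_apply]; ring
  have c1 : ContDiffAt ℝ k (dv G i j) x := (hG.sub contDiffAt_const).of_le (by exact_mod_cast le_top)
  have c2 : ContDiffAt ℝ k (fun y => G' y i j - G y i j) x :=
    (hG'.sub hG).of_le (by exact_mod_cast le_top)
  unfold J1 at *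
  rw [e1, iteratedFDeriv_add_apply c1 c2]
  refine (mul_le_mul_of_nonneg_right (norm_add_le _ _) (pow_nonneg hs k)).trans ?_
  rw [add_mul]
  exact add_le_add h1 h2

variable {M : Type*} [TopologicalSpace M] [ChartedSpace E4 M] [IsManifold 𝓘(ℝ, E4) ∞ M]
  [T3Space M] [ConnectedSpace M] [CompactSpace M] [MeasurableSpace M] [BorelSpace M]

theorem SN.jg {F : Flow M} {s η : ℝ} {N : Nk M} (h : SN F s η N) (h0 : 0 ≤ η) {x : E4}
    (hx : x ∈ shell N.a N.b) : JG 2 ((F.m s).pm N.Ψ) x ‖x‖ (2 * η) := fun k hk i j =>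
  (h.jet x hx k hk i j).trans (by nlinarith [mul_le_mul_of_nonneg_left (st_wt h.top.a_pos hx) h0])

theorem SN.rough0 {F : Flow M} {s η : ℝ} {N : Nk M} (h : SN F s η N) (h0 : 0 ≤ η)
    (h1 : η ≤ 1 / 200) : Rough (F.m s) N 0 (1 / 100) 192 :=
  ⟨fun x hx k hk i j => (h.jg h0 hx k (hk.trans (Nat.zero_le _)) i j).trans (by linarith), h.vol⟩

theorem st_mass {F : Flow M} (hB : Base F) {t : ℝ} (ht : t ∈ Ioo 0 F.T) {S S' : Set M}
    (h : S ⊆ S') : ∫ y in S, F.hc.Q 0 t y ∂F.hc.vol t ≤ mass (F.m t) S' :=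
  setIntegral_mono_set (hB.ok.alg.integrable hB.ok.int ht (hB.ok.alg.s0_Q ht 0)).integrableOn
    (Eventually.of_forall fun z => hB.ok.evo.Q_nonneg 0 t ht z) h.eventuallyLE

theorem stat {F : Flow M} (hB : Base F) (hZ : TRKZ F.hc) (hC : CEN F) (hS : SW F) (hP : PERS F) :
    STAT F := by
  intro p ε c0 r0 hp
  obtain ⟨hε, hc0, hr0, -⟩ := id hp
  obtain ⟨C, K, rE, hC0, hK, hrE, rE1, hcen⟩ := hC
  obtain ⟨ε1, C0, hε1, hC01, hZ⟩ := hZ (ε / 2) (half_pos hε)
  obtain ⟨KS, rS, hKS, hrS, -, hsw⟩ := hS 192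
  obtain ⟨Cd, hCd, hlo⟩ := hB.c.dlo
  obtain ⟨η0, hη0, η1, η2⟩ : ∃ η0 : ℝ, 0 < η0 ∧ η0 ≤ 1 / 200 ∧ C * η0 ^ 2 ≤ min (ε / 2) ε1 := by
    have q : 0 < min (ε / 2) ε1 / C := by positivity
    refine ⟨min (1 / 200) (min (ε / 2) ε1 / C), by positivity, min_le_left _ _, ?_⟩
    have q1 := min_le_left (1 / 200 : ℝ) (min (ε / 2) ε1 / C)
    have q2 := (le_div_iff₀ hC0).1 (min_le_right (1 / 200 : ℝ) (min (ε / 2) ε1 / C))
    have q3 : 0 < min (1 / 200 : ℝ) (min (ε / 2) ε1 / C) := by positivity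
    nlinarith [mul_pos hC0 q3]
  obtain ⟨K0, hK0⟩ : ∃ K0, K0 = 16 * C0 * K + 2 := ⟨_, rfl⟩
  have k01 : 16 * K ≤ 16 * C0 * K := by nlinarith
  refine ⟨η0, K0, hη0, by nlinarith, fun L hL => ?_⟩
  obtain ⟨C1, hC1, hZ⟩ := hZ (L + KS) (by linarith)
  obtain ⟨K1, hK1⟩ : ∃ K1, K1 = L + K0 + 16 * C1 * K := ⟨_, rfl⟩
  have k11 : 0 ≤ 16 * C1 * K := by positivity
  refine ⟨K1, by linarith, by linarith, fun Kr hKr δ hδ => ?_⟩
  obtain ⟨B, hB0, hZ⟩ := hZ Kr hKr
  obtain ⟨δP, Cp, hδP, hCp, hP⟩ := hP (fun _ => 1 / 100) fun k => (L * Kr) ^ k * B k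
  obtain ⟨δT, hδT, d1, d2⟩ : ∃ δT : ℝ, 0 < δT ∧ δT ≤ δP ∧ ∀ k ≤ 2, Cp k * δT ≤ δ := by
    have := hCp 0
    have := hCp 1
    have := hCp 2
    refine ⟨min δP (δ / (Cp 0 + Cp 1 + Cp 2)), by positivity, min_le_left _ _, fun k hk => ?_⟩
    have q := (le_div_iff₀ (show 0 < Cp 0 + Cp 1 + Cp 2 by positivity)).1
      (min_le_right δP (δ / (Cp 0 + Cp 1 + Cp 2)))
    have q0 : 0 < min δP (δ / (Cp 0 + Cp 1 + Cp 2)) := by positivity
    refine le_trans ?_ q
    rw [mul_comm]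
    refine mul_le_mul_of_nonneg_left ?_ q0.le
    interval_cases k <;> linarith
  obtain ⟨cT, rT, hcT, hrT, hZ⟩ := hZ δT hδT
  refine ⟨min (min (cT / Kr ^ 4) c0) (min (1 / Cd ^ 2) rT), min (min rE rS) (min r0 rT),
    by positivity, by positivity,
    fun s τ l l' A R η N Y hsτ hη hηη hl1 hl2 hA hR hR1 hTc hN hNτ hY hint => ?_⟩
  obtain ⟨c, hc⟩ : ∃ c, c = min (min (cT / Kr ^ 4) c0) (min (1 / Cd ^ 2) rT) := ⟨_, rfl⟩
  rw [← hc] at hTc hint
  have c1 : c ≤ cT / Kr ^ 4 := hc ▸ (min_le_left _ _).trans (min_le_left _ _)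
  have c2 : c ≤ c0 := hc ▸ (min_le_left _ _).trans (min_le_right _ _)
  have c3 : c ≤ 1 / Cd ^ 2 := hc ▸ (min_le_right _ _).trans (min_le_left _ _)
  have c4 : c ≤ rT := hc ▸ (min_le_right _ _).trans (min_le_right _ _)
  have c5 : 0 < c := by rw [hc]; positivity
  have R1 : R ≤ rE := hR1.trans ((min_le_left _ _).trans (min_le_left _ _))
  have R2 : R ≤ rS := hR1.trans ((min_le_left _ _).trans (min_le_right _ _))
  have R3 : R ≤ r0 := hR1.trans ((min_le_right _ _).trans (min_le_left _ _))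
  have R4 : R ≤ rT := hR1.trans ((min_le_right _ _).trans (min_le_right _ _))
  obtain ⟨s0, hs0⟩ : ∃ s0, s0 = s - (K0 * l) ^ 2 := ⟨_, rfl⟩
  rw [← hs0] at hTc hN hY hint
  have s0s : s0 ≤ s := by rw [hs0]; linarith [sq_nonneg (K0 * l)]
  have mτ : τ ∈ Icc s0 τ := ⟨s0s.trans hsτ, le_rfl⟩
  have l'0 : 0 < l' := hNτ ▸ (hN τ mτ).1.top.a_pos
  have l0 : 0 < l := l'0.trans_le hl1
  have hK0' : 0 < K := by linarith
  have Kl : 0 < K * l := by positivity
  have e1 : K1 * l = L * l + K0 * l + 2 * (C1 * (8 * K * l)) := by rw [hK1]; ring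
  have e2 : K0 * l = 2 * (C0 * (8 * K * l)) + 2 * l := by rw [hK0]; ring
  have e3 : 8 * K * l ≤ C0 * (8 * K * l) := le_mul_of_one_le_left (by positivity) hC01
  have e4 : 8 * K * l ≤ C1 * (8 * K * l) := le_mul_of_one_le_left (by positivity) hC1
  have e5 : l ≤ L * l := le_mul_of_one_le_left l0.le hL
  have e6 : 8 * K * l = 8 * (K * l) := by ring
  have A0 : 0 < A := by linarith
  have A1 : A ≤ 1 := by linarith
  have cA : c * A ^ 2 ≤ c * A := mul_le_mul_of_nonneg_left (by nlinarith) c5.le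
  have cA1 : c * A ≤ c := mul_le_of_le_one_right c5.le A1
  have η200 : η ≤ 1 / 200 := hηη.trans η1
  have ηC : C * η ^ 2 ≤ min (ε / 2) ε1 :=
    (mul_le_mul_of_nonneg_left (pow_le_pow_left₀ hη hηη 2) hC0.le).trans η2
  have hT : ∀ t ∈ Icc s0 τ, t ∈ Ioo 0 F.T := fun t ht => late_Ioo (hN t ht).1.late
  have hex : ∀ t, ∃ z, t ∈ Icc s0 τ → z ∈ (N t).In := fun t => by
    by_cases ht : t ∈ Icc s0 τ
    · obtain ⟨z, hz⟩ := (hN t ht).1.top.ne
      exact ⟨z, fun _ => hz⟩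
    · exact ⟨p, fun h => absurd h ht⟩
  choose z hz using hex
  have aK : ∀ t ∈ Icc s0 τ, K * (N t).a ≤ K * l := fun t ht =>
    mul_le_mul_of_nonneg_left (hN t ht).2.1 hK0'.le
  have cen := fun t (ht : t ∈ Icc s0 τ) => (hcen p ε c0 r0 hp t η A (N t) hη η200 (by linarith)
    (by linarith [ht.1, mul_le_mul_of_nonneg_right c2 A0.le]) (hN t ht).1
    (by rw [(hN t ht).2.2.1]; exact R1) (by linarith [aK t ht])
    (by rw [(hN t ht).2.2.1]; linarith) (hN t ht).2.2.2.1).1 (z t) (hz t ht)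
  have sw := fun t (ht : t ∈ Icc s0 τ) => hsw t (hN t ht).1.late (N t) (hN t ht).1.top
    ((hN t ht).1.rough0 hη η200) (by rw [(hN t ht).2.2.1]; exact R2)
    (by rw [(hN t ht).2.2.1]; linarith [(hN t ht).2.1]) (z t) (hz t ht)
  have D := hB.ok.dist
  have conc : ∀ t ∈ Icc s0 τ, ∀ a', K * (N t).a ≤ a' →
      Conc F.hc t (F.hc.B τ (z τ) (C1 * (8 * K * l))) (z t) a' (C1 * (8 * K * l)) ε1 := by
    intro t ht a' ha' x hx y hy r hr0 hr hen
    have q1 : F.hc.d τ (z τ) x < C1 * (8 * K * l) := hx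
    have q2 : F.hc.d t x y < C1 * (8 * K * l) := hy
    have q3 : F.hc.d τ (z τ) p ≤ 3 * A := (cen τ mτ).2.1
    have q4 : F.hc.d t (z t) p ≤ 3 * A := (cen t ht).2.1
    have q5 := hlo t τ (hT t ht).1 ht.2 (hT τ mτ).2 p x
    have q6 : Cd * √(τ - t) ≤ A := by
      have w1 : τ - t ≤ (A / Cd) ^ 2 := by
        have := mul_le_mul_of_nonneg_right c3 (sq_nonneg A)
        have w2 : 1 / Cd ^ 2 * A ^ 2 = (A / Cd) ^ 2 := by ring
        linarith [(hT τ mτ).2, ht.1]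
      have := Real.sqrt_le_iff.2 ⟨by positivity, w1⟩
      rwa [le_div_iff₀ hCd, mul_comm] at this
    have q7 := D.tri τ (hT τ mτ) p (z τ) x
    rw [D.symm τ (hT τ mτ) p (z τ)] at q7
    have q8 := D.tri t (hT t ht) (z t) p x
    have q9 := D.tri t (hT t ht) (z t) x y
    have := (cen t ht).2.2 y r (by
      rw [(hN t ht).2.2.1]
      show F.hc.d t (z t) y + r ≤ R / 2
      linarith) ((ηC.trans (min_le_right _ _)).trans_lt hen)
    show (F.m t).d (z t) y < 2 * r + a'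
    linarith
  have sub : Icc (s - (8 * K * l) ^ 2) τ ⊆ Icc s0 τ := by
    refine Icc_subset_Icc ?_ le_rfl
    have := pow_le_pow_left₀ (by positivity) (show 8 * K * l ≤ K0 * l by linarith) 2
    linarith
  have m1 : s - (8 * K * l) ^ 2 ∈ Icc s0 τ := sub ⟨le_rfl, by linarith [sq_nonneg (8 * K * l)]⟩
  have Y0 : ∀ t ∈ Icc s0 τ, 0 ≤ Y t := fun t ht =>
    le_trans (integral_nonneg fun q => hB.ok.evo.Q_nonneg 0 t (hT t ht) q) (hN t ht).2.2.2.2
  have hY' : IntervalIntegrable Y volume (s - (8 * K * l) ^ 2) τ :=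
    hY.mono_set (by rw [uIcc_of_le m1.2, uIcc_of_le mτ.1]; exact sub)
  obtain ⟨out1, ζ, cζ, ζ0, iζ, out2⟩ := hZ s τ (8 * K * l) (8 * K * l') z Y (hN _ m1).1.late.1 hsτ
    (hT τ mτ).2 (by linarith [(hT τ mτ).2]) (by positivity)
    (mul_le_mul_of_nonneg_left hl1 (by positivity))
    (by have := mul_le_mul_of_nonneg_left hl2 (show 0 ≤ 8 * K by positivity); linarith)
    (by linarith)
    (fun t ht => ⟨by
      have q1 := (cen t (sub ht)).1
      have q2 := HC.en_mono_set hB.ok (hT t (sub ht))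
        (HC.B_mono2 t (z t) (show K * (N t).a ≤ 8 * K * l by linarith [aK t (sub ht)]))
      linarith [ηC.trans (min_le_left _ _)],
      conc t (sub ht) _ (by linarith [aK t (sub ht)]),
      (st_mass hB (hT t (sub ht)) fun q hq => (sw t (sub ht) (K1 * l)
        ⟨by linarith [(hN t (sub ht)).2.1], by rw [(hN t (sub ht)).2.2.1]; linarith⟩).2 q (by
          have q1 : (F.m t).d (z t) q < C1 * (8 * K * l) := hq
          linarith [(hN t (sub ht)).2.1])).trans (hN t (sub ht)).2.2.2.2⟩)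
    (conc τ mτ _ (by rw [hNτ]; linarith)) hY' (by
      have q1 : ∫ t in (s - (8 * K * l) ^ 2)..τ, Y t ≤ ∫ t in s0..τ, Y t :=
        intervalIntegral.integral_mono_interval m1.1 m1.2 le_rfl
          ((ae_restrict_mem measurableSet_Ioc).mono fun t ht => Y0 t (Ioc_subset_Icc_self ht)) hY
      refine (mul_le_mul_of_nonneg_left q1 (sub_nonneg.2 hsτ)).trans (hint.trans ?_)
      have q2 : l ≤ Kr * (8 * K * l') := hl2.trans (mul_le_mul_of_nonneg_left
        (le_mul_of_one_le_left l'0.le (by linarith)) (by linarith))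
      have q3 := pow_le_pow_left₀ l0.le q2 4
      refine (mul_le_mul c1 q3 (by positivity) (by positivity)).trans (le_of_eq ?_)
      field_simp)
  intro t ht
  have mt : t ∈ Icc s0 τ := ⟨s0s.trans ht.1.le, ht.2⟩
  refine ⟨fun x hx => ?_, z τ, hz τ mτ, (sw t mt (K0 * l)
    ⟨by linarith [(hN t mt).2.1], by rw [(hN t mt).2.2.1]; linarith⟩).2 _ ?_⟩
  swap
  · have q1 : (F.m t).d (z t) (z τ) ≤ C0 * (8 * K * l) := out1 t ht
    linarith [(hN t mt).2.1]
  have top := (hN τ mτ).1.top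
  have hb : (N τ).b = R := (hN τ mτ).2.2.1
  have K0l : (16 * K + 2) * l' ≤ K0 * l' := mul_le_mul_of_nonneg_right (by linarith) l'0.le
  have Kl' : 0 < K * l' := by positivity
  have hx' : x ∈ shell (N τ).a (N τ).b :=
    ⟨by rw [hNτ]; linarith [hx.1], by rw [hb]; linarith [hx.2]⟩
  have x0 : 0 < ‖x‖ := top.a_pos.trans hx'.1
  have lo : 8 * K * l' ≤ F.hc.d τ (z τ) ((N τ).Ψ x) := by
    by_contra hn
    have q1 : (F.m τ).d (z τ) ((N τ).Ψ x) < 8 * K * l' := not_le.1 hn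
    have q2 := (sw τ mτ ‖x‖ ⟨hx'.1.le, hx'.2.le⟩).2 ((N τ).Ψ x) (by rw [hNτ]; linarith [hx.1])
    rw [top.mem_Om ⟨hx'.1, hx'.2.le⟩, top.rad_Ψ hx'] at q2
    exact lt_irrefl _ q2
  have hi : F.hc.d τ (z τ) ((N τ).Ψ x) ≤ (L + KS) * (8 * K * l) := by
    have q1 := (sw τ mτ (L * l) ⟨by rw [hNτ]; linarith, by rw [hb]; linarith⟩).1 ((N τ).Ψ x)
      (Or.inr ⟨x, ⟨hx'.1, hx.2⟩, rfl⟩)
    rw [hNτ] at q1
    have q2 : KS * l' ≤ KS * l := mul_le_mul_of_nonneg_left hl1 (by linarith)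
    have q3 : (L + KS) * (2 * l) ≤ (L + KS) * (8 * K * l) :=
      mul_le_mul_of_nonneg_left (by nlinarith) (by linarith)
    have q4 : 0 < KS * l := by positivity
    show (F.m τ).d (z τ) ((N τ).Ψ x) ≤ _
    linarith
  have jτ := (hN τ mτ).1.jg hη hx'
  have sub2 : Icc t τ ⊆ Icc s τ := Icc_subset_Icc ht.1.le le_rfl
  have iζ' : |∫ r in τ..t, ζ r| ≤ δT := by
    rw [intervalIntegral.integral_symm, abs_neg, abs_of_nonneg
      (intervalIntegral.integral_nonneg ht.2 fun r hr => ζ0 r (sub2 hr))]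
    exact (intervalIntegral.integral_mono_interval ht.1.le ht.2 le_rfl
      ((ae_restrict_mem measurableSet_Ioc).mono fun r hr => ζ0 r (Ioc_subset_Icc_self hr))
      (cζ.intervalIntegrable_of_Icc hsτ)).trans iζ
  have eu : uIcc τ t = Icc t τ := uIcc_of_ge ht.2
  have key := hP 2 (N τ).Ψ _ x ‖x‖ τ t ζ top.par hx' x0
    (by rw [eu]; exact fun r hr => hT r ⟨mt.1.trans hr.1, hr.2⟩)
    (fun k hk i j => (jτ k (hk.trans (Nat.zero_le _)) i j).trans (by linarith))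
    (fun k hk i j => (jτ k hk i j).trans (by linarith)) (by rw [eu]; exact cζ.mono sub2)
    (by rw [eu]; exact fun r hr => ζ0 r (sub2 hr)) (fun r hr k _ => by
      rw [min_eq_right ht.2, max_eq_left ht.2] at hr
      have q1 := out2 r ⟨ht.1.trans hr.1, hr.2⟩ _ lo hi k
      have q2 : ‖x‖ ≤ L * Kr * (8 * K * l') := by
        have w1 : L * l ≤ L * (Kr * l') := mul_le_mul_of_nonneg_left hl2 (by linarith)
        have w2 : L * Kr * l' ≤ L * Kr * (8 * K * l') :=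
          mul_le_mul_of_nonneg_left (le_mul_of_one_le_left l'0.le (by linarith)) (by positivity)
        linarith [hx.2]
      have q3 := pow_le_pow_left₀ x0.le q2 k
      rw [mul_pow] at q3
      refine (mul_le_mul_of_nonneg_right q3 (Real.sqrt_nonneg _)).trans ?_
      have q4 := mul_le_mul_of_nonneg_left q1 (show 0 ≤ (L * Kr) ^ k by positivity)
      rw [← mul_assoc, ← mul_assoc] at q4
      exact q4) (iζ'.trans d1)
  intro k hk i j
  have sm : ∀ r, ContDiffAt ℝ ∞ (fun y => (F.m r).pm (N τ).Ψ y i j) x := fun r =>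
    ((V.par_riem top.par (F.m r)).contDiffOn i j).contDiffAt (top.par.isOpen.mem_nhds hx')
  exact st_j1 x0.le (sm τ) (sm t) (jτ k hk i j) ((key k hk i j).trans
    ((mul_le_mul_of_nonneg_left iζ' (hCp k).le).trans (d2 k hk)))

end Crest.Agent.N207.T

end
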