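import Crest.Agent.N207.T.St
import Crest.Agent.N207.GE.Dist
import Crest.Agent.N207.AI.EvoS
import Crest.Agent.N207.AI.Par2

/-!
# Row 207 (helper87): block TOP, the static leaves `SW`, `CMPL`, `SHE`, `CEN`
-/

set_option autoImplicit false
set_option linter.unusedSectionVars false

open scoped ContDiff Manifold Topology
open Set MeasureTheory Filter

noncomputable section

namespace Crest.Agent.N207.T

open Sk

variable {M : Type*} [TopologicalSpace M] [ChartedSpace E4 M] [IsManifold 𝓘(ℝ, E4) ∞ M]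
  [T3Space M] [ConnectedSpace M] [MeasurableSpace M] [BorelSpace M] [CompactSpace M]

theorem md_comm (g : Met 4 M) (x y : M) : g.d x y = g.d y x := dist_comm (α := Sl g) x y

theorem md_tri (g : Met 4 M) (x y z : M) : g.d x z ≤ g.d x y + g.d y z :=
  dist_triangle (α := Sl g) x y z

theorem rm_nn (g : Met 4 M) (k : ℕ) (x : M) : 0 ≤ g.rm k x :=
  AI.nsq_nonneg (g.isRiem x) (ctr_mem x) _

theorem rm_int (g : Met 4 M) (k : ℕ) : Integrable (g.rm k) g.vol :=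
  V.integrable_cont g (g.sm_rm k).continuous

theorem rm_mono (g : Met 4 M) {A B : Set M} (h : A ⊆ B) :
    ∫ q in A, g.rm 0 q ∂g.vol ≤ ∫ q in B, g.rm 0 q ∂g.vol :=
  setIntegral_mono_set (rm_int g 0).integrableOn (ae_of_all _ (rm_nn g 0)) h.eventuallyLE

theorem rm_union (g : Met 4 M) (A B : Set M) :
    ∫ q in A ∪ B, g.rm 0 q ∂g.vol ≤ (∫ q in A, g.rm 0 q ∂g.vol) + ∫ q in B, g.rm 0 q ∂g.vol := by
  rw [← integral_add_measure (rm_int g 0).integrableOn (rm_int g 0).integrableOn]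
  exact integral_mono_measure (Measure.restrict_union_le A B) (ae_of_all _ (rm_nn g 0))
    (Integrable.add_measure (rm_int g 0).integrableOn (rm_int g 0).integrableOn)

theorem wt_le2 {a b : ℝ} {x : E4} (ha : 0 < a) (hx : x ∈ shell a b) : wt a b x ≤ 2 := by
  have h0 : 0 < ‖x‖ := ha.trans hx.1
  have h1 : √(a / ‖x‖) ≤ 1 := Real.sqrt_le_one.2 ((div_le_one h0).2 hx.1.le)
  have h2 : √(‖x‖ / b) ≤ 1 := Real.sqrt_le_one.2 ((div_le_one (h0.trans hx.2)).2 hx.2.le)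
  unfold wt; linarith

theorem wt_nn (a b : ℝ) (x : E4) : 0 ≤ wt a b x := add_nonneg (Real.sqrt_nonneg _) (Real.sqrt_nonneg _)

theorem GJ.rough {g : Met 4 M} {N : Nk M} {η V : ℝ} (h : GJ g N η) (ha : 0 < N.a) (h0 : 0 ≤ η)
    (hv : g.vol.real N.In ≤ V * N.a ^ 4) : Rough g N 2 (2 * η) V :=
  ⟨fun x hx k hk i j => (h x hx k hk i j).trans
    (by rw [mul_comm 2]; exact mul_le_mul_of_nonneg_left (wt_le2 ha hx) h0), hv⟩

theorem SN.rough {F : Flow M} {s η : ℝ} {N : Nk M} (h : SN F s η N) (h0 : 0 ≤ η)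
    (h1 : η ≤ 1 / 200) : Rough (F.m s) N 0 (1 / 100) 192 :=
  (h.jet.rough h.top.a_pos h0 h.vol).mono (Nat.zero_le _) (by linarith) le_rfl

theorem sw {F : Flow M} (hD : DIST F) : SW F := by
  intro V
  obtain ⟨K, r1, hK, hr1, h⟩ := hD V
  refine ⟨2 * K, min r1 1, by linarith, lt_min hr1 one_pos, min_le_right _ _,
    fun t ht N hN hR hb hab z hz ρ hρ => ⟨fun q hq => ?_, fun q hq => ?_⟩⟩
  · obtain ⟨d1, -, d3⟩ := h t ht N _ hN hR le_rfl (hb.trans (min_le_left _ _)) hab z hz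
    have ha := hN.a_pos
    have h1 : 0 ≤ K * N.a := by positivity
    rcases hq with hq | ⟨x, hx, rfl⟩
    · linarith [d3 q hq, hρ.1]
    · linarith [(d1 x ⟨hx.1, hx.2.trans_le hρ.2⟩).2, hx.2]
  · have h1 := hN.rad_le_d (F.m t) (fun x hx => (hR.jet x hx).near) (by norm_num) q z
    rw [hN.rad_In hz] at h1
    have h2 : N.rad q < ρ := by linarith
    exact (hN.mem_Om ⟨(hN.rad_mem q).1.trans_lt h2, hρ.2⟩).2 h2

theorem cmpl {F : Flow M} (hS : SW F) : CMPL F := by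
  intro V
  obtain ⟨K, r1, hK, hr1, -, h⟩ := hS V
  have key : ∀ t ∈ late F, ∀ N N' : Nk M, N.Top → N'.Top →
      Rough (F.m t) N 0 (1 / 100) V → Rough (F.m t) N' 0 (1 / 100) V → N.b ≤ r1 → N'.b ≤ r1 →
      ∀ a0 r : ℝ, N.a ≤ a0 → N'.a ≤ a0 → (8 * K + 8) * a0 ≤ r → r ≤ N.b → r ≤ N'.b →
        ∀ p ∈ N.Om a0, p ∈ N'.Om a0 → N.Om (r / 2) ⊆ N'.Om r := by
    intro t ht N N' hN hN' hR hR' hb hb' a0 r h1 h1' h2 h3 h3' p hp hp' q hq
    obtain ⟨z, hz⟩ := hN.ne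
    obtain ⟨z', hz'⟩ := hN'.ne
    have ha := hN.a_pos
    have k1 : K * N.a ≤ K * a0 := by gcongr
    have k2 : K * N'.a ≤ K * a0 := by gcongr
    have k3 : 2 * a0 ≤ K * a0 := mul_le_mul_of_nonneg_right hK (by linarith)
    have s1 := h t ht N hN hR hb (by linarith) z hz
    have s2 := h t ht N' hN' hR' hb' (by linarith) z' hz'
    have d1 := (s1 (r / 2) ⟨by linarith, by linarith⟩).1 q hq
    have d2 := (s1 a0 ⟨h1, by linarith⟩).1 p hp
    have d3 := (s2 a0 ⟨h1', by linarith⟩).1 p hp'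
    refine (s2 r ⟨by linarith, h3'⟩).2 q ?_
    have d4 := md_tri (F.m t) z' p q
    have d5 := md_tri (F.m t) p z q
    rw [md_comm _ p z] at d5
    linarith
  refine ⟨8 * K + 8, r1, by linarith, hr1,
    fun t ht N N' hN hN' hR hR' hb hb' a0 ρ1 ρ2 h1 h1' h2 h3 h3' ⟨p, hp, hp'⟩ r hr => ⟨?_, ?_⟩⟩
  · exact key t ht N N' hN hN' hR hR' hb hb' a0 r h1 h1' (h2.trans hr.1) (hr.2.trans h3)
      (hr.2.trans h3') p hp hp'
  · exact key t ht N' N hN' hN hR' hR hb' hb a0 r h1' h1 (h2.trans hr.1) (hr.2.trans h3')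
      (hr.2.trans h3) p hp' hp

theorem she (hC : CURV M) : SHE M := by
  obtain ⟨C, hC0, hC⟩ := hC
  refine ⟨1536 * 10 * C, by positivity, fun g N η hN h0 h1 hJ => ?_⟩
  have ha := hN.a_pos
  have hb : 0 < N.b := ha.trans hN.a_lt
  have hf := V.isFinite g
  have hδ : ∀ x ∈ shell N.a N.b, η * wt N.a N.b x ≤ 1 / 100 := fun x hx =>
    (mul_le_mul_of_nonneg_left (wt_le2 ha hx) h0).trans (by linarith)
  have piece : ∀ s, N.a ≤ s → s ≤ N.b →
      ∫ q in N.Ψ '' shell s (min N.b (4 * s)), g.rm 0 q ∂g.vol ≤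
        1536 * C * η ^ 2 * (N.a / s + 4 * s / N.b) := by
    intro s s1 s2
    have hs : 0 < s := ha.trans_le s1
    have hsub : shell s (min N.b (4 * s)) ⊆ shell N.a N.b := shell_mono s1 (min_le_left _ _)
    have hv := hN.vol_image_le g s1 (le_min s2 (by linarith)) (min_le_left _ (4 * s))
      fun x hx => (hJ x (hsub hx)).near.mono (hδ x (hsub hx))
    have hv' : g.vol.real (N.Ψ '' shell s (min N.b (4 * s))) ≤ 768 * s ^ 4 := by
      have := pow_le_pow_left₀ (lt_min hb (by linarith)).le (min_le_right N.b (4 * s)) 4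
      nlinarith [pow_pos hs 4]
    have hp : ∀ q ∈ N.Ψ '' shell s (min N.b (4 * s)),
        ‖g.rm 0 q‖ ≤ C * (η ^ 2 * (2 * (N.a / s + 4 * s / N.b))) / s ^ 4 := by
      rintro _ ⟨x, hx, rfl⟩
      have hx0 : 0 < ‖x‖ := hs.trans hx.1
      have hx1 := hx.1.le
      have hx2 : ‖x‖ ≤ 4 * s := hx.2.le.trans (min_le_right _ _)
      rw [Real.norm_of_nonneg (rm_nn g 0 _)]
      refine (hC g N.Ψ _ x _ _ hN.par (hsub hx) hx0 (mul_nonneg h0 (wt_nn _ _ _)) (hδ x (hsub hx))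
        (hJ x (hsub hx))).trans ?_
      have w1 : wt N.a N.b x ^ 2 ≤ 2 * (N.a / s + 4 * s / N.b) := by
        have e1 := Real.sq_sqrt (show 0 ≤ N.a / ‖x‖ by positivity)
        have e2 := Real.sq_sqrt (show 0 ≤ ‖x‖ / N.b by positivity)
        have e3 : N.a / ‖x‖ ≤ N.a / s := by gcongr
        have e4 : ‖x‖ / N.b ≤ 4 * s / N.b := by gcongr
        unfold wt
        nlinarith [sq_nonneg (√(N.a / ‖x‖) - √(‖x‖ / N.b))]
      rw [mul_pow]
      gcongr
    refine ((le_abs_self _).trans (norm_setIntegral_le_of_norm_le_const (measure_lt_top _ _) hp)).trans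
      ((mul_le_mul_of_nonneg_left hv' (by positivity)).trans (le_of_eq ?_))
    field_simp; ring
  obtain ⟨k, k1, k2⟩ := exists_nat_pow_near (x := N.b / N.a) (y := 2)
    ((one_le_div ha).2 hN.a_lt.le) one_lt_two
  rw [le_div_iff₀ ha] at k1
  rw [div_lt_iff₀ ha] at k2
  have sum : ∀ n, n ≤ k + 1 →
      ∫ q in ⋃ j ∈ Finset.range n, N.Ψ '' shell (2 ^ j * N.a) (min N.b (4 * (2 ^ j * N.a))),
        g.rm 0 q ∂g.vol ≤ 1536 * C * η ^ 2 * (2 - 2 / 2 ^ n + 4 * (2 ^ n * N.a) / N.b) := by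
    intro n
    induction n with
    | zero => intro _; simp; positivity
    | succ n ih =>
      intro hn
      rw [Finset.range_add_one, Finset.set_biUnion_insert]
      have h2 : (2 : ℝ) ^ n ≤ 2 ^ k := pow_le_pow_right₀ one_le_two (by omega)
      have h3 := piece (2 ^ n * N.a) (le_mul_of_one_le_left ha.le (one_le_pow₀ one_le_two))
        ((mul_le_mul_of_nonneg_right h2 ha.le).trans k1)
      refine (rm_union g _ _).trans ((add_le_add h3 (ih (by omega))).trans (le_of_eq ?_))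
      field_simp; ring
  have cov : N.Ψ '' shell N.a N.b ⊆
      ⋃ j ∈ Finset.range (k + 1), N.Ψ '' shell (2 ^ j * N.a) (min N.b (4 * (2 ^ j * N.a))) := by
    rintro _ ⟨x, hx, rfl⟩
    obtain ⟨i, i1, i2⟩ := exists_nat_pow_near (x := ‖x‖ / N.a) (y := 2)
      ((one_le_div ha).2 hx.1.le) one_lt_two
    rw [le_div_iff₀ ha] at i1
    rw [div_lt_iff₀ ha] at i2
    have hi : i < k + 1 := (pow_lt_pow_iff_right₀ one_lt_two).1
      (lt_of_mul_lt_mul_right (i1.trans_lt (hx.2.trans k2)) ha.le)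
    simp only [mem_iUnion, Finset.mem_range]
    rcases i with _ | i
    · refine ⟨0, hi, x, ⟨by simpa using hx.1, lt_min hx.2 ?_⟩, rfl⟩
      norm_num at i2 ⊢; linarith
    · have : (0 : ℝ) < 2 ^ i * N.a := by positivity
      rw [pow_succ] at i1
      rw [pow_succ, pow_succ] at i2
      exact ⟨i, by omega, x, ⟨by linarith, lt_min hx.2 (by linarith)⟩, rfl⟩
  refine (rm_mono g cov).trans ((sum _ le_rfl).trans ?_)
  have h4 : 4 * (2 ^ (k + 1) * N.a) / N.b ≤ 8 := by rw [div_le_iff₀ hb, pow_succ]; linarith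
  have h5 : (0 : ℝ) ≤ 2 / 2 ^ (k + 1) := by positivity
  calc _ ≤ 1536 * C * η ^ 2 * 10 := by gcongr; linarith
    _ = _ := by ring

theorem cen {F : Flow M} (hS : SW F) (hE : SHE M) : CEN F := by
  obtain ⟨K, r1, hK, hr1, hr2, hS⟩ := hS 192
  obtain ⟨C, hC, hE⟩ := hE
  have key : ∀ (p : M) (s η A : ℝ) (N : Nk M), 0 ≤ η → η ≤ 1 / 200 → SN F s η N → N.b ≤ r1 →
      (K + 2) * N.a ≤ A → 8 * A ≤ N.b → p ∈ N.Om A →
      (∀ z ∈ N.In, (F.m s).d z p ≤ 3 * A ∧ (∀ q ∈ N.In, (F.m s).d z q < (K + 2) * N.a) ∧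
        ∀ q, (F.m s).d z q < N.b / 2 → q ∈ N.Om N.b) ∧ F.hc.B s p A ⊆ N.Om N.b := by
    intro p s η A N h0 h1 hN hb h2 h3 hp
    have ha := hN.top.a_pos
    have k1 : 2 * N.a ≤ K * N.a := by gcongr
    have h4 := hS s hN.late N hN.top (hN.rough h0 h1) hb (by linarith)
    have h5 : ∀ z ∈ N.In, (F.m s).d z p ≤ 3 * A := fun z hz => by
      linarith [(h4 z hz A ⟨by linarith, by linarith⟩).1 p hp]
    refine ⟨fun z hz => ⟨h5 z hz, fun q hq => ?_, fun q hq => ?_⟩, fun q hq => ?_⟩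
    · linarith [(h4 z hz N.a ⟨le_rfl, hN.top.a_lt.le⟩).1 q (N.In_sub _ hq)]
    · exact (h4 z hz N.b ⟨hN.top.a_lt.le, le_rfl⟩).2 q (by linarith)
    · obtain ⟨z, hz⟩ := hN.top.ne
      have h6 : (F.m s).d p q < A := hq
      exact (h4 z hz N.b ⟨hN.top.a_lt.le, le_rfl⟩).2 q (by linarith [md_tri (F.m s) z p q, h5 z hz])
  refine ⟨C, K + 2, r1, hC, by linarith, hr1, hr2,
    fun p ε c r0 hp s η A N h0 h1 hA hT hN hb h2 h3 hpA => ?_⟩
  obtain ⟨k1, k2⟩ := key p s η A N h0 h1 hN hb h2 h3 hpA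
  have ha := hN.top.a_pos
  have hε : ε ≤ ∫ q in F.hc.B s p A, (F.m s).rm 0 q ∂(F.m s).vol :=
    hp.2.2.2 s hN.late A ⟨lt_of_lt_of_le (by positivity) h2, hA⟩ hT
  have e1 := hE (F.m s) N η hN.top h0 h1 hN.jet
  have e2 : ε - C * η ^ 2 ≤ ∫ q in N.In, (F.m s).rm 0 q ∂(F.m s).vol := by
    linarith [(rm_mono (F.m s) k2).trans (rm_union _ _ _)]
  refine ⟨fun z hz => ⟨e2.trans (rm_mono _ fun q hq => (k1 z hz).2.1 q hq), (k1 z hz).1,
    fun y r h4 h5 => ?_⟩, e2, fun N' hN' hb' h2' h3' hpA' h4 => ?_⟩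
  · by_contra! h6
    refine absurd h5 (not_lt.2 ((rm_mono (F.m s) fun q hq => ?_).trans e1))
    have h7 : (F.m s).d y q < r := hq
    have h8 := md_tri (F.m s) z y q
    have h9 := md_tri (F.m s) z q y
    rw [md_comm _ q y] at h9
    exact ((k1 z hz).2.2 q (by linarith)).resolve_left fun h => by linarith [(k1 z hz).2.1 q h]
  · by_contra h5
    have k3 := (key p s η A N' h0 h1 hN' hb' h2' h3' hpA').2
    have e3 := hE (F.m s) N' η hN'.top h0 h1 hN'.jet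
    have h6 : F.hc.B s p A ⊆ N.Ψ '' shell N.a N.b ∪ N'.Ψ '' shell N'.a N'.b := fun q hq =>
      (k2 hq).elim (fun h => Or.inr ((k3 hq).resolve_left fun h' => h5 ⟨q, h, h'⟩)) Or.inl
    linarith [(rm_mono (F.m s) h6).trans (rm_union _ _ _)]

end Crest.Agent.N207.T

end
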