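import Crest.Agent.N207.T.Wd3

/-!
# Row 207 (helper69): block TOP, leaf `WD`
-/

set_option autoImplicit false
set_option linter.unusedSectionVars false

open scoped ContDiff Manifold Topology
open Set MeasureTheory Filter
open Crest.GeometryTopology.CoordMetric Crest.GeometryTopology.ChartCurvature
  Crest.GeometryTopology.MetricFamily

noncomputable section

namespace Crest.Agent.N207.T

open Sk Rad

variable {M : Type*} [TopologicalSpace M] [ChartedSpace E4 M] [IsManifold 𝓘(ℝ, E4) ∞ M]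
  [T3Space M] [ConnectedSpace M] [CompactSpace M] [MeasurableSpace M] [BorelSpace M] {F : Flow M}

namespace W

theorem ev_le (a : ℝ) {b : ℝ} (hb : 0 < b) : ∀ᶠ x in 𝓝[>] (0 : ℝ), a * x ≤ b := by
  have h : Tendsto (fun x : ℝ => a * x) (𝓝 0) (𝓝 (a * 0)) := tendsto_id.const_mul a
  rw [mul_zero] at h
  exact (h.eventually (ge_mem_nhds hb)).filter_mono nhdsWithin_le_nhds

theorem ev_pos : ∀ᶠ x in 𝓝[>] (0 : ℝ), 0 < x := self_mem_nhdsWithin

theorem Ks.Ok.wd {k : Ks M} (h : k.Ok F) {m : ℕ} {η : ℝ} (hm : m ≤ k.m) (hη : 2 * k.e ≤ η) :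
    Wd F m η (fun j => 4 * k.Cs j) k.V k.c k.K k.R k.l k.ts (fun n => k.P F (k.l / k.K ^ n))
      fun n => k.G F (k.l / k.K ^ n) where
  K_ge := by linarith [h.K_ge]
  l_pos := h.l0
  l_le := h.l1
  R_le := by linarith [h.R1, h.R_le, h.R_pos]
  c_pos := h.c0
  c_le := by linarith [h.c_le, h.cG1, h.c0]
  ts_mem := h.ts
  ev n := h.ev (h.lam_pos n) (h.lam_le n)
  mono n t ht hP := h.mono (h.lam_pos n) (h.lam_le n) ht (by rwa [div_div, ← pow_succ])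
  fail t ht := h.fail ht
  ex n v hv hP := h.ex (h.lam_pos n) (h.lam_le n) hv hP
  top n v N hG := ⟨hG.gn.top, hG.a, hG.b⟩
  good n v N hG s hs h2 := h.good hm hη (h.lam_le n) hG hs h2
  far n v N hG u hu r h1 _ s hs h2 x hx := h.far' hm hη hG hu h1.le hs h2 hx
  cmp n v N n' v' N' hG hG' r h1 h2 h3 := h.cmp hG hG' h1 h2 h3
  back n v N hG t ht h2 := h.back (h.lam_pos n) (h.lam_le n) (by rwa [div_div, ← pow_succ]) ht h2
  stat n s τ N v Y h2 h3 h4 h5 h6 h7 h8 h9 t ht hts := h.stat' (h.lam_pos n) (h.lam_le n) h2 h3 h4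
    h5 (by rwa [div_div, ← pow_succ]) (by rwa [div_div, ← pow_succ]) h8 h9 ht.2 hts

theorem exists_ks (hB : Base F) (h1 : SING F) (h2 : SW F) (h3 : CMPL F) (h4 : CEN F) (h5 : FAR F)
    (h6 : GNL F) (h7 : RES F) (h8 : FIN F) (h9 : STAT F) (h10 : GLUE M) (hn : ¬F.BddRm) (m : ℕ)
    {η : ℝ} (hη : 0 < η) : ∃ k : Ks M, k.Ok F ∧ m ≤ k.m ∧ 2 * k.e ≤ η := by
  obtain ⟨p, ε, c0, r0, hS⟩ := h1 hn
  have hε := hS.1
  have hc0 := hS.2.1
  have hr0 := hS.2.2.1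
  obtain ⟨η1, a1, a2, gnl⟩ := h6
  obtain ⟨δ, cF, rF, b1, b2, b3, b4, fin⟩ := h8 η1 a1
  obtain ⟨e0, CG, d1, d2, glue⟩ := h10
  obtain ⟨CS, KE, rE, e1, e2, e3, -, cen⟩ := h4
  obtain ⟨KC, rC, f1, f2, cmpl⟩ := h3 192
  obtain ⟨Cm, rM, g1, g2, mas⟩ := mass_le hB h2
  obtain ⟨η0, K0, i1, i2, stat⟩ := h9 p ε c0 r0 hS
  obtain ⟨e, j0, j1, j2, j3, j4, j5, j6⟩ := (ev_pos.and <| (ev_le 400 one_pos).and <|
    (ev_le 2 hη).and <| (ev_le 2 i1).and <| (ev_le (8 * CG) b1).and <| (ev_le 8 d1).and <|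
    ev_le (16 * CS) hε).exists
  have j7 : CS * (2 * e) ^ 2 ≤ ε / 4 := by
    have := mul_le_mul_of_nonneg_left (show e ≤ 1 by linarith) (mul_pos e1 j0).le
    linarith
  obtain ⟨VF, R0, k1, far⟩ := h5 p ε c0 r0 hS η1 a1
  obtain ⟨K', cG, rG, Cs, l1, l2, l3, l4, -, l6, gnl⟩ := gnl (max VF 192) (max m 2) e
    (le_max_right _ _) j0 (by linarith)
  obtain ⟨K1, m1, m2, stat⟩ := stat (64 * KC * K0)
    (by linarith [mul_le_mul f1 i2 zero_le_two (by linarith)])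
  obtain ⟨δS, n0, n1, n2⟩ := (ev_pos.and <| (ev_le (2 * CG) b1).and <| ev_le 2 d1).exists
  have p1 : 0 ≤ 64 * KC * KE := by positivity
  have p2 : 0 ≤ 4 * K0 * K' := by positivity
  obtain ⟨K, hK⟩ : ∃ K, K = 2 * K1 + 64 * KC * KE + 4 * K0 * K' := ⟨_, rfl⟩
  obtain ⟨cS, rS, o1, o2, stat⟩ := stat K (by linarith) δS n0
  obtain ⟨R, q0, q1, q2, q3, q4, q5, q6, q7, q8, q9⟩ := (ev_pos.and <|
    (ev_le (2 * K') one_pos).and <| (ev_le (2 * K' * K') k1).and <| (ev_le (2 * K' * K') l4).and <|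
    (ev_le (2 * K') e3).and <| (ev_le (2 * K') f2).and <| (ev_le (2 * K') b4).and <|
    (ev_le 1 g2).and <| (ev_le 1 o2).and <| ev_le 1 hr0).exists
  obtain ⟨a, ha⟩ : ∃ a, a = R / (4096 * KC * KE) := ⟨_, rfl⟩
  have r1 : 0 < a := by rw [ha]; positivity
  have r2 : a ≤ R := ha ▸ div_le_self q0.le
    (by linarith [mul_le_mul f1 e2 zero_le_two (by linarith)])
  have r3 : 2 * R ≤ K' * R := mul_le_mul_of_nonneg_right l1 q0.le
  have r4 : 2 * (K' * R) ≤ K' * (K' * R) := mul_le_mul_of_nonneg_right l1 (by linarith)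
  have r5 : a / (2 * K') ≤ a := div_le_self r1.le (by linarith)
  obtain ⟨N0, t0, s1, s2, s3, s4, s5, s6⟩ := far (a / (2 * K')) (2 * K' * K' * R) (by positivity)
    (by linarith) q2
  obtain ⟨d, u0, u1, u2, u3, u4⟩ := (ev_pos.and <| (ev_le 1 (sub_pos.2 s1.2)).and <|
    (ev_le 1 (mul_pos l2 r1)).and <| (ev_le 1 (show 0 < cS * (R / 32) ^ 2 by positivity)).and <|
    ev_le 1 (show 0 < c0 * (R / 32) by positivity)).exists
  have ts1 : F.T - d ∈ late F := ⟨by linarith [s1.1], by linarith⟩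
  obtain ⟨N1, v1, v2, v3, -, v5⟩ := gnl _ ts1 N0 s2
    ((s6 _ ⟨by linarith, ts1.2⟩).mono le_rfl le_rfl (le_max_left _ _)) (by linarith) (by
      rw [s3, s4, show K' ^ 3 * (a / (2 * K')) = K' * (K' * a) / 2 by field_simp]
      linarith [mul_le_mul_of_nonneg_left r2 (show 0 ≤ K' * K' by positivity)])
  have w1 : N1.a = a / 2 := by rw [v1, s3]; field_simp
  have w2 : N1.b = 2 * (K' * R) := by rw [v2, s4]; field_simp
  obtain ⟨c, x0, x1, x2, x3, x4⟩ := (ev_pos.and <| (ev_le (64 * KC * KE) l2).and <|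
    (ev_le (4 * K') l2).and <| (ev_le (4 * K') b3).and <|
    ev_le (1 + 16 * K0 ^ 2 * K1 ^ 2 * (12 + 4 * Cm)) (show 0 < 16 * cS by positivity)).exists
  obtain ⟨l, y0, y1, y2, y3⟩ := (ev_pos.and <| (ev_le (K ^ 2) q0).and <|
    (ev_le (16384 * K) q0).and <| ev_le (4 * K0 ^ 2) x0).exists
  refine ⟨⟨p, max m 2, η1, δ, e, ε / 2, KE, KC, K', cG, cF, CG, K0, K1, K, δS, cS, R, c, l,
    F.T - d, max VF 192, 12 + 4 * Cm, Cs, N1.res a (2 * (K' * R))⟩,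
    ⟨⟨le_max_right _ _, a2, b2, j0, ?_, half_pos hε, e2, f1, l1, l3, d2, i2, m1, ?_, ?_, ?_, n0, ?_,
      ?_, x0, ?_, x2, x3, ?_, y0, y1, y2, y3, le_max_right _ _, ?_, l6⟩, hB, ts1, h7, ?_, ?_, ?_,
      ?_, ?_, ?_, ?_, ?_, ?_, ha, rfl, Or.inl (v3 s5)⟩, le_max_left _ _, j2⟩ <;> dsimp only
  iterate 9 linarith
  · intro b z1 z2
    obtain ⟨N, t, c1, c2, c3, c4, c5, c6⟩ := far b (K' * R) z1 z2 (by linarith)
    exact ⟨N, t, c1, c2, c3, c4, c5, fun s hs => (c6 s hs).mono le_rfl le_rfl (le_max_left _ _)⟩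
  · exact fun t ht N z1 z2 z3 z4 => gnl t ht N z1 z2 (by linarith) z4
  · intro s hs N z1 z2 z3 z4 z5
    obtain ⟨-, c2, c3⟩ := cen p ε c0 r0 hS s (2 * e) (R / 32) N (by linarith) (by linarith)
      (by linarith) (by linarith [hs.1]) z1 (by linarith) z3 z4 z5
    exact ⟨by linarith, fun N' c4 c5 c6 c7 c8 => c3 N' c4 (by linarith) c6 c7 c8 (by linarith)⟩
  · exact fun t ht N N' z1 z2 z3 z4 z5 z6 => cmpl t ht N N' z1 z2 z3 z4 (by linarith) (by linarith)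
  · exact fun s N z1 z2 z3 ρ hρ => (mas s _ N z1 (by linarith) (by linarith) (by linarith) z3 ρ
      hρ).trans (mul_le_mul_of_nonneg_right (by linarith) (sq_nonneg _))
  · exact fun t ht N N' ρ1 ρ2 z1 z2 z3 z4 z5 z6 z7 z8 z9 z10 =>
      fin t ht N N' ρ1 ρ2 z1 z2 z3 z4 z5 z6 z7 z8 z9 (by linarith)
  · exact fun g N N' ρ1 ρ2 z1 z2 => glue g N N' _ _ _ ρ1 ρ2 z1 z2 (by linarith) (by linarith)
  · exact fun s τ b b' N Y z1 z2 z3 z4 z5 => stat s τ b b' (R / 32) R (2 * e) N Y z1 (by linarith)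
      j3 z2 z3 z4 (by linarith) (by linarith) (by linarith)
  · intro s hs
    have := h7 _ _ _ _ _ N1 a s v5 (le_max_right _ _) j0.le l2 (by linarith) (by linarith)
      (by linarith) ⟨ts1.1.trans hs.1, hs.2⟩ (abs_le.2 ⟨by linarith [hs.1], by linarith [hs.2]⟩)
    rwa [w2] at this

end W

/-- the leaf `WD` -/
theorem wd (hB : Base F) (h1 : SING F) (h2 : SW F) (h3 : CMPL F) (h4 : CEN F) (h5 : FAR F)
    (h6 : GNL F) (h7 : RES F) (h8 : FIN F) (h9 : STAT F) (h10 : GLUE M) : WD F := fun hn m η hη => by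
  obtain ⟨k, hk, hm, he⟩ := W.exists_ks hB h1 h2 h3 h4 h5 h6 h7 h8 h9 h10 hn m hη
  exact ⟨_, _, _, _, _, _, _, _, _, hk.wd hm he⟩

end Crest.Agent.N207.T

end
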