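import Crest.Agent.N207.T.Trk3
import Crest.Agent.N207.T.Asm
import Crest.Agent.N207.T.Mii
import Crest.Agent.N207.T.Sing
import Crest.Agent.N207.T.Sw
import Crest.Agent.N207.T.Up4
import Crest.Agent.N207.T.Gnl
import Crest.Agent.N207.T.Npers
import Crest.Agent.N207.T.Stat
import Crest.Agent.N207.T.Pers3
import Crest.Agent.N207.TR.Glue
import Crest.Agent.N207.GE.Dist
import Crest.Agent.N207.T.ClB
import Crest.Agent.N207.T.Ctx
import Crest.Agent.N207.T.Wd4
import Crest.Agent.N207.H.Main

/-!
# Row 207 (helper36): block TOP, the leaves put together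
-/

set_option autoImplicit false
set_option linter.unusedSectionVars false

open scoped ContDiff Manifold Topology
open Set MeasureTheory Filter

noncomputable section

namespace Crest.Agent.N207.T

open Sk

variable {M : Type*} [TopologicalSpace M] [ChartedSpace E4 M] [IsManifold 𝓘(ℝ, E4) ∞ M]
  [T3Space M] [ConnectedSpace M] [MeasurableSpace M] [BorelSpace M] [CompactSpace M] {F : Flow M}

/-- block TOP -/
theorem topB (hB : Base F) (hC : CONE F) : TOP F := by
  have hH := H.hdec hB
  have hD := distN hB
  have hS := sw hD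
  have hN := npers hB (pers F) curv
  have hE := cen hS (she curv)
  have hZ := trkz hB.ok hB.c hB.d hB.pers hB.e.reg (nv hB hC hH hD (voln hB)) (clB hB.ok)
    (ctx hB.ok hB.c hB.pers hB.e.reg (tr2 hB.ok hB.c hB.d))
  exact top_of (wd hB (sing hB) hS (cmpl hS) hE (far hB hC hN) (gnl hB hH hN) (res hB)
    (fin' hB (TR.glue M) hN) (stat hB hZ hE hS (pers F)) (TR.glue M)) (asm (mii hB))

end Crest.Agent.N207.T

end
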