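import Crest.Agent.N207.T.Kit3

/-!
# Row 207 (helper13): block TOP, clusters at a fixed time
-/

set_option autoImplicit false

open Set MeasureTheory

noncomputable section

namespace Crest.Agent.N207.T

/-- pigeonhole for antitone quantities -/
theorem cl_pig {α : Type*} (S : Finset α) (φ : α → ℕ → ℝ) (I : ℕ)
    (an : ∀ a ∈ S, ∀ i, φ a (i + 1) ≤ φ a i) (nn : ∀ a ∈ S, ∀ i, 0 ≤ φ a i)
    (h : ∑ a ∈ S, φ a 0 < I) : ∃ i < I, ∀ a ∈ S, φ a i < φ a (i + 1) + 1 := by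
  classical
  by_contra hc
  push Not at hc
  have key : ∀ i ≤ I, ∑ a ∈ S, φ a i + i ≤ ∑ a ∈ S, φ a 0 := fun i hi => by
    induction i with
    | zero => simp
    | succ i ih =>
      obtain ⟨a, ha, h1⟩ := hc i hi
      have h2 := Finset.sum_le_sum fun b (hb : b ∈ S.erase a) => an b (Finset.mem_of_mem_erase hb) i
      have h3 := ih (by omega)
      rw [← Finset.add_sum_erase S _ ha] at h3 ⊢
      push_cast
      linarith
  linarith [key I le_rfl, Finset.sum_nonneg fun a ha => nn a ha I]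

/-- maximal separated sets -/
theorem cl_max {M : Type*} {d : M → M → ℝ} (self : ∀ x, d x x = 0) (symm : ∀ x y, d x y = d y x)
    (P : M → Prop) {ρ : ℝ} (hρ : 0 < ρ) (n : ℕ)
    (hb : ∀ s : Finset M, (∀ x ∈ s, P x) → (∀ x ∈ s, ∀ y ∈ s, x ≠ y → ρ ≤ d x y) → s.card ≤ n) :
    ∃ s : Finset M, (∀ x ∈ s, P x) ∧ (∀ x ∈ s, ∀ y ∈ s, x ≠ y → ρ ≤ d x y) ∧
      ∀ y, P y → ∃ w ∈ s, d w y < ρ := by
  classical
  by_contra hc
  push Not at hc
  have key : ∀ k, ∃ s : Finset M, (∀ x ∈ s, P x) ∧ (∀ x ∈ s, ∀ y ∈ s, x ≠ y → ρ ≤ d x y) ∧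
      s.card = k := fun k => by
    induction k with
    | zero => exact ⟨∅, by simp, by simp, rfl⟩
    | succ k ih =>
      obtain ⟨s, h1, h2, h3⟩ := ih
      obtain ⟨y, hy, h4⟩ := hc s h1 h2
      have hn : y ∉ s := fun m => by linarith [h4 y m, self y]
      refine ⟨insert y s, fun x m => ?_, fun x m z m' ne => ?_,
        by rw [Finset.card_insert_of_notMem hn, h3]⟩
      · rcases Finset.mem_insert.1 m with rfl | m
        exacts [hy, h1 x m]
      · rcases Finset.mem_insert.1 m with rfl | j <;> rcases Finset.mem_insert.1 m' with e | j'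
        exacts [absurd e.symm ne, symm _ _ ▸ h4 z j', e ▸ h4 x j, h2 x j z j' ne]
  obtain ⟨s, h1, h2, h3⟩ := key (n + 1)
  have := hb s h1 h2
  omega

theorem cl_card {α : Type*} (s : Finset α) {p q : α → Prop} [DecidablePred p] [DecidablePred q]
    (h : ∀ a, q a → p a) (k : ((s.filter p).card : ℝ) < (s.filter q).card + 1) :
    ∀ a ∈ s, p a → q a := fun a ha hp => by
  have sub : s.filter q ⊆ s.filter p := Finset.monotone_filter_right s fun a _ => h a
  have k' : (s.filter p).card < (s.filter q).card + 1 := by exact_mod_cast k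
  have e := Finset.eq_of_subset_of_card_le sub (by omega)
  exact (Finset.mem_filter.1 (e ▸ Finset.mem_filter.2 ⟨ha, hp⟩)).2

/-- clusters in an abstract setting -/
theorem cl_abs (M : Type*) (ε ε2 K E : ℝ) (n0 : ℕ) (hε : 0 < ε) (hε2 : 0 < ε2) (hK : 2 ≤ K) :
    ∃ g : ℝ, 0 < g ∧ ∀ (d : M → M → ℝ) (en : M → ℝ → ℝ), (∀ x, d x x = 0) →
    (∀ x y, d x y = d y x) → (∀ x y z, d x z ≤ d x y + d y z) →
    (∀ x r r', r ≤ r' → en x r ≤ en x r') → (∀ x r, 0 ≤ en x r) →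
    (∀ (s : Finset M) r, (∀ x ∈ s, ∀ y ∈ s, x ≠ y → 2 * r ≤ d x y) → ∑ x ∈ s, en x r ≤ E) →
    ∀ (U : Set M) (r : ℝ) (Bad : M → Finset ℤ), 0 < r →
    (∀ w, (Bad w).card ≤ n0) → ∃ (F : Finset M) (ρ : ℝ), (∀ w ∈ F, w ∈ U) ∧ K * (g * r) ≤ ρ ∧
      K * ρ ≤ r ∧ F.card * ε ≤ E ∧ (∀ w ∈ F, ε < en w (g * r)) ∧
      (∀ w ∈ F, ∀ w' ∈ F, w ≠ w' → 2 * (K * ρ) ≤ d w w') ∧
      (∀ w ∈ F, en w (K * ρ) ≤ en w (ρ / K) + ε2) ∧
      (∀ w ∈ F, ∀ j ∈ Bad w, (2 : ℝ) ^ j < ρ / K ∨ K * ρ < (2 : ℝ) ^ j) ∧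
      ∀ y ∈ U, (∀ w ∈ F, ρ / 2 ≤ d w y) → en y (g * r) ≤ ε := by
  classical
  obtain ⟨I, hI⟩ := exists_nat_gt (⌊E / ε⌋₊ * (⌊E / ε⌋₊ + E / ε2 + n0))
  have hK0 : 0 < K := by linarith
  have hq : 1 ≤ 4 * K ^ 2 := by nlinarith
  refine ⟨1 / (2 * (4 * K ^ 2) ^ I), by positivity,
    fun d en self symm tri mono nn pack U r Bad hr hBad => ?_⟩
  set g := 1 / (2 * (4 * K ^ 2) ^ I) with hg
  have hg0 : 0 < g := by positivity
  have hE : ∀ x s, en x s ≤ E := fun x s => by simpa using pack {x} s (by simp)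
  have cd : ∀ s : Finset M, (∀ x ∈ s, x ∈ U ∧ ε < en x (g * r)) →
      (∀ x ∈ s, ∀ y ∈ s, x ≠ y → 2 * (g * r) ≤ d x y) → s.card * ε ≤ E := fun s h1 h2 => by
    have := Finset.card_nsmul_le_sum s _ ε fun x m => (h1 x m).2.le
    rw [nsmul_eq_mul] at this
    exact this.trans (pack s _ h2)
  have cd' : ∀ s : Finset M, (∀ x ∈ s, x ∈ U ∧ ε < en x (g * r)) →
      (∀ x ∈ s, ∀ y ∈ s, x ≠ y → 2 * (g * r) ≤ d x y) → s.card ≤ ⌊E / ε⌋₊ := fun s h1 h2 =>
    Nat.le_floor ((le_div_iff₀ hε).2 (cd s h1 h2))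
  obtain ⟨F0, a1, a2, a3⟩ := cl_max self symm _ (by positivity) _ cd'
  have a4 : (F0.card : ℝ) ≤ ⌊E / ε⌋₊ := by exact_mod_cast cd' F0 a1 a2
  obtain ⟨R, R0, Rm, Rz, Rs, e3⟩ : ∃ R : ℕ → ℝ, (∀ i, 0 < R i) ∧ (∀ i j, i ≤ j → R j ≤ R i) ∧
      R 0 = r ∧ (∀ i, R i / (2 * K) / K = 2 * R (i + 1)) ∧ g * r = R I / 2 :=
    ⟨fun i => r / (4 * K ^ 2) ^ i, fun i => by positivity, fun i j h =>
      div_le_div_of_nonneg_left hr.le (by positivity) (pow_le_pow_right₀ hq h), by simp,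
      fun i => by field_simp; ring, by rw [hg]; field_simp⟩
  clear_value g
  have c1 : ∀ w i, ((F0.filter fun w' => d w w' < R (i + 1)).card : ℝ) ≤
      (F0.filter fun w' => d w w' < R i).card := fun w i => by
    exact_mod_cast Finset.card_le_card (Finset.monotone_filter_right F0
      fun a _ h => lt_of_lt_of_le h (Rm i _ i.le_succ))
  have c2 : ∀ w i, en w (R (i + 1)) / ε2 ≤ en w (R i) / ε2 := fun w i =>
    div_le_div_of_nonneg_right (mono _ _ _ (Rm i _ i.le_succ)) hε2.le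
  have c3 : ∀ w i, (((Bad w).filter fun j => (2 : ℝ) ^ j ≤ R (i + 1)).card : ℝ) ≤
      ((Bad w).filter fun j => (2 : ℝ) ^ j ≤ R i).card := fun w i => by
    exact_mod_cast Finset.card_le_card (Finset.monotone_filter_right (Bad w)
      fun a _ h => le_trans h (Rm i _ i.le_succ))
  obtain ⟨i, hi, b⟩ := cl_pig F0 (fun w i => ((F0.filter fun w' => d w w' < R i).card : ℝ) +
      en w (R i) / ε2 + ((Bad w).filter fun j => (2 : ℝ) ^ j ≤ R i).card) I
    (fun w _ i => by linarith [c1 w i, c2 w i, c3 w i])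
    (fun w _ i => by have := nn w (R i); positivity) (by
      refine lt_of_le_of_lt ?_ hI
      refine (Finset.sum_le_card_nsmul _ _ (⌊E / ε⌋₊ + E / ε2 + n0) fun w _ => ?_).trans ?_
      · have k1 : ((F0.filter fun w' => d w w' < R 0).card : ℝ) ≤ F0.card := by
          exact_mod_cast Finset.card_filter_le _ _
        have k2 : (((Bad w).filter fun j => (2 : ℝ) ^ j ≤ R 0).card : ℝ) ≤ n0 := by
          exact_mod_cast (Finset.card_filter_le _ _).trans (hBad w)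
        linarith [div_le_div_of_nonneg_right (hE w (R 0)) hε2.le]
      · rw [nsmul_eq_mul]
        have : 0 ≤ E := by simpa using pack ∅ 0 (by simp)
        exact mul_le_mul_of_nonneg_right a4 (by positivity))
  obtain ⟨F, f1, f2, f3⟩ := cl_max self symm (· ∈ F0) (R0 i) F0.card
    fun s h _ => Finset.card_le_card h
  have e1 : K * (R i / (2 * K)) = R i / 2 := by field_simp
  have e2 := Rs i
  have e4 : R I ≤ R (i + 1) := Rm _ _ hi
  have e5 : R i ≤ r := Rz ▸ Rm 0 i i.zero_le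
  have e6 : R i / (2 * K) = 2 * R (i + 1) * K := by rw [← e2]; field_simp
  have p0 := R0 i
  have p1 := R0 (i + 1)
  refine ⟨F, R i / (2 * K), fun w m => (a1 w (f1 w m)).1, ?_, by linarith,
    cd F (fun w m => a1 w (f1 w m)) fun x m y m' => a2 x (f1 x m) y (f1 y m'),
    fun w m => (a1 w (f1 w m)).2, fun w m w' m' ne => by linarith [f2 w m w' m' ne],
    fun w m => ?_, fun w m j hj => ?_, fun y hy h => ?_⟩
  · rw [e3, e6]
    nlinarith [mul_le_mul_of_nonneg_left e4 hK0.le, mul_pos hK0 p1]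
  · have k1 : en w (R i) / ε2 < en w (R (i + 1)) / ε2 + 1 := by
      linarith [b w (f1 w m), c1 w i, c3 w i]
    rw [div_add_one hε2.ne', div_lt_div_iff_of_pos_right hε2] at k1
    rw [e1, e2]
    linarith [mono w (R i / 2) (R i) (by linarith),
      mono w (R (i + 1)) (2 * R (i + 1)) (by linarith)]
  · rw [e1, e2]
    refine (le_or_gt ((2 : ℝ) ^ j) (R i)).imp (fun k => ?_) fun k => by linarith
    have := cl_card (Bad w) (p := fun j => (2 : ℝ) ^ j ≤ R i)
      (q := fun j => (2 : ℝ) ^ j ≤ R (i + 1)) (fun a h => h.trans (Rm i _ i.le_succ))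
      (by linarith [b w (f1 w m), c1 w i, c2 w i]) j hj k
    linarith
  · by_contra k
    obtain ⟨w0, m0, k0⟩ := a3 y ⟨hy, not_le.1 k⟩
    obtain ⟨w, m, k1⟩ := f3 w0 m0
    have k2 := cl_card F0 (p := fun w' => d w w' < R i) (q := fun w' => d w w' < R (i + 1))
      (fun a h => h.trans_le (Rm i _ i.le_succ))
      (by linarith [b w (f1 w m), c2 w i, c3 w i]) w0 m0 k1
    have k3 := h w m
    rw [e6] at k3
    linarith [tri w w0 y, mul_le_mul_of_nonneg_left hK p1.le]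

theorem cl {M : Type*} [TopologicalSpace M] [CompactSpace M] [MeasurableSpace M]
    [OpensMeasurableSpace M] {H : HC M} (h : H.Ok) : CL H := by
  intro ε ε2 K E n0 hε hε2 hK
  obtain ⟨g, hg, k⟩ := cl_abs M ε ε2 K E n0 hε hε2 hK
  refine ⟨g, hg, fun t ht hE => k (H.d t) (H.en t) (h.dist.self t ht) (h.dist.symm t ht)
    (h.dist.tri t ht) (fun x _ _ => en_mono h ht x)
    (fun x r => integral_nonneg fun z => h.evo.N_nonneg 0 t ht z) fun s r hs => ?_⟩
  exact ((sum_en_le h ht s hs fun _ _ => subset_univ _).trans (intN_le h ht _)).trans hE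

end Crest.Agent.N207.T

end
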