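import Crest.Agent.N207.T.Defs
import Crest.Agent.N207.C.Cutf
import Crest.Agent.N207.C.Dist
import Crest.Agent.N207.D.Flux

/-!
# Row 207 (helper36): block TOP, static regions: distances
-/

set_option autoImplicit false
set_option linter.unusedSectionVars false

open scoped ContDiff Topology
open Set MeasureTheory Filter

noncomputable section

namespace Crest.Agent.N207.T

variable {M : Type*} [TopologicalSpace M] [CompactSpace M] [MeasurableSpace M]
  [OpensMeasurableSpace M] {H : HC M}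

/-- gradients at time `t` are bounded by gradients at time `τ` on `G` -/
def Cp (H : HC M) (t τ : ℝ) (G : Set M) (Λ : ℝ) : Prop :=
  ∀ u, H.S0 u → ∀ x ∈ G, H.gam t u u x ≤ Λ ^ 2 * H.gam τ u u x

theorem Cp.mono {t τ Λ : ℝ} {G G' : Set M} (h : Cp H t τ G Λ) (hG : G' ⊆ G) : Cp H t τ G' Λ :=
  fun u hu x hx => h u hu x (hG hx)

theorem lip_scale (h : H.Ok) {t : ℝ} (ht : t ∈ Ioo 0 H.T) {u : M → ℝ} (hu : H.S0 u) {Λ r : ℝ}
    (hΛ : 0 < Λ) {x y : M} (hg : ∀ z, H.d t x z < r → H.gam t u u z ≤ Λ ^ 2)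
    (hy : H.d t x y < r) : |u y - u x| ≤ Λ * H.d t x y := by
  have h1 := h.dist.lip t ht (u := fun z => Λ⁻¹ * u z) (x := x) (y := y) (r := r)
    (h.alg.s0_cmul _ hu) (fun z hz => by
      rw [h.alg.gam_cmul ht _ hu (h.alg.s0_cmul _ hu), h.alg.gam_cmul' ht _ hu hu]
      have := hg z hz
      calc Λ⁻¹ * (Λ⁻¹ * H.gam t u u z) = H.gam t u u z / Λ ^ 2 := by field_simp
        _ ≤ 1 := by rw [div_le_one (by positivity)]; exact this) hy
  rw [← mul_sub, abs_mul, abs_of_pos (inv_pos.2 hΛ)] at h1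
  calc |u y - u x| = Λ * (Λ⁻¹ * |u y - u x|) := by field_simp
    _ ≤ Λ * H.d t x y := by gcongr

theorem lip_scale' (h : H.Ok) {t : ℝ} (ht : t ∈ Ioo 0 H.T) {u : M → ℝ} (hu : H.S0 u) {Λ : ℝ}
    (hΛ : 0 < Λ) (hg : ∀ z, H.gam t u u z ≤ Λ ^ 2) (x y : M) : |u y - u x| ≤ Λ * H.d t x y :=
  lip_scale h ht hu hΛ (r := H.d t x y + 1) (fun z _ => hg z) (by linarith)

/-- a smooth clamp -/
theorem exists_clamp (α c : ℝ) {ε : ℝ} (hε : 0 < ε) : ∃ φ : ℝ → ℝ, ContDiff ℝ ∞ φ ∧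
    (∀ s, |deriv φ s| ≤ 1) ∧ (∀ s ≤ α, deriv φ s = 0) ∧ (∀ s, α + c + ε ≤ s → deriv φ s = 0) ∧
    ∀ s, min (s - α - ε) c ≤ φ s ∧ φ s ≤ min (max (s - α) 0) c + ε := by
  obtain ⟨ψ, h1, h2, h3, -, h5⟩ := Dist.exists_psi hε
  have hd : Differentiable ℝ ψ := h1.differentiable (by simp)
  have hder : ∀ s, HasDerivAt (fun s => c - ψ (c - ψ (s - α)))
      (deriv ψ (c - ψ (s - α)) * deriv ψ (s - α)) s := fun s => by
    have a1 : HasDerivAt (fun s => ψ (s - α)) (deriv ψ (s - α)) s := by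
      exact (hd (s - α)).hasDerivAt.comp_sub_const s α
    have a2 := (hd (c - ψ (s - α))).hasDerivAt.comp s (a1.const_sub c)
    simpa using a2.const_sub c
  refine ⟨fun s => c - ψ (c - ψ (s - α)), by fun_prop, fun s => ?_, fun s hs => ?_,
    fun s hs => ?_, fun s => ?_⟩
  · rw [(hder s).deriv, abs_le]
    obtain ⟨a1, a2⟩ := h2 (c - ψ (s - α))
    obtain ⟨b1, b2⟩ := h2 (s - α)
    constructor <;> nlinarith
  · rw [(hder s).deriv, h3 (s - α) (by linarith), mul_zero]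
  · rw [(hder s).deriv, h3 (c - ψ (s - α)) ?_, zero_mul]
    have := (h5 (s - α)).1
    have := le_max_left (s - α) 0
    linarith
  · obtain ⟨a1, a2⟩ := h5 (s - α)
    obtain ⟨b1, b2⟩ := h5 (c - ψ (s - α))
    have e1 := le_max_left (s - α) 0
    constructor
    · rcases le_total (c - ψ (s - α)) 0 with h | h
      · rw [max_eq_right h] at b2
        have := min_le_right (s - α - ε) c
        simp only; linarith
      · rw [max_eq_left h] at b2
        have := min_le_left (s - α - ε) c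
        simp only; linarith
    · have e2 := le_max_left (c - ψ (s - α)) 0
      have e3 := le_max_right (c - ψ (s - α)) 0
      rcases le_total (max (s - α) 0) c with h | h
      · rw [min_eq_left h]; simp only; linarith
      · rw [min_eq_right h]; simp only; linarith

/-- crossing a static annulus -/
theorem cross (h : H.Ok) {t τ : ℝ} (ht : t ∈ Ioo 0 H.T) (hτ : τ ∈ Ioo 0 H.T) {G : Set M} {Λ : ℝ}
    (hΛ : 0 < Λ) (hc : Cp H t τ G Λ) {w : M} {α β : ℝ}
    (hG : ∀ x, α < H.d τ w x → H.d τ w x < β → x ∈ G) (x y : M) :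
    min (H.d τ w y) β ≤ max (H.d τ w x) α + Λ * H.d t x y := by
  refine le_of_forall_pos_le_add fun e he => ?_
  have hε : 0 < e / 4 := by positivity
  obtain ⟨u, hu, hu1, hu2⟩ := h.dist.approx τ hτ w (e / 8) (by positivity)
  obtain ⟨φ, p1, p2, p3, p4, p5⟩ := exists_clamp (α + e / 4) (β - α - 3 * (e / 4)) hε
  have hl := lip_scale' h ht (h.alg.s0_compU p1 hu) hΛ (fun z => by
    rw [h.alg.gam_compU2 ht p1 hu]
    have hz := abs_le.1 (hu2 z)
    by_cases h1 : α < H.d τ w z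
    · by_cases h2 : H.d τ w z < β
      · have a1 := hc u hu z (hG z h1 h2)
        have a2 : deriv φ (u z) ^ 2 ≤ 1 := by
          rw [← sq_abs]; exact pow_le_one₀ (abs_nonneg _) (p2 _)
        have a3 := h.alg.gam_nonneg t ht hu z
        have a4 := hu1 z
        have a5 : Λ ^ 2 * H.gam τ u u z ≤ Λ ^ 2 := by nlinarith [sq_nonneg Λ]
        nlinarith [sq_nonneg (deriv φ (u z))]
      · rw [p4 _ (by linarith [not_lt.1 h2])]; simp [sq_nonneg]
    · rw [p3 _ (by linarith [not_lt.1 h1])]; simp [sq_nonneg]) x y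
  have a1 := (p5 (u y)).1
  have a2 := (p5 (u x)).2
  have a3 := abs_le.1 (hu2 x)
  have a4 := abs_le.1 (hu2 y)
  have a5 := (abs_le.1 hl).2
  have b1 : min (H.d τ w y) β - α - 3 * (e / 4) ≤
      min (u y - (α + e / 4) - e / 4) (β - α - 3 * (e / 4)) :=
    le_min (by linarith [min_le_left (H.d τ w y) β]) (by linarith [min_le_right (H.d τ w y) β])
  have b2 : max (u x - (α + e / 4)) 0 ≤ max (H.d τ w x) α - α :=
    max_le (by linarith [le_max_left (H.d τ w x) α]) (by linarith [le_max_right (H.d τ w x) α])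
  have b3 := min_le_left (max (u x - (α + e / 4)) 0) (β - α - 3 * (e / 4))
  linarith

/-- the usual form: a short path at time `t` from inside stays inside -/
theorem cross_lt (h : H.Ok) {t τ : ℝ} (ht : t ∈ Ioo 0 H.T) (hτ : τ ∈ Ioo 0 H.T) {G : Set M}
    {Λ : ℝ} (hΛ : 0 < Λ) (hc : Cp H t τ G Λ) {w : M} {α β : ℝ}
    (hG : ∀ x, α < H.d τ w x → H.d τ w x < β → x ∈ G) {x y : M} {A r : ℝ} (hx : H.d τ w x ≤ A)
    (hα : α ≤ A) (hy : H.d t x y < r) (hβ : A + Λ * r ≤ β) : H.d τ w y < A + Λ * r := by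
  have h1 := cross h ht hτ hΛ hc hG x y
  have h2 : max (H.d τ w x) α ≤ A := max_le hx hα
  have h3 : Λ * H.d t x y < Λ * r := mul_lt_mul_of_pos_left hy hΛ
  rcases le_total (H.d τ w y) β with h4 | h4
  · rw [min_eq_left h4] at h1; linarith
  · rw [min_eq_right h4] at h1; linarith

/-- from a point of a static annulus one reaches the inside -/
theorem reach (h : H.Ok) {t τ : ℝ} (ht : t ∈ Ioo 0 H.T) (hτ : τ ∈ Ioo 0 H.T) {G : Set M} {Λ : ℝ}
    (hΛ : 0 < Λ) (hc : Cp H τ t G Λ) {w : M} {α β : ℝ} (hα : 0 < α)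
    (hG : ∀ x, α ≤ H.d τ w x → H.d τ w x < β → x ∈ G) {y : M} (hy : H.d τ w y < β) {D : ℝ}
    (hD : Λ * β < D) : ∃ x, H.d τ w x < α ∧ H.d t y x < D := by
  by_contra hcon
  push Not at hcon
  have hε : 0 < (D - Λ * β) / 8 := by linarith
  set ε := (D - Λ * β) / 8 with hεd
  obtain ⟨u, hu, hu1, hu2⟩ := h.dist.approx t ht y ε hε
  obtain ⟨φ, p1, p2, -, p4, p5⟩ := exists_clamp 0 (D - 2 * ε) hε
  have hl := lip_scale h hτ (h.alg.s0_compU p1 hu) hΛ (x := w) (y := y) (r := β) (fun z hz => by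
    rw [h.alg.gam_compU2 hτ p1 hu]
    by_cases h1 : H.d τ w z < α
    · have := abs_le.1 (hu2 z)
      rw [p4 _ (by linarith [hcon z h1])]; simp [sq_nonneg]
    · have a1 := hc u hu z (hG z (not_lt.1 h1) hz)
      have a2 : deriv φ (u z) ^ 2 ≤ 1 := by
        rw [← sq_abs]; exact pow_le_one₀ (abs_nonneg _) (p2 _)
      have a3 := h.alg.gam_nonneg τ hτ hu z
      have a4 := hu1 z
      have a5 : Λ ^ 2 * H.gam t u u z ≤ Λ ^ 2 := by nlinarith [sq_nonneg Λ]
      nlinarith [sq_nonneg (deriv φ (u z))]) hy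
  have a1 := (p5 (u w)).1
  have a2 := (p5 (u y)).2
  have a3 := abs_le.1 (hu2 w)
  have a4 := abs_le.1 (hu2 y)
  have a5 := (abs_le.1 hl).1
  have a6 := hcon w (by rw [h.dist.self τ hτ]; exact hα)
  rw [h.dist.self t ht] at a4
  have b1 : D - 2 * ε ≤ min (u w - 0 - ε) (D - 2 * ε) := le_min (by linarith) le_rfl
  have b2 : max (u y - 0) 0 ≤ ε := max_le (by linarith) hε.le
  have b3 := min_le_left (max (u y - 0) 0) (D - 2 * ε)
  have b4 : Λ * H.d τ w y < Λ * β := mul_lt_mul_of_pos_left hy hΛ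
  linarith

/-- finitely many disjoint balls -/
theorem card_mul_le (h : H.Ok) {t : ℝ} (ht : t ∈ Ioo 0 H.T) {ι : Type*} (s : Finset ι)
    (k : ι → M) {r v : ℝ} {W : Set M} (hk : ∀ i ∈ s, ∀ j ∈ s, i ≠ j → 2 * r ≤ H.d t (k i) (k j))
    (hv : ∀ i ∈ s, v ≤ (H.vol t).real (H.B t (k i) r)) (hW : ∀ i ∈ s, H.B t (k i) r ⊆ W) :
    s.card * v ≤ (H.vol t).real W := by
  have := h.int.fin t ht
  have hd : (s : Set ι).PairwiseDisjoint fun i => H.B t (k i) r := fun i hi j hj hij => by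
    rw [Function.onFun, Set.disjoint_left]
    intro x h1 h2
    have a1 : H.d t (k i) x < r := h1
    have a2 : H.d t (k j) x < r := h2
    have a3 := h.dist.tri t ht (k i) x (k j)
    have a4 := h.dist.symm t ht x (k j)
    linarith [hk i hi j hj hij]
  calc (s.card : ℝ) * v = ∑ _i ∈ s, v := by simp
    _ ≤ ∑ i ∈ s, (H.vol t).real (H.B t (k i) r) := Finset.sum_le_sum hv
    _ = (H.vol t).real (⋃ i ∈ s, H.B t (k i) r) :=
        (measureReal_biUnion_finset hd fun i _ => (HC.isOpen_B h.dist ht _ _).measurableSet).symm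
    _ ≤ (H.vol t).real W := measureReal_mono (iUnion₂_subset hW)

/-- the diameter of the inside of a static annulus -/
theorem diam (h : H.Ok) {t τ : ℝ} (ht : t ∈ Ioo 0 H.T) (hτ : τ ∈ Ioo 0 H.T) {G : Set M} {Λ : ℝ}
    (hΛ : 0 < Λ) (hc : Cp H t τ G Λ) {w : M} {α r κ V : ℝ} (hr : 0 < r) (hκ : 0 < κ)
    (hG : ∀ x, α < H.d τ w x → H.d τ w x < α + Λ * r → x ∈ G)
    (hlo : ∀ x, κ ≤ (H.vol t).real (H.B t x r))
    (hV : (H.vol t).real (H.B τ w (α + Λ * r)) ≤ V) {x : M} (hx : H.d τ w x < α) :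
    H.d t w x ≤ 2 * r * (V / κ) := by
  obtain ⟨K, hK, hwK, hxK, hKb⟩ := h.dist.conn τ hτ hx
  have hiv := hK.intermediate_value hwK hxK (h.dist.cont t ht w).continuousOn
  rw [h.dist.self t ht] at hiv
  set n := ⌊H.d t w x / (2 * r)⌋₊ with hn
  have hd0 := HC.Alg.d_nonneg h.dist ht w x
  have hex : ∀ j : ℕ, ∃ k, j ≤ n → k ∈ K ∧ H.d t w k = 2 * r * j := fun j => by
    by_cases hj : j ≤ n
    · have h1 : (j : ℝ) ≤ H.d t w x / (2 * r) :=
        le_trans (by exact_mod_cast hj) (Nat.floor_le (by positivity))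
      rw [le_div_iff₀ (by positivity)] at h1
      obtain ⟨k, hk, hk2⟩ := hiv (show 2 * r * j ∈ Icc 0 (H.d t w x) from
        ⟨by positivity, by linarith⟩)
      exact ⟨k, fun _ => ⟨hk, hk2⟩⟩
    · exact ⟨w, fun h => absurd h hj⟩
  choose k hk using hex
  have key := card_mul_le h ht (Finset.range (n + 1)) k (r := r) (v := κ)
    (W := H.B τ w (α + Λ * r)) (fun i hi j hj hij => by
      obtain ⟨-, a1⟩ := hk i (Nat.lt_succ_iff.1 (Finset.mem_range.1 hi))
      obtain ⟨-, a2⟩ := hk j (Nat.lt_succ_iff.1 (Finset.mem_range.1 hj))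
      have a3 := h.dist.tri t ht w (k i) (k j)
      have a4 := h.dist.tri t ht w (k j) (k i)
      have a5 := h.dist.symm t ht (k i) (k j)
      rcases lt_or_gt_of_ne hij with h1 | h1
      · have : (i : ℝ) + 1 ≤ j := by exact_mod_cast h1
        nlinarith
      · have : (j : ℝ) + 1 ≤ i := by exact_mod_cast h1
        nlinarith) (fun i _ => hlo _) (fun i hi y hy =>
      cross_lt h ht hτ hΛ hc hG (hKb _ (hk i (Nat.lt_succ_iff.1 (Finset.mem_range.1 hi))).1).le
        le_rfl hy le_rfl)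
  rw [Finset.card_range] at key
  have h1 : H.d t w x / (2 * r) < n + 1 := Nat.lt_floor_add_one _
  rw [div_lt_iff₀ (by positivity)] at h1
  have h2 : ((n + 1 : ℕ) : ℝ) ≤ V / κ := by rw [le_div_iff₀ hκ]; linarith
  push_cast at h2
  nlinarith

end Crest.Agent.N207.T

end
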