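import Crest.Agent.N207.T.Kit1

/-!
# Row 207 (helper36): block TOP, static regions: gradients and energy
-/

set_option autoImplicit false
set_option linter.unusedSectionVars false

open scoped ContDiff Topology
open Set MeasureTheory Filter

noncomputable section

namespace Crest.Agent.N207.T

variable {M : Type*} [TopologicalSpace M] [CompactSpace M] [MeasurableSpace M]
  [OpensMeasurableSpace M] {H : HC M}

/-- gradients of fixed functions change slowly where `∫ |Ric|` is small -/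
theorem stat_gam (h : H.Ok) {a b : ℝ} (hs : H.St a b) {ζ : ℝ → ℝ} (hζ : ContinuousOn ζ (Icc a b))
    {x : M} (hx : ∀ t ∈ Ioo a b, √(H.Q 0 t x) ≤ ζ t) {u : M → ℝ} (hu : H.S0 u) :
    H.gam b u u x ≤ Real.exp (2 * ∫ t in a..b, ζ t) * H.gam a u u x ∧
      H.gam a u u x ≤ Real.exp (2 * ∫ t in a..b, ζ t) * H.gam b u u x := by
  obtain ⟨G', -, hG⟩ := h.alg.sm_dt hs.2.1
    (h.alg.sm_gam hs (h.alg.sm_static (a := a) (b := b) hu) (h.alg.sm_static hu))
  have hb := h.evo.dt_gam_static hs hu hG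
  have ha : a ∈ Icc a b := left_mem_Icc.2 hs.2.1.le
  have hb' : b ∈ Icc a b := right_mem_Icc.2 hs.2.1.le
  have key : ∀ e : ℝ, ∀ t ∈ Icc a b, HasDerivWithinAt
      (fun s => H.gam s u u x * Real.exp (e * ∫ σ in a..s, ζ σ))
      ((G' t x + e * ζ t * H.gam t u u x) * Real.exp (e * ∫ σ in a..t, ζ σ)) (Icc a b) t :=
    fun e t ht => by
      have h1 := (hG t ht x).mul (((D.prim hζ ht).const_mul e).exp)
      exact h1.congr_deriv (by ring)
  have bd : ∀ t ∈ Ioo a b, |G' t x| ≤ 2 * ζ t * H.gam t u u x := fun t ht =>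
    (hb t (Ioo_subset_Icc_self ht) x).trans (by
      have := h.alg.gam_nonneg t (hs.mem (Ioo_subset_Icc_self ht)) hu x
      have := hx t ht
      gcongr)
  constructor
  · have h1 := anti_of_deriv (key (-2)) (fun t ht => mul_nonpos_of_nonpos_of_nonneg
      (by linarith [(abs_le.1 (bd t ht)).2]) (Real.exp_pos _).le) ha hb' hs.2.1.le
    simp only [intervalIntegral.integral_same, mul_zero, Real.exp_zero, mul_one] at h1
    have h2 : Real.exp (2 * ∫ t in a..b, ζ t) * Real.exp (-2 * ∫ t in a..b, ζ t) = 1 := by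
      rw [← Real.exp_add]; simp
    calc H.gam b u u x = Real.exp (2 * ∫ t in a..b, ζ t) *
          (H.gam b u u x * Real.exp (-2 * ∫ t in a..b, ζ t)) := by
            rw [mul_left_comm, h2, mul_one]
      _ ≤ _ := by gcongr
  · have h1 := mono_of_deriv (key 2) (fun t ht => mul_nonneg
      (by linarith [(abs_le.1 (bd t ht)).1]) (Real.exp_pos _).le) ha hb' hs.2.1.le
    simp only [intervalIntegral.integral_same, mul_zero, Real.exp_zero, mul_one] at h1
    linarith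

/-- the region `G` is regular on the time interval `(a, b)` -/
structure Reg (H : HC M) (a b : ℝ) (G : Set M) (ζ : ℝ → ℝ) (A B : ℝ) : Prop where
  a_pos : 0 < a
  le : a ≤ b
  lt : b < H.T
  cont : ContinuousOn ζ (Icc a b)
  nn : ∀ t ∈ Icc a b, 0 ≤ ζ t
  q0 : ∀ t ∈ Ioo a b, ∀ x ∈ G, √(H.Q 0 t x) ≤ ζ t
  q1 : ∀ t ∈ Ioo a b, ∀ x ∈ G, √(H.Q 1 t x) ≤ B * ζ t
  n0 : ∀ t ∈ Ioo a b, ∀ x ∈ G, √(H.N 0 t x) ≤ A

namespace Reg

variable {a b A B : ℝ} {G : Set M} {ζ : ℝ → ℝ}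

theorem mem_a (R : Reg H a b G ζ A B) : a ∈ Ioo 0 H.T := ⟨R.a_pos, R.le.trans_lt R.lt⟩

theorem mem_b (R : Reg H a b G ζ A B) : b ∈ Ioo 0 H.T := ⟨R.a_pos.trans_le R.le, R.lt⟩

theorem sub (R : Reg H a b G ζ A B) {a' b' : ℝ} (ha : a ≤ a') (hab : a' ≤ b') (hb : b' ≤ b)
    {G' : Set M} (hG : G' ⊆ G) : Reg H a' b' G' ζ A B :=
  ⟨R.a_pos.trans_le ha, hab, hb.trans_lt R.lt, R.cont.mono (Icc_subset_Icc ha hb),
    fun t ht => R.nn t (Icc_subset_Icc ha hb ht),
    fun t ht x hx => R.q0 t (Ioo_subset_Ioo ha hb ht) x (hG hx),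
    fun t ht x hx => R.q1 t (Ioo_subset_Ioo ha hb ht) x (hG hx),
    fun t ht x hx => R.n0 t (Ioo_subset_Ioo ha hb ht) x (hG hx)⟩

theorem int_sub (R : Reg H a b G ζ A B) {a' b' : ℝ} (ha : a ≤ a') (hab : a' ≤ b') (hb : b' ≤ b) :
    ∫ t in a'..b', ζ t ≤ ∫ t in a..b, ζ t :=
  intervalIntegral.integral_mono_interval ha hab hb
    ((ae_restrict_mem measurableSet_Ioc).mono fun t ht => R.nn t (Ioc_subset_Icc_self ht))
    (R.cont.intervalIntegrable_of_Icc R.le)

theorem int_nonneg (R : Reg H a b G ζ A B) : 0 ≤ ∫ t in a..b, ζ t :=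
  intervalIntegral.integral_nonneg R.le R.nn

/-- two-sided comparison of the gradients -/
theorem cp (h : H.Ok) (R : Reg H a b G ζ A B) {Λ : ℝ} (hΛ : Real.exp (∫ t in a..b, ζ t) ≤ Λ) :
    Cp H a b G Λ ∧ Cp H b a G Λ := by
  have h1 : Real.exp (2 * ∫ t in a..b, ζ t) ≤ Λ ^ 2 := by
    rw [two_mul, Real.exp_add, ← sq]
    exact pow_le_pow_left₀ (Real.exp_pos _).le hΛ 2
  rcases R.le.eq_or_lt with rfl | hab
  · have h2 : 1 ≤ Λ ^ 2 := by simpa using h1
    exact ⟨fun u hu x _ => le_mul_of_one_le_left (h.alg.gam_nonneg a R.mem_a hu x) h2,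
      fun u hu x _ => le_mul_of_one_le_left (h.alg.gam_nonneg a R.mem_a hu x) h2⟩
  · have hs : H.St a b := ⟨R.a_pos, hab, R.lt⟩
    constructor
    · intro u hu x hx
      refine (stat_gam h hs R.cont (fun t ht => R.q0 t ht x hx) hu).2.trans ?_
      have := h.alg.gam_nonneg b R.mem_b hu x
      gcongr
    · intro u hu x hx
      refine (stat_gam h hs R.cont (fun t ht => R.q0 t ht x hx) hu).1.trans ?_
      have := h.alg.gam_nonneg a R.mem_a hu x
      gcongr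

end Reg

/-- cutoffs made from the distance at time `τ` -/
theorem exists_cut : ∃ K : ℝ, 0 < K ∧ ∀ {H : HC M}, H.Ok → ∀ τ ∈ Ioo 0 H.T, ∀ (w : M) (α β : ℝ),
    α < β → ∃ χ : M → ℝ, H.S0 χ ∧ (∀ x, 0 ≤ χ x) ∧ (∀ x, χ x ≤ 1) ∧
      (∀ x, H.d τ w x ≤ α → χ x = 1) ∧ (∀ x, β ≤ H.d τ w x → χ x = 0) ∧
      (∀ x, H.gam τ χ χ x ≤ (K / (β - α)) ^ 2) ∧
      ∀ t ∈ Ioo 0 H.T, ∀ x, H.d τ w x ≤ α ∨ β ≤ H.d τ w x → H.gam t χ χ x = 0 := by
  obtain ⟨K, hK, hK1, -⟩ := E.zeta_bounds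
  refine ⟨2 * K + 1, by positivity, fun {H} h τ hτ w α β hαβ => ?_⟩
  have hl : 0 < β - α := sub_pos.2 hαβ
  obtain ⟨u, hu, hu1, hu2⟩ := h.dist.approx τ hτ w ((β - α) / 8) (by positivity)
  obtain ⟨v1, v2⟩ := E.deriv_vanish (f := E.zeta) (c := 1) (d := 0)
    (fun s hs => E.zeta_one hs.le) fun s hs => E.zeta_zero hs.le
  have hcd : ContDiff ℝ ∞ fun s : ℝ => E.zeta (2 / (β - α) * s + (1 / 2 - 2 / (β - α) * α)) :=
    E.zeta_cd.comp (by fun_prop)
  have hder : ∀ s, deriv (fun s : ℝ => E.zeta (2 / (β - α) * s + (1 / 2 - 2 / (β - α) * α))) s =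
      deriv E.zeta (2 / (β - α) * s + (1 / 2 - 2 / (β - α) * α)) * (2 / (β - α)) := fun s => by
    have a1 := ((E.zeta_cd.differentiable (by simp))
      (2 / (β - α) * s + (1 / 2 - 2 / (β - α) * α))).hasDerivAt.comp s
      (((hasDerivAt_id s).const_mul (2 / (β - α))).add_const (1 / 2 - 2 / (β - α) * α))
    rw [mul_one] at a1
    exact a1.deriv
  have lo : ∀ x, H.d τ w x ≤ α → 2 / (β - α) * u x + (1 / 2 - 2 / (β - α) * α) < 1 := fun x hx => by
    have a1 := (abs_le.1 (hu2 x)).2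
    have a2 : 2 / (β - α) * (u x - α) ≤ 2 / (β - α) * ((β - α) / 8) := by
      gcongr; linarith
    have a3 : 2 / (β - α) * ((β - α) / 8) = 1 / 4 := by field_simp; norm_num
    nlinarith
  have hi : ∀ x, β ≤ H.d τ w x → 2 < 2 / (β - α) * u x + (1 / 2 - 2 / (β - α) * α) := fun x hx => by
    have a1 := (abs_le.1 (hu2 x)).1
    have a2 : 2 / (β - α) * (7 * (β - α) / 8) ≤ 2 / (β - α) * (u x - α) := by
      gcongr; linarith
    have a3 : 2 / (β - α) * (7 * (β - α) / 8) = 7 / 4 := by field_simp; norm_num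
    nlinarith
  refine ⟨fun x => E.zeta (2 / (β - α) * u x + (1 / 2 - 2 / (β - α) * α)),
    h.alg.s0_compU (φ := fun s : ℝ => E.zeta (2 / (β - α) * s + (1 / 2 - 2 / (β - α) * α))) hcd hu,
    fun x => E.zeta_nonneg _, fun x => E.zeta_le_one _,
    fun x hx => E.zeta_one (lo x hx).le, fun x hx => E.zeta_zero (hi x hx).le, fun x => ?_,
    fun t ht x hx => ?_⟩
  · rw [h.alg.gam_compU2 hτ hcd hu, hder]
    have a1 : (deriv E.zeta (2 / (β - α) * u x + (1 / 2 - 2 / (β - α) * α)) * (2 / (β - α))) ^ 2 ≤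
        ((2 * K + 1) / (β - α)) ^ 2 := by
      rw [← sq_abs, abs_mul, abs_of_pos (by positivity : 0 < 2 / (β - α))]
      refine pow_le_pow_left₀ (by positivity) ?_ 2
      calc _ ≤ K * (2 / (β - α)) := by gcongr; exact hK1 _
        _ = 2 * K / (β - α) := by ring
        _ ≤ _ := by gcongr; linarith
    have a2 := hu1 x
    have a3 := h.alg.gam_nonneg τ hτ hu x
    nlinarith [sq_nonneg ((2 * K + 1) / (β - α))]
  · rw [h.alg.gam_compU2 ht hcd hu, hder]
    rcases hx with hx | hx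
    · rw [v1 _ (lo x hx)]; simp
    · rw [v2 _ (hi x hx)]; simp

/-- the flux through a static annulus -/
theorem flux_le (h : H.Ok) : ∃ C : ℝ, 0 < C ∧ ∀ {a b A B L V : ℝ} {G S : Set M} {ζ : ℝ → ℝ},
    Reg H a b G ζ A B → 0 ≤ A → 0 ≤ B → 0 ≤ L → S ⊆ G → MeasurableSet S → ∀ {χ : M → ℝ}, H.S0 χ →
    (∀ t ∈ Ioo a b, ∀ x, x ∉ S → H.gam t χ χ x = 0) →
    (∀ t ∈ Ioo a b, ∀ x ∈ S, H.gam t χ χ x ≤ L ^ 2) → (∀ t ∈ Ioo a b, (H.vol t).real S ≤ V) →
    |∫ x, χ x * H.Pf b x ∂H.vol b - ∫ x, χ x * H.Pf a x ∂H.vol a| ≤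
      C * (L * A * B * V) * ∫ t in a..b, ζ t := by
  obtain ⟨C, hC, hF⟩ := HC.flux h
  refine ⟨C, hC, fun {a b A B L V G S ζ} R hA hB hL hSG hS χ hχ h0 h1 hV => ?_⟩
  rcases R.le.eq_or_lt with rfl | hab
  · simp
  have hs : H.St a b := ⟨R.a_pos, hab, R.lt⟩
  have k1 := hF hs (h.alg.sm_static hχ) (HasDt.static χ) a b le_rfl hab.le le_rfl
  refine k1.trans ?_
  have k2 := (D.ap_flux h.alg h.evo hs C (h.alg.sm_static hχ) (HasDt.static χ)).int_cont h.alg
    h.int hs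
  rw [← intervalIntegral.integral_const_mul]
  refine intervalIntegral.integral_mono_on_of_le_Ioo hab.le (k2.intervalIntegrable_of_Icc hab.le)
    ((R.cont.intervalIntegrable_of_Icc hab.le).const_mul _) fun t ht => ?_
  have ht' := hs.mem (Ioo_subset_Icc_self ht)
  have := h.int.fin t ht'
  have hz := R.nn t (Ioo_subset_Icc_self ht)
  have k3 := ((D.ap_flux h.alg h.evo hs C (h.alg.sm_static hχ) (HasDt.static χ)).cont h.alg
    (Ioo_subset_Icc_self ht))
  calc _ ≤ ∫ x, S.indicator (fun _ => C * (L * A * (B * ζ t))) x ∂H.vol t := by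
        refine integral_mono (h.alg.integrable_cont h.int ht' k3)
          ((integrable_const _).indicator hS) fun x => ?_
        by_cases hx : x ∈ S
        · simp only [indicator_of_mem hx, abs_zero, zero_mul, zero_add]
          have a1 : √(H.gam t χ χ x) ≤ L := Real.sqrt_le_iff.2 ⟨hL, h1 t ht x hx⟩
          have a2 := R.n0 t ht x (hSG hx)
          have a3 := R.q1 t ht x (hSG hx)
          gcongr
        · simp [indicator_of_notMem hx, h0 t ht x hx]
    _ = (H.vol t).real S * (C * (L * A * (B * ζ t))) := by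
        rw [integral_indicator hS, setIntegral_const, smul_eq_mul]
    _ ≤ V * (C * (L * A * (B * ζ t))) := by gcongr; exact hV t ht
    _ = _ := by ring

/-- transfer of energy through a static annulus, in both directions -/
theorem transfer (h : H.Ok) : ∃ C : ℝ, 0 < C ∧ ∀ {a b A B V q : ℝ} {G : Set M} {ζ : ℝ → ℝ},
    Reg H a b G ζ A B → 0 ≤ A → 0 ≤ B → Real.exp (∫ t in a..b, ζ t) ≤ 2 → ∀ {w : M} {α β : ℝ},
    α < β → (∀ x, α < H.d b w x → H.d b w x < β → x ∈ G) →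
    (∀ t ∈ Ioo a b, (H.vol t).real (H.B b w β) ≤ V) →
    (∫ x in H.B b w β, H.Q 0 a x ∂H.vol a ≤ q) → (∫ x in H.B b w β, H.Q 0 b x ∂H.vol b ≤ q) →
    ∫ x in H.B b w α, H.N 0 a x ∂H.vol a ≤
        H.en b w β + (C * (A * B * V / (β - α)) * (∫ t in a..b, ζ t) + 4 * q) ∧
      H.en b w α ≤ ∫ x in H.B b w β, H.N 0 a x ∂H.vol a +
        (C * (A * B * V / (β - α)) * (∫ t in a..b, ζ t) + 4 * q) := by
  obtain ⟨C, hC, hF⟩ := flux_le h
  obtain ⟨K, hK, hcut⟩ := exists_cut (M := M)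
  refine ⟨2 * K * C, by positivity,
    fun {a b A B V q G ζ} R hA hB hζ w α β hαβ hG hV hqa hqb => ?_⟩
  obtain ⟨χ, c1, c2, c3, c4, c5, c6, c7⟩ := hcut h b R.mem_b w α β hαβ
  have hl : 0 < β - α := sub_pos.2 hαβ
  have hS : IsOpen {x | α < H.d b w x ∧ H.d b w x < β} :=
    (isOpen_lt continuous_const (h.dist.cont b R.mem_b w)).inter
      (isOpen_lt (h.dist.cont b R.mem_b w) continuous_const)
  have mem : ∀ t ∈ Ioo a b, t ∈ Ioo 0 H.T := fun t ht => ⟨R.a_pos.trans ht.1, ht.2.trans R.lt⟩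
  have k1 := hF (L := 2 * (K / (β - α))) (V := V) R hA hB (by positivity)
    (fun x hx => hG x hx.1 hx.2) hS.measurableSet c1
    (fun t ht x hx => c7 t (mem t ht) x (by
      by_contra hc
      push Not at hc
      exact hx hc))
    (fun t ht x hx => by
      have R' := R.sub ht.1.le ht.2.le le_rfl (subset_refl G)
      have a1 := (R'.cp h ((Real.exp_le_exp.2 (R.int_sub ht.1.le ht.2.le le_rfl)).trans hζ)).1 χ c1
        x (hG x hx.1 hx.2)
      have a2 := c6 x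
      rw [mul_pow]
      linarith)
    (fun t ht => by
      have := h.int.fin t (mem t ht)
      exact (measureReal_mono fun x hx => hx.2).trans (hV t ht))
  have e1 : C * (2 * (K / (β - α)) * A * B * V) = 2 * K * C * (A * B * V / (β - α)) := by ring
  rw [e1] at k1
  have k2 : ∀ t ∈ Ioo 0 H.T, ∫ x in H.B b w α, H.N 0 t x ∂H.vol t ≤
      ∫ x, χ x * H.Pf t x ∂H.vol t + 4 * ∫ x in H.B b w β, H.Q 0 t x ∂H.vol t := fun t ht => by
    have sP : H.S0 (H.Pf t) := by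
      obtain ⟨a', b', hs, ht'⟩ := HC.exists_st ht
      exact h.alg.sm_s0 (h.alg.sm_Pf hs) t ht'
    have a1 := HC.setInt_le_wt h ht (HC.isOpen_B h.dist R.mem_b w α) c1 (h.alg.s0_N ht 0) c2
      (h.evo.N_nonneg 0 t ht) fun y hy => (c4 y (le_of_lt hy)).ge
    have a2 := HC.wt_le_setInt h ht (HC.isOpen_B h.dist R.mem_b w β) c1 (h.alg.s0_Q ht 0) c3
      (h.evo.Q_nonneg 0 t ht) fun y hy => not_le.1 fun hc => hy (c5 y hc)
    have i1 := h.alg.integrable h.int ht (h.alg.s0_mul c1 sP)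
    have i2 := h.alg.integrable h.int ht (h.alg.s0_mul c1 (h.alg.s0_Q ht 0))
    have a3 : ∫ x, χ x * H.N 0 t x ∂H.vol t ≤
        ∫ x, (χ x * H.Pf t x + 4 * (χ x * H.Q 0 t x)) ∂H.vol t :=
      integral_mono (h.alg.integrable h.int ht (h.alg.s0_mul c1 (h.alg.s0_N ht 0)))
        (i1.add (i2.const_mul 4)) fun x => by
          have := D.N_le_Pf (H := H) t x
          have := c2 x
          simp only; nlinarith
    rw [integral_add i1 (i2.const_mul 4), integral_const_mul] at a3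
    linarith
  have k3 : ∀ t ∈ Ioo 0 H.T, ∫ x, χ x * H.Pf t x ∂H.vol t ≤
      ∫ x in H.B b w β, H.N 0 t x ∂H.vol t := fun t ht => by
    have sP : H.S0 (H.Pf t) := by
      obtain ⟨a', b', hs, ht'⟩ := HC.exists_st ht
      exact h.alg.sm_s0 (h.alg.sm_Pf hs) t ht'
    have a2 := HC.wt_le_setInt h ht (HC.isOpen_B h.dist R.mem_b w β) c1 (h.alg.s0_N ht 0) c3
      (h.evo.N_nonneg 0 t ht) fun y hy => not_le.1 fun hc => hy (c5 y hc)
    refine le_trans (integral_mono (h.alg.integrable h.int ht (h.alg.s0_mul c1 sP))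
      (h.alg.integrable h.int ht (h.alg.s0_mul c1 (h.alg.s0_N ht 0))) fun x => ?_) a2
    exact mul_le_mul_of_nonneg_left (D.Pf_le h.evo ht x) (c2 x)
  obtain ⟨k4, k5⟩ := abs_le.1 k1
  constructor
  · have := k2 a R.mem_a
    have := k3 b R.mem_b
    unfold HC.en
    linarith
  · have := k2 b R.mem_b
    have := k3 a R.mem_a
    unfold HC.en
    linarith

end Crest.Agent.N207.T

end
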