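import Crest.Agent.N207.T.St2
import Crest.Agent.N207.C.DistUp
import Crest.Agent.N207.D.QLoc

/-!
# Row 207 (helper36): block TOP, static annuli
-/

set_option autoImplicit false
set_option linter.unusedSectionVars false

open scoped ContDiff Topology
open Set MeasureTheory Filter

noncomputable section

namespace Crest.Agent.N207.T

variable {M : Type*} [TopologicalSpace M] [CompactSpace M] [MeasurableSpace M]
  [OpensMeasurableSpace M] {H : HC M}

theorem intN_mono (h : H.Ok) {t : ℝ} (ht : t ∈ Ioo 0 H.T) {S S' : Set M} (hs : S ⊆ S') :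
    ∫ x in S, H.N 0 t x ∂H.vol t ≤ ∫ x in S', H.N 0 t x ∂H.vol t :=
  setIntegral_mono_set (h.alg.integrable h.int ht (h.alg.s0_N ht 0)).integrableOn
    (Eventually.of_forall fun z => h.evo.N_nonneg 0 t ht z) hs.eventuallyLE

theorem intQ_mono (h : H.Ok) {t : ℝ} (ht : t ∈ Ioo 0 H.T) {S S' : Set M} (hs : S ⊆ S') :
    ∫ x in S, H.Q 0 t x ∂H.vol t ≤ ∫ x in S', H.Q 0 t x ∂H.vol t :=
  setIntegral_mono_set (h.alg.integrable h.int ht (h.alg.s0_Q ht 0)).integrableOn
    (Eventually.of_forall fun z => h.evo.Q_nonneg 0 t ht z) hs.eventuallyLE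

theorem en_mono (h : H.Ok) {t : ℝ} (ht : t ∈ Ioo 0 H.T) (x : M) {r r' : ℝ} (hr : r ≤ r') :
    H.en t x r ≤ H.en t x r' :=
  intN_mono h ht (HC.B_mono2 t x hr)

theorem intN_le (h : H.Ok) {t : ℝ} (ht : t ∈ Ioo 0 H.T) (S : Set M) :
    ∫ x in S, H.N 0 t x ∂H.vol t ≤ ∫ x, H.N 0 t x ∂H.vol t :=
  setIntegral_le_integral (h.alg.integrable h.int ht (h.alg.s0_N ht 0))
    (Eventually.of_forall fun z => h.evo.N_nonneg 0 t ht z)

/-- the energy of disjoint balls -/
theorem sum_en_le (h : H.Ok) {t : ℝ} (ht : t ∈ Ioo 0 H.T) (s : Finset M) {r : ℝ} {W : Set M}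
    (hk : ∀ i ∈ s, ∀ j ∈ s, i ≠ j → 2 * r ≤ H.d t i j) (hW : ∀ i ∈ s, H.B t i r ⊆ W) :
    ∑ i ∈ s, H.en t i r ≤ ∫ x in W, H.N 0 t x ∂H.vol t := by
  have hd : Set.Pairwise (s : Set M) (Function.onFun Disjoint fun i => H.B t i r) :=
    fun i hi j hj hij => by
      rw [Function.onFun, Set.disjoint_left]
      intro x h1 h2
      have a1 : H.d t i x < r := h1
      have a2 : H.d t j x < r := h2
      have a3 := h.dist.tri t ht i x j
      have a4 := h.dist.symm t ht x j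
      linarith [hk i hi j hj hij]
  have := integral_biUnion_finset (μ := H.vol t) (f := H.N 0 t) s
    (fun i _ => (HC.isOpen_B h.dist ht i r).measurableSet) hd
    fun i _ => (h.alg.integrable h.int ht (h.alg.s0_N ht 0)).integrableOn
  unfold HC.en
  rw [← this]
  exact intN_mono h ht (iUnion₂_subset hW)

theorem tr2 (h : H.Ok) (c : H.COut) (d : H.DOut) : TR2 H := by
  have hT : 0 < H.T / 2 := half_pos h.alg.T_pos
  obtain ⟨κ, hκ, hlo⟩ := c.lo _ hT
  obtain ⟨CV, hCV, hup⟩ := c.up _ hT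
  obtain ⟨W, hW, hcmp⟩ := HC.vol_cmp h.int h.evo
  obtain ⟨CQ, hCQ, hQ⟩ := HC.qLoc h c d hT
  obtain ⟨CT, hCT, hT2⟩ := transfer h
  set D : ℝ := 512 * W * CV / κ + 1 with hD
  have hD1 : 1 ≤ D := by
    have : 0 ≤ 512 * W * CV / κ := by positivity
    linarith
  refine ⟨D, CT * (16 * W * CV) + 4 * CQ * (D + 1) ^ 2, hD1, by positivity,
    fun {t b A B G ζ} R ht hbt hA hB hζ w α hα hα1 hG => ?_⟩
  have hb : b ∈ Ico (H.T / 2) H.T := ⟨ht.trans R.le, R.lt⟩
  have k1 : ∀ x, H.d b w x < 2 * α → H.d t w x ≤ D * α := fun x hx => by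
    have := diam h R.mem_a R.mem_b two_pos (R.cp h hζ).1 (w := w) (α := 2 * α) (r := α)
      (κ := κ * α ^ 4) (V := W * (CV * (2 * α + 2 * α) ^ 4)) hα (by positivity)
      (fun x h1 h2 => hG x (by linarith) (by linarith))
      (fun x => hlo t ⟨ht, R.mem_a.2⟩ x α ⟨hα, hα1⟩)
      ((hcmp b R.mem_b t R.mem_a _).trans (by gcongr; exact hup b hb w _ (by positivity))) hx
    refine this.trans ?_
    have e : 2 * α * (W * (CV * (2 * α + 2 * α) ^ 4) / (κ * α ^ 4)) = 512 * W * CV / κ * α := by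
      field_simp; ring
    rw [e, hD]
    nlinarith
  have k2 := hT2 (V := W * (CV * (2 * α) ^ 4)) (q := CQ * ((D + 1) * α) ^ 2) R hA hB hζ (w := w)
    (α := α) (β := 2 * α) (by linarith) (fun x h1 h2 => hG x h1 (by linarith))
    (fun u hu => (hcmp b R.mem_b u ⟨R.a_pos.trans hu.1, hu.2.trans R.lt⟩ _).trans
      (by gcongr; exact hup b hb w _ (by positivity)))
    ((intQ_mono h R.mem_a fun x hx => show H.d t w x < (D + 1) * α by
      linarith [k1 x hx]).trans (hQ t ⟨ht, R.mem_a.2⟩ w _ (by positivity)))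
    ((hQ b hb w _ (by positivity)).trans (by gcongr; linarith))
  have hi := R.int_nonneg
  have e : CT * (A * B * (W * (CV * (2 * α) ^ 4)) / (2 * α - α)) * (∫ u in t..b, ζ u) +
      4 * (CQ * ((D + 1) * α) ^ 2) ≤ (CT * (16 * W * CV) + 4 * CQ * (D + 1) ^ 2) *
        (A * B * α ^ 3 * (∫ u in t..b, ζ u) + α ^ 2) := by
    have e1 : A * B * (W * (CV * (2 * α) ^ 4)) / (2 * α - α) = 16 * W * CV * (A * B * α ^ 3) := by
      rw [show 2 * α - α = α by ring]; field_simp; ring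
    rw [e1]
    have a1 : 0 ≤ 4 * CQ * (D + 1) ^ 2 * (A * B * α ^ 3 * ∫ u in t..b, ζ u) := by positivity
    have a2 : 0 ≤ CT * (16 * W * CV) * α ^ 2 := by positivity
    nlinarith
  exact ⟨k1, by linarith [k2.1], by linarith [k2.2]⟩

end Crest.Agent.N207.T

end
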