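import Crest.Agent.N207.F.Tm1

/-!
# Row 207 (helper7): uniformly bounded jets at one point, linear ODEs in time with a weight
-/

set_option autoImplicit false

open Set Metric Filter Topology MeasureTheory
open scoped ContDiff BigOperators
open Crest.GeometryTopology.CoordMetric

noncomputable section

namespace Crest.Agent.N207.Pw

/-- a point of an open set, and a scale -/
structure Pt (n : ℕ) where
  U : Set (En n)
  x : En n
  ρ : ℝ
  op : IsOpen U
  mem : x ∈ U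
  pos : 0 < ρ

variable {n : ℕ}

/-- smooth on the open set -/
abbrev Sm (r : Pt n) (f : En n → ℝ) : Prop := ContDiffOn ℝ ∞ f r.U

theorem Sm.cda {r : Pt n} {f : En n → ℝ} (hf : Sm r f) {x : En n} (hx : x ∈ r.U) :
    ContDiffAt ℝ ∞ f x := hf.contDiffAt (r.op.mem_nhds hx)

theorem Sm.da {r : Pt n} {f : En n → ℝ} (hf : Sm r f) {x : En n} (hx : x ∈ r.U) :
    DifferentiableAt ℝ f x := (hf.cda hx).differentiableAt (by simp)

theorem Sm.pd {r : Pt n} {f : En n → ℝ} (hf : Sm r f) (k : Fin n) : Sm r (pderiv k f) := by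
  have h : ContDiffOn ℝ ∞ (fderiv ℝ f) r.U := hf.fderiv_of_isOpen r.op (by simp)
  exact h.clm_apply contDiffOn_const

theorem pderiv_congr {r : Pt n} {f g : En n → ℝ} (h : EqOn f g r.U) (k : Fin n) :
    EqOn (pderiv k f) (pderiv k g) r.U := by
  intro x hx
  have : f =ᶠ[𝓝 x] g := h.eventuallyEq_of_mem (r.op.mem_nhds hx)
  simp only [pderiv, this.fderiv_eq]

variable {ι : Type*} (r : ι → Pt n)

/-- smooth, uniformly bounded at the points -/
def B0 (f : ι → En n → ℝ) : Prop := (∀ i, Sm (r i) (f i)) ∧ ∃ C : ℝ, ∀ i, |f i (r i).x| ≤ C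

/-- scale invariant partial derivative -/
def D (k : Fin n) (f : ι → En n → ℝ) : ι → En n → ℝ := fun i x => (r i).ρ * pderiv k (f i) x

/-- smooth with scale invariant derivatives of order `≤ m` uniformly bounded at the points -/
def Bd : ℕ → (ι → En n → ℝ) → Prop
  | 0, f => B0 r f
  | m + 1, f => B0 r f ∧ ∀ k, Bd m (D r k f)

variable {r}

theorem Bd.zero {m : ℕ} {f : ι → En n → ℝ} (h : Bd r m f) : Bd r 0 f := by
  cases m with
  | zero => exact h
  | succ m => exact h.1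

theorem Bd.sm {m : ℕ} {f : ι → En n → ℝ} (h : Bd r m f) (i : ι) : Sm (r i) (f i) := h.zero.1 i

theorem Bd.pred {m : ℕ} : ∀ {f : ι → En n → ℝ}, Bd r (m + 1) f → Bd r m f := by
  induction m with
  | zero => exact fun h => h.zero
  | succ m ih => exact fun h => ⟨h.1, fun k => ih (h.2 k)⟩

theorem Bd.mono {m m' : ℕ} {f : ι → En n → ℝ} (h : Bd r m' f) (hm : m ≤ m') : Bd r m f := by
  induction hm with
  | refl => exact h
  | step _ ih => exact ih h.pred

theorem Bd.congr {m : ℕ} : ∀ {f g : ι → En n → ℝ}, Bd r m f →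
    (∀ i, EqOn (g i) (f i) (r i).U) → Bd r m g := by
  have h0 : ∀ {f g : ι → En n → ℝ}, Bd r 0 f → (∀ i, EqOn (g i) (f i) (r i).U) → Bd r 0 g := by
    intro f g hf h
    obtain ⟨C, hC⟩ := hf.2
    exact ⟨fun i => (hf.1 i).congr (h i), C, fun i => by rw [h i (r i).mem]; exact hC i⟩
  induction m with
  | zero => exact h0
  | succ m ih =>
    intro f g hf h
    refine ⟨h0 hf.1 h, fun k => ih (hf.2 k) fun i x hx => ?_⟩
    simp only [D, pderiv_congr (h i) k hx]

theorem Bd.add {m : ℕ} : ∀ {f g : ι → En n → ℝ}, Bd r m f → Bd r m g →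
    Bd r m (fun i x => f i x + g i x) := by
  have h0 : ∀ {f g : ι → En n → ℝ}, Bd r 0 f → Bd r 0 g → Bd r 0 (fun i x => f i x + g i x) := by
    intro f g hf hg
    obtain ⟨C, hC⟩ := hf.2
    obtain ⟨C', hC'⟩ := hg.2
    exact ⟨fun i => (hf.1 i).add (hg.1 i), C + C', fun i =>
      (abs_add_le _ _).trans (add_le_add (hC i) (hC' i))⟩
  induction m with
  | zero => exact h0
  | succ m ih =>
    intro f g hf hg
    refine ⟨h0 hf.1 hg.1, fun k => (ih (hf.2 k) (hg.2 k)).congr fun i x hx => ?_⟩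
    simp only [D, F.pd_add ((hf.sm i).da hx) ((hg.sm i).da hx)]
    ring

theorem Bd.mul {m : ℕ} : ∀ {f g : ι → En n → ℝ}, Bd r m f → Bd r m g →
    Bd r m (fun i x => f i x * g i x) := by
  have h0 : ∀ {f g : ι → En n → ℝ}, Bd r 0 f → Bd r 0 g → Bd r 0 (fun i x => f i x * g i x) := by
    intro f g hf hg
    obtain ⟨C, hC⟩ := hf.2
    obtain ⟨C', hC'⟩ := hg.2
    refine ⟨fun i => (hf.1 i).mul (hg.1 i), C * C', fun i => ?_⟩
    rw [abs_mul]
    exact mul_le_mul (hC i) (hC' i) (abs_nonneg _) ((abs_nonneg _).trans (hC i))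
  induction m with
  | zero => exact h0
  | succ m ih =>
    intro f g hf hg
    refine ⟨h0 hf.1 hg.1, fun k =>
      ((ih (hf.2 k) hg.pred).add (ih hf.pred (hg.2 k))).congr fun i x hx => ?_⟩
    simp only [D, F.pd_mul ((hf.sm i).da hx) ((hg.sm i).da hx)]
    ring

theorem Bd.const {m : ℕ} : ∀ {c : ι → ℝ}, (∃ C, ∀ i, |c i| ≤ C) →
    Bd r m (fun i (_ : En n) => c i) := by
  have h0 : ∀ {c : ι → ℝ}, (∃ C, ∀ i, |c i| ≤ C) → Bd r 0 (fun i (_ : En n) => c i) :=
    fun ⟨C, hC⟩ => ⟨fun _ => contDiffOn_const, C, hC⟩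
  induction m with
  | zero => exact h0
  | succ m ih =>
    intro c hc
    refine ⟨h0 hc, fun k => (ih (c := fun _ => 0) ⟨0, by simp⟩).congr fun i x _ => ?_⟩
    simp only [D, F.pd_const, mul_zero]

theorem Bd.const' {m : ℕ} (c : ℝ) : Bd r m (fun _ (_ : En n) => c) :=
  Bd.const ⟨|c|, fun _ => le_rfl⟩

theorem Bd.neg {m : ℕ} {f : ι → En n → ℝ} (hf : Bd r m f) : Bd r m (fun i x => -f i x) :=
  ((Bd.const' (-1)).mul hf).congr fun i x _ => by simp

theorem Bd.sub {m : ℕ} {f g : ι → En n → ℝ} (hf : Bd r m f) (hg : Bd r m g) :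
    Bd r m (fun i x => f i x - g i x) :=
  (hf.add hg.neg).congr fun i x _ => by simp [sub_eq_add_neg]

theorem Bd.sum {m : ℕ} {κ : Type*} (s : Finset κ) {f : κ → ι → En n → ℝ}
    (hf : ∀ a ∈ s, Bd r m (f a)) : Bd r m (fun i x => ∑ a ∈ s, f a i x) := by
  classical
  induction s using Finset.induction_on with
  | empty => simpa using Bd.const' 0
  | insert a s ha ih =>
    simp only [Finset.sum_insert ha]
    exact (hf a (Finset.mem_insert_self _ _)).add
      (ih fun b hb => hf b (Finset.mem_insert_of_mem hb))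

theorem exists_b0 {κ : Type*} [Fintype κ] {f : κ → ι → En n → ℝ} (hf : ∀ a, Bd r 0 (f a)) :
    ∃ F, 0 ≤ F ∧ ∀ a i, |f a i (r i).x| ≤ F := by
  choose C hC using fun a => (hf a).2
  refine ⟨∑ a, |C a|, by positivity, fun a i => (hC a i).trans ?_⟩
  exact (le_abs_self _).trans
    (Finset.single_le_sum (f := fun a => |C a|) (fun _ _ => abs_nonneg _) (Finset.mem_univ a))

theorem jet_succ_le {ρ : Pt n} {f : En n → ℝ} (hf : Sm ρ f) {x : En n} (hx : x ∈ ρ.U) (m : ℕ) :
    ‖iteratedFDeriv ℝ (m + 1) f x‖ ≤ ∑ k, ‖iteratedFDeriv ℝ m (pderiv k f) x‖ := by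
  rw [← norm_iteratedFDeriv_fderiv]
  set P : Fin n → ℝ →L[ℝ] (En n →L[ℝ] ℝ) := fun k =>
    ContinuousLinearMap.toSpanSingleton ℝ (EuclideanSpace.proj k : En n →L[ℝ] ℝ) with hP
  have e : fderiv ℝ f = fun y => ∑ k, (P k ∘ pderiv k f) y := by
    funext y
    ext v
    rw [F.fderiv_eq_sum]
    simp [hP, mul_comm]
  have hc : ∀ k, ContDiffAt ℝ m (pderiv k f) x := fun k =>
    ((hf.pd k).cda hx).of_le (by exact_mod_cast le_top)
  rw [e, iteratedFDeriv_fun_sum_apply (fun k _ => (P k).contDiff.contDiffAt.comp x (hc k))]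
  refine (norm_sum_le _ _).trans (Finset.sum_le_sum fun k _ => ?_)
  refine ((P k).norm_iteratedFDeriv_comp_left (hc k) le_rfl).trans ?_
  refine mul_le_of_le_one_left (norm_nonneg _) ?_
  rw [hP, ContinuousLinearMap.norm_toSpanSingleton]
  refine ContinuousLinearMap.opNorm_le_bound _ zero_le_one fun v => ?_
  simpa using PiLp.norm_apply_le v k

theorem jet_pd_le {ρ : Pt n} {f : En n → ℝ} (hf : Sm ρ f) {x : En n} (hx : x ∈ ρ.U) (m : ℕ)
    (k : Fin n) :
    ‖iteratedFDeriv ℝ m (pderiv k f) x‖ ≤ ‖iteratedFDeriv ℝ (m + 1) f x‖ := by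
  rw [← norm_iteratedFDeriv_fderiv]
  have hc : ContDiffAt ℝ m (fderiv ℝ f) x :=
    (hf.cda hx).fderiv_right (by exact_mod_cast le_top)
  set L : (En n →L[ℝ] ℝ) →L[ℝ] ℝ := ContinuousLinearMap.apply ℝ ℝ (EuclideanSpace.single k 1)
  have e : pderiv k f = L ∘ fderiv ℝ f := rfl
  rw [e]
  refine (L.norm_iteratedFDeriv_comp_left hc le_rfl).trans ?_
  refine mul_le_of_le_one_left (norm_nonneg _) ?_
  refine ContinuousLinearMap.opNorm_le_bound _ zero_le_one fun φ => ?_
  simpa [L] using φ.le_opNorm (EuclideanSpace.single k 1)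

theorem jet_D {f : ι → En n → ℝ} {i : ι} (hs : Sm (r i) (f i)) (j : ℕ) (k : Fin n) :
    ‖iteratedFDeriv ℝ j (D r k f i) (r i).x‖ =
      (r i).ρ * ‖iteratedFDeriv ℝ j (pderiv k (f i)) (r i).x‖ := by
  have hc : ContDiffAt ℝ j (pderiv k (f i)) (r i).x :=
    ((hs.pd k).cda (r i).mem).of_le (by exact_mod_cast le_top)
  have : iteratedFDeriv ℝ j (D r k f i) (r i).x =
      (r i).ρ • iteratedFDeriv ℝ j (pderiv k (f i)) (r i).x :=
    iteratedFDeriv_const_smul_apply' (a := (r i).ρ) hc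
  rw [this, norm_smul, Real.norm_of_nonneg (r i).pos.le]

theorem Bd.to_jet (m : ℕ) : ∀ {f : ι → En n → ℝ}, Bd r m f →
    ∃ C, 0 ≤ C ∧ ∀ i, ‖iteratedFDeriv ℝ m (f i) (r i).x‖ * (r i).ρ ^ m ≤ C := by
  induction m with
  | zero =>
    intro f hf
    obtain ⟨C, hC⟩ := hf.2
    exact ⟨|C|, abs_nonneg _, fun i => by
      simpa [norm_iteratedFDeriv_zero] using (hC i).trans (le_abs_self C)⟩
  | succ m ih =>
    intro f hf
    choose C hC0 hC using fun k => ih (hf.2 k)
    refine ⟨∑ k, C k, Finset.sum_nonneg fun k _ => hC0 k, fun i => ?_⟩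
    refine (mul_le_mul_of_nonneg_right (jet_succ_le (hf.sm i) (r i).mem m)
      (pow_nonneg (r i).pos.le _)).trans ?_
    rw [Finset.sum_mul]
    refine Finset.sum_le_sum fun k _ => le_trans (le_of_eq ?_) (hC k i)
    rw [jet_D (hf.sm i)]
    ring

theorem Bd.of_jets (m : ℕ) : ∀ {f : ι → En n → ℝ}, (∀ i, Sm (r i) (f i)) →
    (∀ j ≤ m, ∃ C, ∀ i, ‖iteratedFDeriv ℝ j (f i) (r i).x‖ * (r i).ρ ^ j ≤ C) → Bd r m f := by
  have h0 : ∀ {f : ι → En n → ℝ}, (∀ i, Sm (r i) (f i)) →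
      (∃ C, ∀ i, ‖iteratedFDeriv ℝ 0 (f i) (r i).x‖ * (r i).ρ ^ 0 ≤ C) → Bd r 0 f :=
    fun hs ⟨C, hC⟩ => ⟨hs, C, fun i => by simpa using hC i⟩
  induction m with
  | zero => exact fun hs h => h0 hs (h 0 le_rfl)
  | succ m ih =>
    intro f hs h
    refine ⟨h0 hs (h 0 (Nat.zero_le _)), fun k => ih
      (fun i => contDiffOn_const.mul ((hs i).pd k)) fun j hj => ?_⟩
    obtain ⟨C, hC⟩ := h (j + 1) (by omega)
    refine ⟨C, fun i => le_trans ?_ (hC i)⟩
    have hρ := (r i).pos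
    rw [jet_D (hs i), pow_succ, mul_comm (r i).ρ, mul_assoc, mul_comm (r i).ρ]
    gcongr
    exact jet_pd_le (hs i) (r i).mem j k

/-- two-sided Grönwall estimate with a positive weight of total mass at most one -/
theorem wgron {V : Type*} [NormedAddCommGroup V] [NormedSpace ℝ V] {v v' : ℝ → V} {w : ℝ → ℝ}
    {a b K F δ : ℝ} (hK : 0 ≤ K) (hF : 0 ≤ F) (hw : ContinuousOn w (uIcc a b))
    (hw0 : ∀ s ∈ uIcc a b, 0 < w s) (hw1 : |∫ s in a..b, w s| ≤ 1)
    (hd : ∀ s ∈ uIcc a b, HasDerivAt v (v' s) s)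
    (hb : ∀ s ∈ uIcc a b, ‖v' s‖ ≤ w s * (K * ‖v s‖ + F)) (h0 : ‖v a‖ ≤ δ) :
    ‖v b‖ ≤ (δ + F + 1) * Real.exp (K + 1) := by
  have hδ : 0 ≤ δ := (norm_nonneg _).trans h0
  rcases eq_or_ne a b with rfl | hab
  · nlinarith [Real.one_le_exp (by linarith : 0 ≤ K + 1)]
  have hab' : 0 < |b - a| := abs_pos.2 (sub_ne_zero.2 hab.symm)
  have hm : ∀ σ ∈ Icc (0 : ℝ) 1, a + σ * (b - a) ∈ uIcc a b := by
    intro σ hσ
    have := (convex_uIcc a b).add_smul_sub_mem left_mem_uIcc right_mem_uIcc hσ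
    simpa using this
  have hl : ∀ σ : ℝ, HasDerivAt (fun σ : ℝ => a + σ * (b - a)) (b - a) σ := fun σ => by
    simpa using ((hasDerivAt_id σ).mul_const (b - a)).const_add a
  set p : ℝ → ℝ := fun σ => projIcc 0 1 zero_le_one σ with hp
  have hpc : Continuous p := continuous_subtype_val.comp continuous_projIcc
  have hpm : ∀ σ, p σ ∈ Icc (0 : ℝ) 1 := fun σ => (projIcc 0 1 zero_le_one σ).2
  have hpe : ∀ σ ∈ Icc (0 : ℝ) 1, p σ = σ := fun σ hσ => by
    simp only [hp, projIcc_of_mem zero_le_one hσ]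
  set W : ℝ → ℝ := fun σ => |b - a| * w (a + p σ * (b - a)) with hW
  have hWc : Continuous W := continuous_const.mul
    (hw.comp_continuous (by fun_prop) fun σ => hm _ (hpm σ))
  have hW0 : ∀ σ, 0 < W σ := fun σ => mul_pos hab' (hw0 _ (hm _ (hpm σ)))
  set Z : ℝ → ℝ := fun σ => ∫ u in (0 : ℝ)..σ, W u with hZ
  have hZd : ∀ σ, HasDerivAt Z (W σ) σ := fun σ =>
    intervalIntegral.integral_hasDerivAt_right (hWc.intervalIntegrable _ _)
      (hWc.stronglyMeasurableAtFilter _ _) hWc.continuousAt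
  have hZ0 : ∀ σ, 0 ≤ σ → 0 ≤ Z σ := fun σ hσ =>
    intervalIntegral.integral_nonneg hσ fun u _ => (hW0 u).le
  have hZ1 : Z 1 ≤ 1 := by
    have h1 : Z 1 = |b - a| * ∫ u in (0 : ℝ)..1, w ((b - a) * u + a) := by
      rw [← intervalIntegral.integral_const_mul]
      refine intervalIntegral.integral_congr fun u hu => ?_
      rw [uIcc_of_le zero_le_one] at hu
      simp only [hW, hpe u hu]
      ring_nf
    have h2 := intervalIntegral.smul_integral_comp_mul_add (a := 0) (b := 1) w (b - a) a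
    simp only [mul_zero, zero_add, mul_one, sub_add_cancel, smul_eq_mul] at h2
    rw [← h2, abs_mul] at hw1
    rw [h1]
    exact (mul_le_mul_of_nonneg_left (le_abs_self _) hab'.le).trans hw1
  have h := image_norm_le_of_norm_deriv_right_lt_deriv_boundary (a := 0) (b := 1)
    (f := fun σ => v (a + σ * (b - a))) (f' := fun σ => (b - a) • v' (a + σ * (b - a)))
    (fun σ hσ => ((hd _ (hm σ hσ)).scomp σ (hl σ)).continuousAt.continuousWithinAt)
    (fun σ hσ => ((hd _ (hm σ (Ico_subset_Icc_self hσ))).scomp σ (hl σ)).hasDerivWithinAt)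
    (B := fun σ => (δ + F + 1) * Real.exp ((K + 1) * Z σ))
    (B' := fun σ => (δ + F + 1) * (Real.exp ((K + 1) * Z σ) * ((K + 1) * W σ)))
    (by simp only [hZ, intervalIntegral.integral_same, mul_zero, Real.exp_zero, zero_mul,
      add_zero]; linarith)
    (fun σ => (((hZd σ).const_mul (K + 1)).exp).const_mul _)
    (by
      intro σ hσ he
      have hσ' := Ico_subset_Icc_self hσ
      have h1 := hb _ (hm σ hσ')
      have h2 : 1 ≤ Real.exp ((K + 1) * Z σ) :=
        Real.one_le_exp (mul_nonneg (by linarith) (hZ0 σ hσ.1))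
      have h3 : W σ = |b - a| * w (a + σ * (b - a)) := by simp only [hW, hpe σ hσ']
      rw [norm_smul, Real.norm_eq_abs]
      have h4 : F < (δ + F + 1) * Real.exp ((K + 1) * Z σ) := by nlinarith
      calc |b - a| * ‖v' (a + σ * (b - a))‖
          ≤ W σ * (K * ((δ + F + 1) * Real.exp ((K + 1) * Z σ)) + F) := by
            rw [h3, mul_assoc, ← he]; gcongr
        _ < W σ * (K * ((δ + F + 1) * Real.exp ((K + 1) * Z σ)) +
              (δ + F + 1) * Real.exp ((K + 1) * Z σ)) := by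
            have := hW0 σ
            gcongr
        _ = _ := by ring) (x := 1) ⟨zero_le_one, le_rfl⟩
  simp only [one_mul, add_sub_cancel] at h
  refine h.trans ?_
  gcongr
  nlinarith

end Crest.Agent.N207.Pw
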