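import Crest.Agent.N207.T.Pers1
import Crest.Agent.N207.A.Arr
import Crest.Agent.N207.A.Co3

/-!
# Row 207 (helper7): persistence of the jets of a Ricci flow at one point of a chart
-/

set_option autoImplicit false

open Set Metric Filter Topology Function MeasureTheory
open scoped ContDiff BigOperators
open Crest.GeometryTopology.CoordMetric Crest.GeometryTopology.ChartCurvature
open Crest.Agent.R202.Tens Crest.Agent.N207.AI

noncomputable section

namespace Crest.Agent.N207.Pw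

variable {n : ℕ} {ι : Type*}

/-- time windows with a weight of mass at most one -/
structure Win (t s : ι → ℝ) (w : ι → ℝ → ℝ) (J : ι → Set ℝ) : Prop where
  op : ∀ i, IsOpen (J i)
  sub : ∀ i, uIcc (t i) (s i) ⊆ J i
  wc : ∀ i, ContinuousOn (w i) (uIcc (t i) (s i))
  w0 : ∀ i, ∀ σ ∈ uIcc (t i) (s i), 0 < w i σ
  w1 : ∀ i, |∫ σ in t i..s i, w i σ| ≤ 1

variable {r : ι → Pt n} {t s : ι → ℝ} {w : ι → ℝ → ℝ} {J : ι → Set ℝ}

theorem Win.w1' (W : Win t s w J) (i : ι) {a b : ℝ} (ha : a ∈ uIcc (t i) (s i))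
    (hb : b ∈ uIcc (t i) (s i)) : |∫ σ in a..b, w i σ| ≤ 1 := by
  refine le_trans (intervalIntegral.abs_integral_mono_interval
    (uIoc_subset_uIoc_of_uIcc_subset_uIcc (uIcc_subset_uIcc ha hb)) ?_
    (W.wc i).intervalIntegrable) (W.w1 i)
  filter_upwards [ae_restrict_mem measurableSet_uIoc] with σ hσ
  exact (W.w0 i σ (uIoc_subset_uIcc hσ)).le

/-- **linear ODEs in time.** -/
theorem Bd.tode (W : Win t s w J) {κ Q : Type*} [Fintype κ] [Fintype Q] (π : κ → Q → κ)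
    {C : κ → Q → ι → ℝ → En n → ℝ} (m : ℕ) : ∀ {u f : κ → ι → ℝ → En n → ℝ},
      (∀ a i, St (u a i) (J i) (r i).U) →
      (∀ a i, ∀ σ ∈ uIcc (t i) (s i), ∀ x ∈ (r i).U, HasDerivAt (fun σ => u a i σ x)
        (w i σ * (∑ q, C a q i σ x * u (π a q) i σ x + f a i σ x)) σ) →
      (∀ a q, Bd (fun p : F.TI t s => r p.1.1) m fun p => C a q p.1.1 p.1.2) →
      (∀ a, Bd (fun p : F.TI t s => r p.1.1) m fun p => f a p.1.1 p.1.2) →
      (∀ a, Bd r m fun i => u a i (t i)) →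
      ∀ a, Bd (fun p : F.TI t s => r p.1.1) m fun p => u a p.1.1 p.1.2 := by
  have h0 : ∀ {u f : κ → ι → ℝ → En n → ℝ}, (∀ a i, St (u a i) (J i) (r i).U) →
      (∀ a i, ∀ σ ∈ uIcc (t i) (s i), ∀ x ∈ (r i).U, HasDerivAt (fun σ => u a i σ x)
        (w i σ * (∑ q, C a q i σ x * u (π a q) i σ x + f a i σ x)) σ) →
      (∀ a q, Bd (fun p : F.TI t s => r p.1.1) 0 fun p => C a q p.1.1 p.1.2) →
      (∀ a, Bd (fun p : F.TI t s => r p.1.1) 0 fun p => f a p.1.1 p.1.2) →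
      (∀ a, Bd r 0 fun i => u a i (t i)) →
      ∀ a, Bd (fun p : F.TI t s => r p.1.1) 0 fun p => u a p.1.1 p.1.2 := by
    intro u f hu hd hC hf hi a
    obtain ⟨A, hA0, hA⟩ := exists_b0
      (f := fun (c : κ × Q) (p : F.TI t s) => C c.1 c.2 p.1.1 p.1.2) fun c => hC c.1 c.2
    obtain ⟨F, hF0, hF⟩ := exists_b0 hf
    obtain ⟨B, hB0, hB⟩ := exists_b0 hi
    refine ⟨fun p => st_slice (hu a p.1.1) (W.sub _ p.2),
      (B + F + 1) * Real.exp (Fintype.card Q * A + 1), ?_⟩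
    rintro ⟨⟨i, σ⟩, hσ⟩
    have hsub : uIcc (t i) σ ⊆ uIcc (t i) (s i) := uIcc_subset_uIcc left_mem_uIcc hσ
    have h := wgron (v := fun σ a => u a i σ (r i).x)
      (v' := fun σ a => w i σ * (∑ q, C a q i σ (r i).x * u (π a q) i σ (r i).x +
        f a i σ (r i).x)) (w := w i)
      (a := t i) (b := σ) (K := Fintype.card Q * A) (F := F) (δ := B) (by positivity) hF0
      ((W.wc i).mono hsub) (fun z hz => W.w0 i z (hsub hz)) (W.w1' i left_mem_uIcc hσ)
      (fun z hz => hasDerivAt_pi.2 fun a => hd a i z (hsub hz) _ (r i).mem) ?_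
      ((pi_norm_le_iff_of_nonneg hB0).2 fun a => hB a i)
    · exact (norm_le_pi_norm (fun a => u a i σ (r i).x) a).trans h
    · intro z hz
      have hw := W.w0 i z (hsub hz)
      refine (pi_norm_le_iff_of_nonneg (by positivity)).2 fun a => ?_
      rw [Real.norm_eq_abs, abs_mul, abs_of_pos hw]
      refine mul_le_mul_of_nonneg_left ?_ hw.le
      refine (abs_add_le _ _).trans (add_le_add ?_ (hF a ⟨(i, z), hsub hz⟩))
      refine (Finset.abs_sum_le_sum_abs _ _).trans ?_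
      rw [mul_assoc, ← nsmul_eq_mul, ← Finset.card_univ, ← Finset.sum_const]
      refine Finset.sum_le_sum fun q _ => ?_
      rw [abs_mul]
      exact mul_le_mul (hA (a, q) ⟨(i, z), hsub hz⟩)
        (norm_le_pi_norm (fun a => u a i z (r i).x) (π a q)) (abs_nonneg _) hA0
  induction m with
  | zero => exact h0
  | succ m ih =>
    intro u f hu hd hC hf hi a
    have hum := ih hu hd (fun a q => (hC a q).pred) (fun a => (hf a).pred) (fun a => (hi a).pred)
    refine ⟨h0 hu hd (fun a q => (hC a q).zero) (fun a => (hf a).zero) (fun a => (hi a).zero) a,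
      fun k => ?_⟩
    refine ih (u := fun a i σ x => (r i).ρ * pderiv k (u a i σ) x)
      (f := fun a i σ x => ∑ q, (r i).ρ * pderiv k (C a q i σ) x * u (π a q) i σ x +
        (r i).ρ * pderiv k (f a i σ) x)
      (fun a i => contDiffOn_const.mul (st_pderiv (r i).op (hu a i) k)) ?_
      (fun a q => (hC a q).pred)
      (fun a => (Bd.sum _ fun q _ => ((hC a q).2 k).mul (hum _)).add ((hf a).2 k))
      (fun a => (hi a).2 k) a
    intro a i σ hσ x hx
    have h1 := (F.dt_pd (W.op i) (r i).op (hu a i) (W.sub i hσ) (hd a i σ hσ) hx k).const_mul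
      (r i).ρ
    refine h1.congr_deriv ?_
    have hCd : ∀ q, DifferentiableAt ℝ (C a q i σ) x := fun q =>
      ((hC a q).sm ⟨(i, σ), hσ⟩).da hx
    have hud : ∀ b, DifferentiableAt ℝ (u b i σ) x := fun b => ((hum b).sm ⟨(i, σ), hσ⟩).da hx
    have hfd : DifferentiableAt ℝ (f a i σ) x := ((hf a).sm ⟨(i, σ), hσ⟩).da hx
    have hCu : ∀ q, DifferentiableAt ℝ (fun x => C a q i σ x * u (π a q) i σ x) x := fun q =>
      (hCd q).mul (hud _)
    have hS : DifferentiableAt ℝ (fun x => ∑ q, C a q i σ x * u (π a q) i σ x) x :=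
      DifferentiableAt.fun_sum fun q _ => hCu q
    rw [F.pd_mul (differentiableAt_const _) (hS.fun_add hfd), F.pd_const, F.pd_add hS hfd,
      F.pd_sum _ (fun q _ => hCu q)]
    simp only [F.pd_mul (hCd _) (hud _), Finset.sum_add_distrib]
    have e2 : ∑ q, C a q i σ x * ((r i).ρ * pderiv k (u (π a q) i σ) x) =
        (r i).ρ * ∑ q, C a q i σ x * pderiv k (u (π a q) i σ) x := by
      rw [Finset.mul_sum]
      exact Finset.sum_congr rfl fun b _ => by ring
    have e3 : ∑ q, (r i).ρ * pderiv k (C a q i σ) x * u (π a q) i σ x =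
        (r i).ρ * ∑ q, pderiv k (C a q i σ) x * u (π a q) i σ x := by
      rw [Finset.mul_sum]
      exact Finset.sum_congr rfl fun b _ => by ring
    rw [e2, e3]
    ring

/-- a Ricci flow in a chart, with bounds at one point -/
structure PDat (n M : ℕ) (K : ℝ) (A B : ℕ → ℝ) where
  D : Pt n
  G : ℝ → MetricField n
  J : Set ℝ
  t : ℝ
  s : ℝ
  w : ℝ → ℝ
  δ : ℝ
  fl : CFlow G J D.U
  sub : uIcc t s ⊆ J
  wc : ContinuousOn w (uIcc t s)
  w0 : ∀ σ ∈ uIcc t s, 0 < w σ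
  w1 : |∫ σ in t..s, w σ| ≤ 1
  hδ : 0 < δ
  hK : δ ≤ K
  ric : ∀ j ≤ M, ∀ σ ∈ uIcc t s,
    D.ρ ^ j * √(nsq (G σ) (covN (G σ) (ricT (G σ)) j) D.x) ≤ A j * (δ * w σ)
  lo : ∀ v : En n, ‖v‖ ^ 2 ≤ 2 * bil (G t D.x) v v
  up : ∀ v : En n, bil (G t D.x) v v ≤ 2 * ‖v‖ ^ 2
  jet : ∀ j ≤ M, ∀ a b, ‖iteratedFDeriv ℝ j
    (fun y => G t y a b - (1 : Matrix (Fin n) (Fin n) ℝ) a b) D.x‖ * D.ρ ^ j ≤ B j

namespace PDat

variable {M : ℕ} {K : ℝ} {A B : ℕ → ℝ}

theorem win : Win (fun d : PDat n M K A B => d.t) (fun d => d.s) (fun d => d.w) fun d => d.J :=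
  ⟨fun d => d.fl.isOpenJ, fun d => d.sub, fun d => d.wc, fun d => d.w0, fun d => d.w1⟩

theorem riem (d : PDat n M K A B) {σ : ℝ} (hσ : σ ∈ uIcc d.t d.s) :
    IsRiemannianOn (d.G σ) d.D.U := d.fl.toCFam.riem (d.sub hσ)

/-- the metrics of the window are comparable -/
theorem bil_le (d : PDat n M K A B) {a b : ℝ} (ha : a ∈ uIcc d.t d.s) (hb : b ∈ uIcc d.t d.s)
    (v : En n) : bil (d.G b d.D.x) v v ≤
      2 * Real.exp (2 * (|A 0| * |K|) + 1) * bil (d.G a d.D.x) v v := by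
  rcases eq_or_ne v 0 with rfl | hv
  · simp
  have hx := d.D.mem
  have hsub : uIcc a b ⊆ uIcc d.t d.s := uIcc_subset_uIcc ha hb
  have hnn : ∀ σ ∈ uIcc d.t d.s, 0 < bil (d.G σ d.D.x) v v := fun σ hσ =>
    bil_pos (d.riem hσ) hx hv
  have ha0 := hnn a ha
  have h := wgron (v := fun σ => bil (d.G σ d.D.x) v v / bil (d.G a d.D.x) v v)
    (v' := fun σ => -2 * evT (ricT (d.G σ) d.D.x) ![v, v] / bil (d.G a d.D.x) v v) (w := d.w)
    (a := a) (b := b) (K := 2 * (|A 0| * |K|)) (F := 0) (δ := 1) (by positivity) le_rfl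
    (d.wc.mono hsub) (fun z hz => d.w0 z (hsub hz)) (win.w1' d ha hb) ?_ ?_
    (by simp [div_self ha0.ne'])
  · rw [Real.norm_of_nonneg (div_pos (hnn b hb) ha0).le, div_le_iff₀ ha0] at h
    refine h.trans_eq ?_
    ring
  · intro σ hσ
    refine HasDerivAt.div_const ?_ _
    simp only [bil_apply, evT_two, Finset.mul_sum]
    refine HasDerivAt.fun_sum fun i _ => HasDerivAt.fun_sum fun j _ => ?_
    refine (((d.fl.rf σ (d.sub (hsub hσ)) _ hx i j).mul_const (v i)).mul_const (v j)).congr_deriv ?_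
    show _ = -2 * (ricci (d.G σ) d.D.x i j * v i * v j)
    ring
  · intro σ hσ
    have hw := d.w0 σ (hsub hσ)
    have hδ := d.hδ
    have h1 := Ar.abs_evT_le ((d.riem (hsub hσ)).posDef _ hx) (ricT (d.G σ) d.D.x) ![v, v]
    have h2 : √(ipA (d.G σ d.D.x)⁻¹ (ricT (d.G σ) d.D.x) (ricT (d.G σ) d.D.x)) ≤
        |A 0| * (|K| * d.w σ) := by
      have h3 := d.ric 0 (Nat.zero_le _) σ (hsub hσ)
      rw [pow_zero, one_mul] at h3
      refine h3.trans ?_
      have := d.hK.trans (le_abs_self K)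
      gcongr
      exact le_abs_self _
    have h4 := hnn σ (hsub hσ)
    rw [Fin.prod_univ_two] at h1
    simp only [Matrix.cons_val_zero, Matrix.cons_val_one] at h1
    rw [Real.mul_self_sqrt h4.le] at h1
    rw [Real.norm_of_nonneg (div_pos h4 ha0).le, Real.norm_eq_abs, abs_div, abs_of_pos ha0,
      add_zero, abs_mul, abs_neg, abs_two, div_le_iff₀ ha0]
    calc 2 * |evT (ricT (d.G σ) d.D.x) ![v, v]|
        ≤ 2 * (|A 0| * (|K| * d.w σ) * bil (d.G σ d.D.x) v v) := by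
          gcongr
          exact h1.trans (by gcongr)
      _ = _ := by field_simp

variable (n M K A B)

/-- the index type: data and a time of the window -/
abbrev P : Type := F.TI (fun d : PDat n M K A B => d.t) fun d => d.s

/-- the points -/
abbrev R : P n M K A B → Pt n := fun p => p.1.1.D

/-- `G - 1` -/
def U (a b : Fin n) (d : PDat n M K A B) (σ : ℝ) (x : En n) : ℝ :=
  d.G σ x a b - (1 : Matrix (Fin n) (Fin n) ℝ) a b

/-- normalised components of `∇ʲ Ric` -/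
def T (j : ℕ) (I : Fin (2 + j) → Fin n) (d : PDat n M K A B) (σ : ℝ) (x : En n) : ℝ :=
  d.D.ρ ^ j / (d.δ * d.w σ) * covN (d.G σ) (ricT (d.G σ)) j x I

variable {n M K A B}

theorem smT (p : P n M K A B) (j : ℕ) :
    SmT (covN (p.1.1.G p.1.2) (ricT (p.1.1.G p.1.2)) j) p.1.1.D.U :=
  (SmT.ricT (p.1.1.riem p.2)).covN (p.1.1.riem p.2) j

theorem bd0_T {j : ℕ} (hj : j ≤ M) (I : Fin (2 + j) → Fin n) :
    Bd (R n M K A B) 0 fun p => T n M K A B j I p.1.1 p.1.2 := by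
  set c := 2 * Real.exp (2 * (|A 0| * |K|) + 1) * 2 with hc
  have hc0 : 0 < c := by positivity
  refine ⟨fun p => contDiffOn_const.mul (smT p j I), √(c ^ (2 + j)) * A j, ?_⟩
  rintro ⟨⟨d, σ⟩, hσ⟩
  have hw := d.w0 σ hσ
  have hδ := d.hδ
  have hρ := d.D.pos
  have h1 := Ar.comp_sq_le ((d.riem hσ).posDef _ d.D.mem) (c := c) (fun v => by
    refine (d.bil_le left_mem_uIcc hσ v).trans ?_
    rw [hc, mul_assoc _ 2]
    exact mul_le_mul_of_nonneg_left (d.up v) (by positivity))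
    (covN (d.G σ) (ricT (d.G σ)) j d.D.x) I
  have h3 := Real.abs_le_sqrt h1
  rw [Real.sqrt_mul (by positivity)] at h3
  have h4 := d.ric j hj σ hσ
  show |d.D.ρ ^ j / (d.δ * d.w σ) * covN (d.G σ) (ricT (d.G σ)) j d.D.x I| ≤ _
  rw [abs_mul, abs_of_pos (by positivity : 0 < d.D.ρ ^ j / (d.δ * d.w σ)), div_mul_eq_mul_div,
    div_le_iff₀ (by positivity)]
  calc _ ≤ d.D.ρ ^ j * (√(c ^ (2 + j)) * √(nsq (d.G σ) (covN (d.G σ) (ricT (d.G σ)) j) d.D.x)) :=
        mul_le_mul_of_nonneg_left h3 (by positivity)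
    _ = √(c ^ (2 + j)) * (d.D.ρ ^ j * √(nsq (d.G σ) (covN (d.G σ) (ricT (d.G σ)) j) d.D.x)) := by
        ring
    _ ≤ √(c ^ (2 + j)) * (A j * (d.δ * d.w σ)) := by gcongr
    _ = _ := by ring

theorem bd0_inv (a b : Fin n) : Bd (R n M K A B) 0 fun p x => (p.1.1.G p.1.2 x)⁻¹ a b := by
  set c := 2 * (2 * Real.exp (2 * (|A 0| * |K|) + 1)) with hc
  have hc0 : 0 < c := by positivity
  refine ⟨fun p => sm_inv (p.1.1.riem p.2) a b, c, ?_⟩
  rintro ⟨⟨d, σ⟩, hσ⟩
  have hP := (d.riem hσ).posDef _ d.D.mem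
  let e : Fin n → Arr n 1 := fun a I => if I 0 = a then 1 else 0
  have he : ∀ a b, ipA (d.G σ d.D.x)⁻¹ (e a) (e b) = (d.G σ d.D.x)⁻¹ a b := fun a b => by
    simp [Ar.ipA_rank1, e]
  have h1 : ∀ a, ipA (d.G σ d.D.x)⁻¹ (e a) (e a) ≤ c := fun a => by
    have := Ar.ipA_le_sum_sq hP hc0.le (fun v => by
      refine (d.lo v).trans ?_
      rw [hc, mul_assoc]
      gcongr
      exact d.bil_le hσ left_mem_uIcc v) (e a)
    rw [AI.sum_cons] at this
    simpa [e] using this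
  have h2 := Ar.abs_ipA_le hP (e a) (e b)
  rw [he] at h2
  refine h2.trans ?_
  calc _ ≤ √c * √c := by gcongr <;> exact h1 _
    _ = c := Real.mul_self_sqrt hc0.le

theorem bd_del {m : ℕ} : Bd (R n M K A B) m fun p _ => p.1.1.δ :=
  Bd.const ⟨K, fun p => by rw [abs_of_pos p.1.1.hδ]; exact p.1.1.hK⟩

theorem st_U (a b : Fin n) (d : PDat n M K A B) : St (U n M K A B a b d) d.J d.D.U :=
  (d.fl.sm a b).sub contDiffOn_const

theorem bd_init {m : ℕ} (hm : m ≤ M) (a b : Fin n) :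
    Bd (fun d : PDat n M K A B => d.D) m fun d => U n M K A B a b d d.t :=
  Bd.of_jets m (fun d => st_slice (st_U a b d) (d.sub left_mem_uIcc))
    fun j hj => ⟨B j, fun d => d.jet j (hj.trans hm) a b⟩

theorem dt_U (a b : Fin n) (d : PDat n M K A B) {σ : ℝ} (hσ : σ ∈ uIcc d.t d.s) {x : En n}
    (hx : x ∈ d.D.U) : HasDerivAt (fun σ => U n M K A B a b d σ x)
      (-2 * ricci (d.G σ) x a b) σ :=
  (d.fl.rf σ (d.sub hσ) x hx a b).sub_const _

theorem T_zero (a b : Fin n) (d : PDat n M K A B) (σ : ℝ) (x : En n) :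
    T n M K A B 0 ![a, b] d σ x = (d.δ * d.w σ)⁻¹ * ricci (d.G σ) x a b := by
  have : T n M K A B 0 ![a, b] d σ x = d.D.ρ ^ 0 / (d.δ * d.w σ) * ricci (d.G σ) x a b := rfl
  rw [this, pow_zero, one_div]

theorem bd0_U (a b : Fin n) : Bd (R n M K A B) 0 fun p => U n M K A B a b p.1.1 p.1.2 := by
  refine Bd.tode win (κ := Unit) (Q := Empty) (fun _ _ => ()) (C := fun _ _ _ _ _ => 0) 0
    (u := fun _ => U n M K A B a b)
    (f := fun _ d σ x => -2 * d.δ * T n M K A B 0 ![a, b] d σ x)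
    (fun _ => st_U a b) ?_ (fun _ q => q.elim)
    (fun _ => ((Bd.const' _).mul bd_del).mul (bd0_T (Nat.zero_le _) _))
    (fun _ => bd_init (Nat.zero_le _) a b) ()
  intro _ d σ hσ x hx
  refine (dt_U a b d hσ hx).congr_deriv ?_
  have hw := (d.w0 σ hσ).ne'
  have hδ := d.hδ.ne'
  rw [T_zero]
  simp only [Finset.univ_eq_empty, Finset.sum_empty]
  field_simp
  ring

end PDat

end Crest.Agent.N207.Pw
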