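import Crest.Agent.N207.T.Defs

/-!
# Row 207 (helper36): block TOP, the split into leaves

`TOP ⇐ ASM + WD`; `WD ⇐ SING, SW, CMPL, CEN, FAR, GNL, RES, FIN, STAT, GLUE, RICB`;
`STAT ⇐ TRKZ, PERS, SW, CEN`.
-/

set_option autoImplicit false
set_option linter.unusedSectionVars false

open scoped ContDiff Manifold Topology
open Set MeasureTheory Filter
open Crest.GeometryTopology.CoordMetric Crest.GeometryTopology.ChartCurvature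
  Crest.GeometryTopology.MetricFamily

noncomputable section

namespace Crest.Agent.N207.T

open Sk

/-- cluster tracking, final form (replaces `TRK`) -/
def TRKZ {M : Type*} [TopologicalSpace M] [MeasurableSpace M] (H : HC M) : Prop :=
  ∀ εb : ℝ, 0 < εb → ∃ ε1 C0 : ℝ, 0 < ε1 ∧ 1 ≤ C0 ∧ ∀ L : ℝ, 1 ≤ L → ∃ C : ℝ, 1 ≤ C ∧
    ∀ Kr : ℝ, 1 ≤ Kr → ∃ B : ℕ → ℝ, (∀ k, 0 ≤ B k) ∧ ∀ δ : ℝ, 0 < δ → ∃ c r1 : ℝ, 0 < c ∧ 0 < r1 ∧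
    ∀ (s τ a σ : ℝ) (z : ℝ → M) (Y : ℝ → ℝ), H.T / 2 ≤ s - a ^ 2 → s ≤ τ → τ < H.T → τ - s ≤ r1 →
      0 < σ → σ ≤ a → a ≤ Kr * σ → a ≤ r1 →
      (∀ t ∈ Icc (s - a ^ 2) τ, εb ≤ H.en t (z t) a ∧
        Conc H t (H.B τ (z τ) (C * a)) (z t) a (C * a) ε1 ∧
        ∫ y in H.B t (z t) (C * a), H.Q 0 t y ∂H.vol t ≤ Y t) →
      Conc H τ (H.B τ (z τ) (C * a)) (z τ) (σ / 8) (C * a) ε1 →
      IntervalIntegrable Y volume (s - a ^ 2) τ →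
      (τ - s) * ∫ t in (s - a ^ 2)..τ, Y t ≤ c * σ ^ 4 →
      (∀ t ∈ Ioc s τ, H.d t (z t) (z τ) ≤ C0 * a) ∧
      ∃ ζ : ℝ → ℝ, ContinuousOn ζ (Icc s τ) ∧ (∀ t ∈ Icc s τ, 0 ≤ ζ t) ∧ ∫ t in s..τ, ζ t ≤ δ ∧
        ∀ t ∈ Ioo s τ, ∀ y, σ ≤ H.d τ (z τ) y → H.d τ (z τ) y ≤ L * a →
          ∀ k, σ ^ k * √(H.Q k t y) ≤ B k * ζ t

variable {M : Type*} [TopologicalSpace M] [ChartedSpace E4 M] [IsManifold 𝓘(ℝ, E4) ∞ M]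
  [T3Space M] [ConnectedSpace M] [MeasurableSpace M] [BorelSpace M]

/-- the weighted two-jets of a neck -/
def GJ (g : Met 4 M) (N : Nk M) (η : ℝ) : Prop :=
  ∀ x ∈ shell N.a N.b, JG 2 (g.pm N.Ψ) x ‖x‖ (η * wt N.a N.b x)

/-- a good neck at one time -/
structure SN (F : Flow M) (s η : ℝ) (N : Nk M) : Prop where
  late : s ∈ late F
  top : N.Top
  jet : GJ (F.m s) N η
  vol : (F.m s).vol.real N.In ≤ 192 * N.a ^ 4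

/-- a good neck made at time `v`, with its persistence -/
structure GN (F : Flow M) (m : ℕ) (η : ℝ) (Cs : ℕ → ℝ) (c v : ℝ) (N : Nk M) : Prop where
  top : N.Top
  jet : ∀ x ∈ shell N.a N.b, ∀ s < F.T, |s - v| ≤ c * ‖x‖ →
    JG m ((F.m s).pm N.Ψ) x ‖x‖ (η * (wt N.a N.b x + |s - v| / ‖x‖ / c)) ∧
    JAll Cs ((F.m s).pm N.Ψ) x ‖x‖ (wt N.a N.b x + |s - v| / ‖x‖ / c)
  vol : ∀ s ∈ Ioo 0 F.T, |s - v| ≤ c → ∀ r ∈ Icc N.a N.b,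
    (F.m s).vol.real (N.Om r) ≤ 12 * r ^ 4

/-- `p` is a singular point -/
def Sing (F : Flow M) (p : M) (ε c r0 : ℝ) : Prop :=
  0 < ε ∧ 0 < c ∧ 0 < r0 ∧ ∀ t ∈ late F, ∀ r ∈ Ioc 0 r0, F.T - t ≤ c * r → ε ≤ F.hc.en t p r

/-- leaf: a singular point (`EStat`, compactness, `rm 0` bounded on `[0, T'] × M`) -/
def SING (F : Flow M) : Prop := ¬F.BddRm → ∃ p ε c r0, Sing F p ε c r0

/-- leaf: balls and necks (`DIST`) -/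
def SW (F : Flow M) : Prop :=
  ∀ V : ℝ, ∃ K r1 : ℝ, 2 ≤ K ∧ 0 < r1 ∧ r1 ≤ 1 ∧ ∀ t ∈ late F, ∀ N : Nk M, N.Top →
    Rough (F.m t) N 0 (1 / 100) V → N.b ≤ r1 → 2 * N.a ≤ N.b → ∀ z ∈ N.In, ∀ ρ ∈ Icc N.a N.b,
      (∀ q ∈ N.Om ρ, (F.m t).d z q ≤ 26 / 25 * ρ + K * N.a) ∧
      ∀ q, (F.m t).d z q < 24 / 25 * (ρ - N.a) → q ∈ N.Om ρ

/-- leaf: two rough necks with a common inner point are comparable (`SW`) -/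
def CMPL (F : Flow M) : Prop :=
  ∀ V : ℝ, ∃ K r1 : ℝ, 2 ≤ K ∧ 0 < r1 ∧ ∀ t ∈ late F, ∀ N N' : Nk M, N.Top → N'.Top →
    Rough (F.m t) N 0 (1 / 100) V → Rough (F.m t) N' 0 (1 / 100) V → N.b ≤ r1 → N'.b ≤ r1 →
    ∀ a0 ρ1 ρ2 : ℝ, N.a ≤ a0 → N'.a ≤ a0 → K * a0 ≤ ρ1 → ρ2 ≤ N.b → ρ2 ≤ N'.b →
      (N.Om a0 ∩ N'.Om a0).Nonempty → Cmp N N' ρ1 ρ2

/-- leaf: the energy of a good neck (`CURV`, `vol_image_le`, dyadic sum) -/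
def SHE (M : Type*) [TopologicalSpace M] [ChartedSpace E4 M] [IsManifold 𝓘(ℝ, E4) ∞ M]
    [T3Space M] [ConnectedSpace M] [MeasurableSpace M] [BorelSpace M] : Prop :=
  ∃ C : ℝ, 0 < C ∧ ∀ (g : Met 4 M) (N : Nk M) (η : ℝ), N.Top → 0 ≤ η → η ≤ 1 / 200 → GJ g N η →
    ∫ q in N.Ψ '' shell N.a N.b, g.rm 0 q ∂g.vol ≤ C * η ^ 2

/-- leaf: the energy sits inside a good neck around the singular point (`SW 192`, `SHE`) -/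
def CEN (F : Flow M) : Prop :=
  ∃ C K r1 : ℝ, 0 < C ∧ 2 ≤ K ∧ 0 < r1 ∧ r1 ≤ 1 ∧ ∀ (p : M) (ε c r0 : ℝ), Sing F p ε c r0 →
    ∀ (s η A : ℝ) (N : Nk M), 0 ≤ η → η ≤ 1 / 200 → A ≤ r0 → F.T - s ≤ c * A →
      SN F s η N → N.b ≤ r1 → K * N.a ≤ A → 8 * A ≤ N.b → p ∈ N.Om A →
      (∀ z ∈ N.In, ε - C * η ^ 2 ≤ F.hc.en s z (K * N.a) ∧ (F.m s).d z p ≤ 3 * A ∧
        ∀ y r, (F.m s).d z y + r ≤ N.b / 2 → C * η ^ 2 < F.hc.en s y r →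
          (F.m s).d z y < r + K * N.a) ∧
      (ε - C * η ^ 2 ≤ ∫ q in N.In, (F.m s).rm 0 q ∂(F.m s).vol) ∧
      ∀ N' : Nk M, SN F s η N' → N'.b ≤ r1 → K * N'.a ≤ A → 8 * A ≤ N'.b → p ∈ N'.Om A →
        2 * (C * η ^ 2) < ε → (N.In ∩ N'.In).Nonempty

/-- leaf: persistence on a rough neck (`H.ball_sub_image`, `CURV`, `VolUp`, `F.estat2`, `PERS` with
`ζ = 1 / |x|`) -/
def NPERS (F : Flow M) : Prop :=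
  ∃ r0 : ℝ, 0 < r0 ∧ ∀ Cs : ℕ → ℝ, ∃ (c : ℝ) (Cp : ℕ → ℝ), 0 < c ∧ c ≤ 1 ∧ (∀ k, 0 < Cp k) ∧
    ∀ t ∈ late F, ∀ N : Nk M, N.Top →
      (∀ x ∈ shell N.a N.b, JG 2 ((F.m t).pm N.Ψ) x ‖x‖ (1 / 100)) → N.b ≤ r0 →
      ∀ x ∈ shell (2 * N.a) (N.b / 2), ∀ m : ℕ,
        (∀ k ≤ m, ∀ i j, J1 k (dv ((F.m t).pm N.Ψ) i j) x ‖x‖ (Cs k)) →
        ∀ s < F.T, |s - t| ≤ c * ‖x‖ → 0 < s ∧ ∀ k ≤ m, ∀ i j, ∀ e : ℝ,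
          J1 k (dv ((F.m t).pm N.Ψ) i j) x ‖x‖ e →
          J1 k (dv ((F.m s).pm N.Ψ) i j) x ‖x‖ (e + Cp k * (|s - t| / ‖x‖))

/-- leaf: necks from every scale up to a fixed scale, near the final time (`CONE` at times
`tᵢ → T`, ultrafilter on the bad sets, `NPERS`, restriction, `vol_le`) -/
def FAR (F : Flow M) : Prop :=
  ∀ (p : M) (ε c r0 : ℝ), Sing F p ε c r0 → ∀ η : ℝ, 0 < η → ∃ V R0 : ℝ, 0 < R0 ∧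
    ∀ a b : ℝ, 0 < a → a < b → b ≤ R0 → ∃ (N : Nk M) (t0 : ℝ), t0 ∈ late F ∧ N.Top ∧ N.a = a ∧
      N.b = b ∧ p ∈ N.In ∧ ∀ s ∈ Ico t0 F.T, Rough (F.m s) N 2 η V

/-- leaf: good necks with persistence (`HDEC`, restriction by the factor `2`, `NPERS`, `vol_le`) -/
def GNL (F : Flow M) : Prop :=
  ∃ η1 : ℝ, 0 < η1 ∧ η1 ≤ 1 / 100 ∧ ∀ (V : ℝ) (m : ℕ) (η : ℝ), 2 ≤ m → 0 < η → η ≤ 1 / 400 →
    ∃ (K c r1 : ℝ) (Cs : ℕ → ℝ), 2 ≤ K ∧ 0 < c ∧ c ≤ 1 ∧ 0 < r1 ∧ r1 ≤ 1 ∧ (∀ k, 0 ≤ Cs k) ∧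
      ∀ t ∈ late F, ∀ N : Nk M, N.Top → Rough (F.m t) N 2 η1 V → N.b ≤ r1 → K ^ 3 * N.a ≤ N.b →
        ∃ N' : Nk M, N'.a = K * N.a ∧ N'.b = N.b / K ∧ N.In ⊆ N'.In ∧
          (∀ r, N'.a ≤ r → r ≤ N'.b → N.Om r ⊆ N'.Om (2 * r)) ∧ GN F m η Cs c t N'

/-- leaf: snapshots -/
def RES (F : Flow M) : Prop :=
  ∀ (m : ℕ) (η : ℝ) (Cs : ℕ → ℝ) (c v : ℝ) (N : Nk M) (r s : ℝ), GN F m η Cs c v N → 2 ≤ m →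
    0 ≤ η → 0 < c → N.b ≤ 1 → N.a < r → r < N.b → s ∈ late F → |s - v| ≤ c * r →
    SN F s (2 * η) (N.res r N.b)

/-- leaf: gluing to an outer neck, then persistence (`GLUE`, `NPERS`, restriction, `vol_le`) -/
def FIN (F : Flow M) : Prop :=
  ∀ η1 : ℝ, 0 < η1 → ∃ δ c r1 : ℝ, 0 < δ ∧ δ ≤ 1 / 100 ∧ 0 < c ∧ 0 < r1 ∧ ∀ t ∈ late F,
    ∀ (N N' : Nk M) (ρ1 ρ2 : ℝ), N.Top → N'.Top → Rough (F.m t) N 2 δ 192 →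
      Rough (F.m t) N' 2 δ 192 → 2 * N.a ≤ ρ1 → 2 * N'.a ≤ ρ1 → ρ2 ≤ N.b → 2 * ρ2 ≤ N'.b →
      64 * ρ1 ≤ ρ2 → N'.b ≤ r1 → Cmp N N' ρ1 ρ2 →
      ∃ N'' : Nk M, N''.Top ∧ N''.a = 2 * N.a ∧ N''.b = N'.b / 2 ∧ N'.In ⊆ N''.Om ρ2 ∧
        ∀ s < F.T, |s - t| ≤ c * N.a → Rough (F.m s) N'' 2 η1 192

/-- leaf: time integrability (`Nk.rad`, `sm_comp_rad`, as `E.ball_ii`) -/
def MII (F : Flow M) : Prop :=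
  ∀ N : Nk M, N.Top → ∀ r ∈ Icc N.a N.b, ∀ s t : ℝ, 0 < s → s ≤ t → t < F.T →
    IntervalIntegrable (fun u => mass (F.m u) (N.Om r)) volume s t

/-- leaf: a static shell (`TRKZ`, `CEN`, `SW 192`, `DistLo`, `PERS` with `m = 2`) -/
def STAT (F : Flow M) : Prop :=
  ∀ (p : M) (ε c0 r0 : ℝ), Sing F p ε c0 r0 → ∃ η0 K0 : ℝ, 0 < η0 ∧ 2 ≤ K0 ∧ ∀ L : ℝ, 1 ≤ L →
    ∃ K1 : ℝ, L ≤ K1 ∧ K0 ≤ K1 ∧ ∀ Kr : ℝ, 1 ≤ Kr → ∀ δ : ℝ, 0 < δ → ∃ c r1 : ℝ, 0 < c ∧ 0 < r1 ∧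
    ∀ (s τ l l' A R η : ℝ) (N : ℝ → Nk M) (Y : ℝ → ℝ), s ≤ τ → 0 ≤ η → η ≤ η0 → l' ≤ l →
      l ≤ Kr * l' → K1 * l ≤ A → 32 * A ≤ R → R ≤ r1 → F.T - (s - (K0 * l) ^ 2) ≤ c * A ^ 2 →
      (∀ t ∈ Icc (s - (K0 * l) ^ 2) τ, SN F t η (N t) ∧ (N t).a ≤ l ∧ (N t).b = R ∧
        p ∈ (N t).Om A ∧ mass (F.m t) ((N t).Om (K1 * l)) ≤ Y t) →
      (N τ).a = l' → IntervalIntegrable Y volume (s - (K0 * l) ^ 2) τ →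
      (τ - s) * ∫ t in (s - (K0 * l) ^ 2)..τ, Y t ≤ c * l ^ 4 →
      ∀ t ∈ Ioc s τ,
        (∀ x ∈ shell (K0 * l') (L * l), JG 2 ((F.m t).pm (N τ).Ψ) x ‖x‖ (2 * η + δ)) ∧
        ((N τ).In ∩ (N t).Om (K0 * l)).Nonempty

/-- the world in which the times `t n` are defined: `P n t` says that there is a rough neck of
level `n` at time `t`, `G n v N` that `N` is a good neck of level `n` made at time `v` -/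
structure Wd (F : Flow M) (m : ℕ) (η : ℝ) (Cs : ℕ → ℝ) (V c K R l ts : ℝ) (P : ℕ → ℝ → Prop)
    (G : ℕ → ℝ → Nk M → Prop) : Prop where
  K_ge : 4 ≤ K
  l_pos : 0 < l
  l_le : K ^ 2 * l ≤ R
  R_le : R ≤ 1
  c_pos : 0 < c
  c_le : c ≤ 1
  ts_mem : ts ∈ late F
  ev : ∀ n, ∃ t0 < F.T, ∀ t ∈ Ico t0 F.T, P n t
  mono : ∀ n, ∀ t ∈ Ico ts F.T, P (n + 1) t → P n t
  fail : ∀ t ∈ Ico ts F.T, ∃ n, ¬P n t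
  ex : ∀ n, ∀ v ∈ Ico ts F.T, P n v → ∃ N, G n v N
  top : ∀ n v N, G n v N → N.Top ∧ N.a = l / K ^ n ∧ N.b = R
  good : ∀ n v N, G n v N → ∀ s ∈ Ico ts F.T, |s - v| ≤ 2 * (c * (l / K ^ n)) →
    Good (F.m s) N m η Cs V ∧ ∀ r ∈ Icc (l / K ^ n) R,
      (F.m s).vol.real (N.Om r) ≤ V * r ^ 4 ∧ mass (F.m s) (N.Om r) ≤ V * r ^ 2
  far : ∀ n v N, G n v N → ∀ u, |u - v| ≤ c * (l / K ^ n) → ∀ r, l / K ^ n < r → r < R →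
    ∀ s ∈ Ico ts F.T, |s - u| ≤ c * r → ∀ x ∈ shell r R,
      JG m ((F.m s).pm N.Ψ) x ‖x‖ (η * (wt (l / K ^ n) R x + |s - u| / ‖x‖ / c)) ∧
      JAll Cs ((F.m s).pm N.Ψ) x ‖x‖ 1
  cmp : ∀ n v N n' v' N', G n v N → G n' v' N' → ∀ r, K * (l / K ^ n) ≤ r →
    K * (l / K ^ n') ≤ r → |v - v'| ≤ 2 * (c * r) → Cmp N N' r R
  back : ∀ n v N, G (n + 1) v N → ∀ t ∈ Ico ts F.T, |t - v| ≤ 2 * (c * (l / K ^ n)) → P n t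
  stat : ∀ (n : ℕ) (s τ : ℝ) (N : ℝ → Nk M) (v Y : ℝ → ℝ), ts ≤ s - c * (l / K ^ n) → s < τ →
    τ < F.T → (∀ t ∈ Ico s τ, G n (v t) (N t) ∧ |t - v t| ≤ c * (l / K ^ n) ∧
      mass (F.m t) ((N t).Om (K * (l / K ^ n))) ≤ Y t) →
    G (n + 1) (v τ) (N τ) → |τ - v τ| ≤ c * (l / K ^ (n + 1)) → IntervalIntegrable Y volume s τ →
    (τ - s) * ((∫ t in s..τ, Y t) + (l / K ^ n) ^ 4) < c * (l / K ^ n) ^ 4 →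
    ∀ t ∈ Ico ts F.T, |t - s| ≤ c * (l / K ^ n) → P n t

/-- leaf: the world exists -/
def WD (F : Flow M) : Prop :=
  ¬F.BddRm → ∀ (m : ℕ) (η : ℝ), 0 < η → ∃ (Cs : ℕ → ℝ) (V c K R l ts : ℝ) (P : ℕ → ℝ → Prop)
    (G : ℕ → ℝ → Nk M → Prop), Wd F m η Cs V c K R l ts P G

/-- leaf: last failure times, piecewise constant charts (real analysis only) -/
def ASM (F : Flow M) : Prop :=
  ∀ (m : ℕ) (η : ℝ) (Cs : ℕ → ℝ) (V c K R l ts : ℝ) (P : ℕ → ℝ → Prop) (G : ℕ → ℝ → Nk M → Prop),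
    Wd F m η Cs V c K R l ts P G → ∃ τ : TopD M, τ.Ok F m η Cs V

theorem top_of {F : Flow M} (hW : WD F) (hA : ASM F) : TOP F := fun h m η hη => by
  obtain ⟨Cs, V, c, K, R, l, ts, P, G, hw⟩ := hW h m η hη
  obtain ⟨τ, hτ⟩ := hA m η Cs V c K R l ts P G hw
  exact ⟨Cs, V, τ, hτ⟩

end Crest.Agent.N207.T

end
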