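import Crest.Agent.N207.T.Kit2
import Crest.Agent.N207.T.St

/-!
# Row 207 (helper36): block TOP, the split of `TRKZ`
-/

set_option autoImplicit false
set_option linter.unusedSectionVars false

open scoped ContDiff Topology
open Set MeasureTheory Filter

noncomputable section

namespace Crest.Agent.N207.T

variable {M : Type*} [TopologicalSpace M] [MeasurableSpace M] (H : HC M)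

/-- a static annulus: distances and energy -/
def TR2 : Prop :=
  ∃ D C : ℝ, 1 ≤ D ∧ 0 < C ∧ ∀ {t b A B : ℝ} {G : Set M} {ζ : ℝ → ℝ}, Reg H t b G ζ A B →
    H.T / 2 ≤ t → b - t ≤ 1 → 0 ≤ A → 0 ≤ B → Real.exp (∫ u in t..b, ζ u) ≤ 2 →
    ∀ (w : M) (α : ℝ), 0 < α → α ≤ 1 → (∀ x, α < H.d b w x → H.d b w x < 4 * α → x ∈ G) →
      (∀ x, H.d b w x < 2 * α → H.d t w x ≤ D * α) ∧
      ∫ x in H.B b w α, H.N 0 t x ∂H.vol t ≤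
        H.en b w (2 * α) + C * (A * B * α ^ 3 * (∫ u in t..b, ζ u) + α ^ 2) ∧
      H.en b w α ≤ ∫ x in H.B b w (2 * α), H.N 0 t x ∂H.vol t +
        C * (A * B * α ^ 3 * (∫ u in t..b, ζ u) + α ^ 2)

/-- leaf: clusters at a fixed time -/
def CL : Prop :=
  ∀ (ε ε2 K E : ℝ) (n0 : ℕ), 0 < ε → 0 < ε2 → 2 ≤ K → ∃ g : ℝ, 0 < g ∧ ∀ t ∈ Ioo 0 H.T,
    ∫ x, H.N 0 t x ∂H.vol t ≤ E → ∀ (U : Set M) (r : ℝ) (Bad : M → Finset ℤ), 0 < r →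
    (∀ w, (Bad w).card ≤ n0) → ∃ (F : Finset M) (ρ : ℝ), (∀ w ∈ F, w ∈ U) ∧ K * (g * r) ≤ ρ ∧
      K * ρ ≤ r ∧ F.card * ε ≤ E ∧ (∀ w ∈ F, ε < H.en t w (g * r)) ∧
      (∀ w ∈ F, ∀ w' ∈ F, w ≠ w' → 2 * (K * ρ) ≤ H.d t w w') ∧
      (∀ w ∈ F, H.en t w (K * ρ) ≤ H.en t w (ρ / K) + ε2) ∧
      (∀ w ∈ F, ∀ j ∈ Bad w, (2 : ℝ) ^ j < ρ / K ∨ K * ρ < (2 : ℝ) ^ j) ∧
      ∀ y ∈ U, (∀ w ∈ F, ρ / 2 ≤ H.d t w y) → H.en t y (g * r) ≤ ε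

/-- leaf: as long as the outer annulus is regular, the centre stays inside and regular points have
small Ricci curvature -/
def CTX : Prop :=
  ∃ (ε0 A : ℝ) (B : ℕ → ℝ), 0 < ε0 ∧ 0 ≤ A ∧ (∀ k, 0 ≤ B k) ∧ B 0 ≤ 1 ∧ ∀ εb : ℝ, 0 < εb →
    ∃ ε1 C0 θ0 : ℝ, 0 < ε1 ∧ 1 ≤ C0 ∧ 0 < θ0 ∧ ∀ L : ℝ, 2 ≤ L → ∃ C : ℝ, 2 * L ≤ C ∧
    ∀ Kr : ℝ, 1 ≤ Kr → ∀ θ ∈ Ioc 0 θ0, ∀ δ : ℝ, 0 < δ → ∃ c r1 : ℝ, 0 < c ∧ 0 < r1 ∧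
    ∀ (s τ a σ : ℝ) (z : ℝ → M) (Y : ℝ → ℝ), H.T / 2 ≤ s - a ^ 2 → s ≤ τ → τ < H.T → τ - s ≤ r1 →
      0 < σ → σ ≤ a → a ≤ Kr * σ → a ≤ r1 →
      (∀ t ∈ Icc (s - a ^ 2) τ, εb ≤ H.en t (z t) a ∧
        Conc H t (H.B τ (z τ) (C * a)) (z t) a (C * a) ε1 ∧
        ∫ y in H.B t (z t) (C * a), H.Q 0 t y ∂H.vol t ≤ Y t) →
      IntervalIntegrable Y volume (s - a ^ 2) τ →
      (τ - s) * ∫ t in (s - a ^ 2)..τ, Y t ≤ c * σ ^ 4 →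
      ∃ ζ : ℝ → ℝ, ContinuousOn ζ (Icc s τ) ∧ (∀ t ∈ Icc s τ, 0 ≤ ζ t) ∧ ∫ t in s..τ, ζ t ≤ δ ∧
        ∀ t1 ∈ Icc s τ, (∀ t ∈ Ioc t1 τ, ∀ y, a ≤ H.d τ (z τ) y → H.d τ (z τ) y < 2 * L * a →
          H.en t y (θ * σ) ≤ ε0) →
          (∀ t ∈ Icc t1 τ, H.d t (z t) (z τ) ≤ C0 * a) ∧
          ∀ t ∈ Ioc t1 τ, ∀ y, H.d τ (z τ) y < 2 * L * a → H.en t y (θ * σ) ≤ ε0 →
            √(H.N 0 t y) ≤ A / (θ * σ) ^ 2 ∧ ∀ k, (θ * σ) ^ k * √(H.Q k t y) ≤ B k * ζ t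

end Crest.Agent.N207.T

end
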