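import Crest.Agent.N207.T.Kit3

/-!
# Row 207 (helper36): cluster tracking, part 1: the setting
-/

set_option autoImplicit false
set_option linter.unusedSectionVars false

open scoped ContDiff Topology
open Set MeasureTheory Filter

noncomputable section

namespace Crest.Agent.N207.T

variable {M : Type*} [TopologicalSpace M] [CompactSpace M] [MeasurableSpace M]
  [OpensMeasurableSpace M]

/-- the constants -/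
structure Kn (H : HC M) where
  ε0 : ℝ
  E : ℝ
  K : ℝ
  cP : ℝ
  lam : ℝ
  cE : ℝ
  CE : ℝ
  CV : ℝ
  CT : ℝ
  β : ℝ
  θv : ℝ
  v1 : ℝ
  v2 : ℝ
  Λ : ℝ
  ε3 : ℝ
  η2 : ℝ
  μ : ℝ
  r1 : ℝ
  ε0_pos : 0 < ε0
  hE : ∀ t ∈ Ico (H.T / 2) H.T, ∫ x, H.N 0 t x ∂H.vol t ≤ E
  K_ge : 44 ≤ K
  cP_pos : 0 < cP
  lam_pos : 0 < lam
  lam_le : lam ≤ 1
  cE_pos : 0 < cE
  CE_pos : 0 < CE
  CV_pos : 0 < CV
  CT_pos : 0 < CT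
  β_le : β ≤ 1
  Kβ : 1 ≤ K * β
  θv_pos : 0 < θv
  v1_pos : 0 < v1
  Λ_gt : 1 < Λ
  Λ_le : Λ ≤ 2
  v12 : Λ ^ 5 * v1 < v2
  ε3_pos : 0 < ε3
  ε3_le : ε3 ≤ ε0 / 16
  η2_pos : 0 < η2
  η2_le : η2 ≤ ε3 / 2
  η2_le1 : η2 ≤ 1
  η2_pot : 8 * E / ε0 * (η2 * (2 * E + 1)) ≤ ε3 * ε0 / 32
  μ_pos : 0 < μ
  μ_le : μ ≤ 1
  μ_en : CE * CV * μ ^ 4 ≤ ε0 / 8
  r1_le : r1 ≤ 1
  pers : ∀ t ∈ Ico (H.T / 2) H.T, ∀ x r, 0 < r → r ≤ r1 → H.en t x r ≤ ε0 / 2 →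
    ∀ s ∈ Ioo 0 H.T, |s - t| ≤ cP * r ^ 2 → H.en s x (lam * r) ≤ ε0
  reg : ∀ t ∈ Ico (H.T / 2) H.T, ∀ x r, 0 < r → r ≤ r1 → H.en t x r ≤ ε0 →
    ∀ s ∈ Ioo 0 H.T, |s - t| ≤ cE * r ^ 2 → H.N 0 s x ≤ CE / r ^ 4
  up : ∀ t ∈ Ico (H.T / 2) H.T, ∀ x, ∀ r > 0, (H.vol t).real (H.B t x r) ≤ CV * r ^ 4
  tr : ∀ {t b A B : ℝ} {G : Set M} {ζ : ℝ → ℝ}, Reg H t b G ζ A B →
    H.T / 2 ≤ t → b - t ≤ 1 → 0 ≤ A → 0 ≤ B → Real.exp (∫ u in t..b, ζ u) ≤ 2 →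
    ∀ (w : M) (α : ℝ), 0 < α → α ≤ 1 → (∀ x, α < H.d b w x → H.d b w x < 4 * α → x ∈ G) →
      ∫ x in H.B b w α, H.N 0 t x ∂H.vol t ≤
        H.en b w (2 * α) + CT * (A * B * α ^ 3 * (∫ u in t..b, ζ u) + α ^ 2)
  nv : ∀ t ∈ Ico (H.T / 2) H.T, ∀ (y : M) (ρ : ℝ), 0 < ρ → ρ ≤ r1 → ε0 / 16 ≤ H.en t y (β * ρ) →
    H.en t y (4 * ρ) ≤ H.en t y (β * ρ) + (ε3 + η2) →
    (H.vol t).real (H.B t y (Λ * (θv * ρ))) ≤ v1 * (Λ * (θv * ρ)) ^ 4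
  vol : ∀ s ∈ Ioo 0 H.T, ∀ t ∈ Ioo 0 H.T, |t - s| ≤ r1 → ∀ S : Set M,
    (H.vol t).real S ≤ Λ * (H.vol s).real S

variable {H : HC M}

/-- the data of one tracking problem -/
structure Tk (k : Kn H) (s τ a σ L ϑ A B δ C0 : ℝ) (z : ℝ → M) (ζ : ℝ → ℝ) : Prop where
  ok : H.Ok
  s_ge : H.T / 2 ≤ s
  le : s ≤ τ
  lt : τ < H.T
  len : τ - s ≤ k.r1
  σ_pos : 0 < σ
  σ_le : σ ≤ a
  a_le : a ≤ k.r1
  C0_ge : 1 ≤ C0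
  L_ge : C0 + 4 ≤ L
  A_nn : 0 ≤ A
  B_nn : 0 ≤ B
  cont : ContinuousOn ζ (Icc s τ)
  nn : ∀ t ∈ Icc s τ, 0 ≤ ζ t
  int : ∫ t in s..τ, ζ t ≤ δ
  exp_lt : Real.exp δ < k.Λ
  err : k.CT * (A * B * σ ^ 3 * δ + σ ^ 2) ≤ k.η2 / 2
  conc : ∀ t ∈ Icc s τ, ∀ y, H.d τ (z τ) y < 2 * L * a → ∀ r, 0 < r → r ≤ a →
    k.ε0 / 8 < H.en t y r → H.d t (z t) y < 2 * r + a
  key : ∀ t1 ∈ Icc s τ, (∀ t ∈ Ioc t1 τ, ∀ y, a ≤ H.d τ (z τ) y → H.d τ (z τ) y < 2 * L * a →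
    H.en t y ϑ ≤ k.ε0) → (∀ t ∈ Icc t1 τ, H.d t (z t) (z τ) ≤ C0 * a) ∧
      ∀ t ∈ Ioc t1 τ, ∀ y, H.d τ (z τ) y < 2 * L * a → H.en t y ϑ ≤ k.ε0 →
        √(H.N 0 t y) ≤ A ∧ √(H.Q 0 t y) ≤ ζ t ∧ √(H.Q 1 t y) ≤ B * ζ t

/-- the annulus `α ≤ d τ p · < β` is regular on `(b, τ]` -/
def Ann (H : HC M) (τ : ℝ) (p : M) (ϑ ε b α β : ℝ) : Prop :=
  ∀ t ∈ Ioc b τ, ∀ y, α ≤ H.d τ p y → H.d τ p y < β → H.en t y ϑ ≤ ε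

theorem Ann.mono {τ : ℝ} {p : M} {ϑ ε b α β b' α' : ℝ} (h : Ann H τ p ϑ ε b α β) (hb : b ≤ b')
    (hα : α ≤ α') : Ann H τ p ϑ ε b' α' β :=
  fun t ht y h1 h2 => h t ⟨hb.trans_lt ht.1, ht.2⟩ y (hα.trans h1) h2

/-- clusters at time `b` -/
structure Cd (k : Kn H) (U : Set M) (b γ ρ : ℝ) (F : Finset M) (Ω : M → Set M) : Prop where
  mem : ∀ w ∈ F, w ∈ U
  γ_pos : 0 < γ
  γρ : k.K * γ ≤ ρ
  card : F.card * (k.ε0 / 8) ≤ k.E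
  en : ∀ w ∈ F, k.ε0 / 8 < H.en b w γ
  sep : ∀ w ∈ F, ∀ w' ∈ F, w ≠ w' → 2 * (k.K * ρ) ≤ H.d b w w'
  ann : ∀ w ∈ F, H.en b w (k.K * ρ) ≤ H.en b w (ρ / k.K) + k.η2 / 2
  cap : ∀ w ∈ F, Cap H b w ρ k.θv k.v2 (Ω w)
  reg : ∀ y ∈ U, (∀ w ∈ F, y ∉ Ω w) → H.en b y γ ≤ k.ε0 / 8

theorem exists_inf {s b h : ℝ} (hs : s ≤ b) (hh : 0 < h) (E : ℝ → Prop) :
    ∃ t' ∈ Icc s b, (∀ t ∈ Ioc t' b, E t) ∧ (t' = s ∨ ¬∀ t ∈ Icc s b, |t - t'| ≤ h → E t) := by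
  set S : Set ℝ := {t | t ∈ Icc s b ∧ ∀ u ∈ Ioc t b, E u} with hS
  have hb : b ∈ S := ⟨⟨hs, le_rfl⟩, fun u hu => absurd hu.1 (not_lt.2 hu.2)⟩
  have hbd : BddBelow S := ⟨s, fun t ht => ht.1.1⟩
  have h1 : s ≤ sInf S := le_csInf ⟨b, hb⟩ fun t ht => ht.1.1
  have h2 : ∀ t ∈ Ioc (sInf S) b, E t := fun t ht => by
    obtain ⟨u, hu, hut⟩ := exists_lt_of_csInf_lt ⟨b, hb⟩ ht.1
    exact hu.2 t ⟨hut, ht.2⟩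
  refine ⟨sInf S, ⟨h1, csInf_le hbd hb⟩, h2, ?_⟩
  rcases h1.eq_or_lt with h3 | h3
  · exact Or.inl h3.symm
  · refine Or.inr fun hc => ?_
    have h4 : max s (sInf S - h) ∈ S := by
      refine ⟨⟨le_max_left _ _, max_le hs (by linarith [csInf_le hbd hb])⟩, fun u hu => ?_⟩
      by_cases h5 : sInf S < u
      · exact h2 u ⟨h5, hu.2⟩
      · have h6 := (le_max_right s _).trans_lt hu.1
        exact hc u ⟨((le_max_left s _).trans_lt hu.1).le, hu.2⟩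
          (abs_le.2 ⟨by linarith, by linarith [not_lt.1 h5]⟩)
    have := csInf_le hbd h4
    rcases le_max_iff.1 this with h5 | h5 <;> linarith

namespace Tk

variable {k : Kn H} {s τ a σ L ϑ A B δ C0 : ℝ} {z : ℝ → M} {ζ : ℝ → ℝ}
  (T : Tk k s τ a σ L ϑ A B δ C0 z ζ)
include T

theorem a_pos : 0 < a := T.σ_pos.trans_le T.σ_le

theorem mem {t : ℝ} (ht : t ∈ Icc s τ) : t ∈ Ioo 0 H.T :=
  ⟨by linarith [T.s_ge, T.ok.alg.T_pos, ht.1], ht.2.trans_lt T.lt⟩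

theorem late {t : ℝ} (ht : t ∈ Icc s τ) : t ∈ Ico (H.T / 2) H.T :=
  ⟨T.s_ge.trans ht.1, ht.2.trans_lt T.lt⟩

theorem memτ : τ ∈ Ioo 0 H.T := T.mem ⟨T.le, le_rfl⟩

theorem int_le {t1 t2 : ℝ} (h1 : s ≤ t1) (h12 : t1 ≤ t2) (h2 : t2 ≤ τ) :
    ∫ t in t1..t2, ζ t ≤ δ :=
  le_trans (intervalIntegral.integral_mono_interval h1 h12 h2
    ((ae_restrict_mem measurableSet_Ioc).mono fun t ht => T.nn t (Ioc_subset_Icc_self ht))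
    (T.cont.intervalIntegrable_of_Icc T.le)) T.int

theorem exp_le {t1 t2 : ℝ} (h1 : s ≤ t1) (h12 : t1 ≤ t2) (h2 : t2 ≤ τ) :
    Real.exp (∫ t in t1..t2, ζ t) ≤ 2 :=
  (Real.exp_le_exp.2 (T.int_le h1 h12 h2)).trans (T.exp_lt.le.trans k.Λ_le)

theorem reg {t1 t2 α : ℝ} (h1 : s ≤ t1) (h12 : t1 ≤ t2) (h2 : t2 ≤ τ)
    (hA : Ann H τ (z τ) ϑ k.ε0 t1 α (2 * L * a)) (hα : α ≤ a) {G : Set M}
    (hG : ∀ y ∈ G, H.d τ (z τ) y < 2 * L * a) (hE : ∀ t ∈ Ioo t1 t2, ∀ y ∈ G, H.en t y ϑ ≤ k.ε0) :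
    Reg H t1 t2 G ζ A B := by
  have hk := (T.key t1 ⟨h1, h12.trans h2⟩ (hA.mono le_rfl hα)).2
  have hs : Icc t1 t2 ⊆ Icc s τ := Icc_subset_Icc h1 h2
  exact ⟨(T.mem ⟨h1, h12.trans h2⟩).1, h12, h2.trans_lt T.lt, T.cont.mono hs,
    fun t ht => T.nn t (hs ht),
    fun t ht x hx => (hk t ⟨ht.1, ht.2.le.trans h2⟩ x (hG x hx) (hE t ht x hx)).2.1,
    fun t ht x hx => (hk t ⟨ht.1, ht.2.le.trans h2⟩ x (hG x hx) (hE t ht x hx)).2.2,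
    fun t ht x hx => (hk t ⟨ht.1, ht.2.le.trans h2⟩ x (hG x hx) (hE t ht x hx)).1⟩

/-- short paths do not cross the static annulus -/
theorem out_lt {t α : ℝ} (ht : t ∈ Icc s τ) (hA : Ann H τ (z τ) ϑ k.ε0 t α (2 * L * a))
    (hα : α ≤ a) {x y : M} {A' r : ℝ} (hx : H.d τ (z τ) x ≤ A') (hA' : α ≤ A')
    (hy : H.d t x y < r) (hr : A' + 2 * r ≤ 2 * L * a) : H.d τ (z τ) y < A' + 2 * r := by
  have R := T.reg ht.1 ht.2 le_rfl hA hα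
    (G := {y | α ≤ H.d τ (z τ) y ∧ H.d τ (z τ) y < 2 * L * a}) (fun y hy => hy.2)
    fun u hu y hy => hA u ⟨hu.1, hu.2.le⟩ y hy.1 hy.2
  exact cross_lt T.ok (T.mem ht) T.memτ two_pos (R.cp T.ok (T.exp_le ht.1 ht.2 le_rfl)).1
    (fun x h1 h2 => ⟨h1.le, h2⟩) hx hA' hy hr

/-- concentration points are deep inside -/
theorem deep {t α : ℝ} (ht : t ∈ Icc s τ) (hA : Ann H τ (z τ) ϑ k.ε0 t α (2 * L * a))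
    (hα : α ≤ a) {y : M} (hy : H.d τ (z τ) y < 2 * L * a) {r : ℝ} (hr : 0 < r) (hra : 2 * r ≤ a)
    (he : k.ε0 / 8 < H.en t y r) : H.d τ (z τ) y < (2 * C0 + 5) * a := by
  have ha := T.a_pos
  have h1 := T.conc t ht y hy r hr (by linarith) he
  have h2 := (T.key t ht (hA.mono le_rfl hα)).1 t ⟨le_rfl, ht.2⟩
  have h3 := T.ok.dist.tri t (T.mem ht) (z τ) (z t) y
  have h4 := T.ok.dist.symm t (T.mem ht) (z τ) (z t)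
  have hL := T.L_ge
  have h6 := T.out_lt ht hA hα (x := z τ) (y := y) (A' := a) (r := (C0 + 2) * a)
    (by rw [T.ok.dist.self τ T.memτ]; exact ha.le) hα (by linarith) (by nlinarith)
  linarith

theorem deep2 {t α : ℝ} (ht : t ∈ Icc s τ) (hA : Ann H τ (z τ) ϑ k.ε0 t α (2 * L * a))
    (hα : α ≤ a) {y x : M} (hy : H.d τ (z τ) y < (2 * C0 + 5) * a) (hx : H.d t y x < a) :
    H.d τ (z τ) x < 2 * L * a := by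
  have ha := T.a_pos
  have hL := T.L_ge
  have hC := T.C0_ge
  have h6 := T.out_lt ht hA hα hy.le (by nlinarith) hx (by nlinarith)
  nlinarith

end Tk

end Crest.Agent.N207.T

end
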