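import Crest.Agent.N207.T.Trk1

/-!
# Row 207 (helper36): cluster tracking, part 2: one stage
-/

set_option autoImplicit false
set_option linter.unusedSectionVars false
set_option linter.dupNamespace false

open scoped ContDiff Topology
open Set MeasureTheory Filter

noncomputable section

namespace Crest.Agent.N207.T

variable {M : Type*} [TopologicalSpace M] [CompactSpace M] [MeasurableSpace M]
  [OpensMeasurableSpace M] {H : HC M}

/-- the part of `U` outside the caps -/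
def Out (U : Set M) (F : Finset M) (Ω : M → Set M) : Set M := {y | y ∈ U ∧ ∀ w ∈ F, y ∉ Ω w}

/-- one stage -/
structure Sg (k : Kn H) (s τ a σ L ϑ A B δ C0 : ℝ) (z : ℝ → M) (ζ : ℝ → ℝ) (b α α' γ ρ : ℝ)
    (F : Finset M) (Ω : M → Set M) : Prop where
  T : Tk k s τ a σ L ϑ A B δ C0 z ζ
  hb : b ∈ Icc s τ
  ann : Ann H τ (z τ) ϑ k.ε0 b α (2 * L * a)
  cd : Cd k (H.B τ (z τ) (2 * L * a)) b γ ρ F Ω
  loc : ∀ w ∈ F, H.d τ (z τ) w < α
  α'_ge : α + 6 * ρ ≤ α'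
  α'_le : α' ≤ a
  Kρ : k.K * ρ ≤ σ
  ϑ_le : ϑ ≤ k.lam * (γ / 8)

namespace Sg

variable {k : Kn H} {s τ a σ L ϑ A B δ C0 : ℝ} {z : ℝ → M} {ζ : ℝ → ℝ} {b α α' γ ρ : ℝ}
  {F : Finset M} {Ω : M → Set M} (S : Sg k s τ a σ L ϑ A B δ C0 z ζ b α α' γ ρ F Ω)
include S

theorem γ_le : 44 * γ ≤ ρ := by
  have := S.cd.γρ
  have := k.K_ge
  have := S.cd.γ_pos
  nlinarith

theorem ρ_pos : 0 < ρ := by linarith [S.γ_le, S.cd.γ_pos]

theorem ρ_le : 44 * ρ ≤ k.K * ρ := by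
  have := k.K_ge
  have := S.ρ_pos
  nlinarith

theorem α_le : α ≤ a := by linarith [S.α'_ge, S.α'_le, S.ρ_pos]

theorem memb : b ∈ Ioo 0 H.T := S.T.mem S.hb

theorem θ_pos : 0 < k.lam * (γ / 8) := mul_pos k.lam_pos (by linarith [S.cd.γ_pos])

theorem θ_le : k.lam * (γ / 8) ≤ γ / 8 :=
  mul_le_of_le_one_left (by linarith [S.cd.γ_pos]) k.lam_le

theorem mem_out {w x : M} (hw : w ∈ F) (hx : H.d b w x < k.K * ρ) (hΩ : x ∉ Ω w) :
    x ∈ Out (H.B τ (z τ) (2 * L * a)) F Ω := by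
  have h1 := S.ρ_le
  have h2 := S.ρ_pos
  have ha := S.T.a_pos
  refine ⟨?_, fun w' hw' hx' => ?_⟩
  · have hL := S.T.L_ge
    have hC := S.T.C0_ge
    have h3 := S.Kρ.trans S.T.σ_le
    have := S.T.out_lt S.hb S.ann S.α_le (A' := a) ((S.loc w hw).le.trans S.α_le) S.α_le hx
      (by nlinarith)
    show H.d τ (z τ) x < 2 * L * a
    nlinarith
  · by_cases e : w = w'
    · exact hΩ (e ▸ hx')
    · have a1 := S.cd.sep w hw w' hw' e
      have a2 : H.d b w' x < 2 * ρ := (S.cd.cap w' hw').hi hx'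
      have a3 := S.T.ok.dist.tri b S.memb w x w'
      have a4 := S.T.ok.dist.symm b S.memb x w'
      linarith

theorem mem_out' {w x : M} (hw : w ∈ F) (h1 : 2 * ρ ≤ H.d b w x) (hx : H.d b w x < k.K * ρ) :
    x ∈ Out (H.B τ (z τ) (2 * L * a)) F Ω :=
  S.mem_out hw hx fun h => absurd ((S.cd.cap w hw).hi h) (not_lt.2 h1)

theorem ann_out {y : M} (h1 : α' ≤ H.d τ (z τ) y) (h2 : H.d τ (z τ) y < 2 * L * a) :
    y ∈ Out (H.B τ (z τ) (2 * L * a)) F Ω := by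
  refine ⟨h2, fun w hw hy => ?_⟩
  have a2 : H.d b w y < 2 * ρ := (S.cd.cap w hw).hi hy
  have hL := S.T.L_ge
  have hC := S.T.C0_ge
  have ha := S.T.a_pos
  have := S.T.out_lt S.hb S.ann S.α_le (S.loc w hw).le le_rfl a2
    (by nlinarith [S.α'_ge, S.α'_le, S.ρ_pos])
  linarith [S.α'_ge, S.ρ_pos]

/-- the first time at which the region outside the caps fails to be regular -/
theorem event : ∃ t ∈ Icc s b, (∀ u ∈ Ioc t b, ∀ y ∈ Out (H.B τ (z τ) (2 * L * a)) F Ω,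
    H.en u y (k.lam * (γ / 8)) ≤ k.ε0) ∧
    (t = s ∨ ∃ y ∈ Out (H.B τ (z τ) (2 * L * a)) F Ω, k.ε0 / 2 < H.en t y (γ / 8)) := by
  have hγ := S.cd.γ_pos
  obtain ⟨t, ht, h1, h2⟩ := exists_inf S.hb.1 (h := k.cP * (γ / 8) ^ 2)
    (by have := k.cP_pos; positivity)
    fun u => ∀ y ∈ Out (H.B τ (z τ) (2 * L * a)) F Ω, H.en u y (k.lam * (γ / 8)) ≤ k.ε0
  refine ⟨t, ht, h1, h2.imp_right fun h3 => ?_⟩
  by_contra hc
  push Not at hc
  refine h3 fun u hu hut y hy => k.pers t (S.T.late ⟨ht.1, ht.2.trans S.hb.2⟩) y _ (by positivity)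
    ?_ (hc y hy) u (S.T.mem ⟨hu.1, hu.2.trans S.hb.2⟩) hut
  linarith [S.γ_le, S.ρ_le, S.Kρ, S.T.σ_le, S.T.a_le]

variable {t : ℝ} (ht : t ∈ Icc s b) (hE : ∀ u ∈ Ioc t b,
  ∀ y ∈ Out (H.B τ (z τ) (2 * L * a)) F Ω, H.en u y (k.lam * (γ / 8)) ≤ k.ε0)
include ht

theorem ht' : t ∈ Icc s τ := ⟨ht.1, ht.2.trans S.hb.2⟩

theorem memt : t ∈ Ioo 0 H.T := S.T.mem (S.ht' ht)

include hE

theorem ann' : Ann H τ (z τ) ϑ k.ε0 t α' (2 * L * a) := fun u hu y h1 h2 => by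
  by_cases hub : u ≤ b
  · exact (en_mono S.T.ok (S.T.mem ⟨ht.1.trans hu.1.le, hu.2⟩) y S.ϑ_le).trans
      (hE u ⟨hu.1, hub⟩ y (S.ann_out h1 h2))
  · exact S.ann u ⟨not_le.1 hub, hu.2⟩ y (by linarith [S.α'_ge, S.ρ_pos]) h2

theorem reg : Reg H t b (Out (H.B τ (z τ) (2 * L * a)) F Ω) ζ A B :=
  S.T.reg ht.1 ht.2 S.hb.2 (S.ann' ht hE) S.α'_le (fun _ hy => hy.1) fun u hu y hy =>
    (en_mono S.T.ok (S.T.mem ⟨ht.1.trans hu.1.le, hu.2.le.trans S.hb.2⟩) y S.ϑ_le).trans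
      (hE u ⟨hu.1, hu.2.le⟩ y hy)

theorem cp2 : Cp H t b (Out (H.B τ (z τ) (2 * L * a)) F Ω) 2 :=
  ((S.reg ht hE).cp S.T.ok (S.T.exp_le ht.1 ht.2 S.hb.2)).1

theorem in_lt {w x y : M} (hw : w ∈ F) {A' r : ℝ} (hx : H.d b w x ≤ A') (hA' : 2 * ρ ≤ A')
    (hy : H.d t x y < r) (hr : A' + 2 * r ≤ k.K * ρ) : H.d b w y < A' + 2 * r :=
  cross_lt S.T.ok (S.memt ht) S.memb two_pos (S.cp2 ht hE)
    (fun _ h1 h2 => S.mem_out' hw h1.le h2) hx hA' hy hr

theorem tr {w : M} {r : ℝ} (hr : 0 < r) (hrσ : r ≤ σ)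
    (hG : ∀ x, r < H.d b w x → H.d b w x < 4 * r → x ∈ Out (H.B τ (z τ) (2 * L * a)) F Ω) :
    ∫ x in H.B b w r, H.N 0 t x ∂H.vol t ≤ H.en b w (2 * r) + k.η2 / 2 := by
  have h1 := k.tr (S.reg ht hE) (S.T.late (S.ht' ht)).1
    (by linarith [S.T.len, k.r1_le, ht.1, S.hb.2]) S.T.A_nn S.T.B_nn (S.T.exp_le ht.1 ht.2 S.hb.2)
    w r hr (by linarith [S.T.σ_le, S.T.a_le, k.r1_le]) hG
  have h2 := S.T.int_le ht.1 ht.2 S.hb.2
  have h3 := (S.reg ht hE).int_nonneg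
  have h4 := S.T.A_nn
  have h5 := S.T.B_nn
  have h6 := k.CT_pos
  have h8 := S.T.σ_pos
  have h7 : k.CT * (A * B * r ^ 3 * (∫ u in t..b, ζ u) + r ^ 2) ≤
      k.CT * (A * B * σ ^ 3 * δ + σ ^ 2) := by gcongr
  linarith [S.T.err]

theorem en_up {w : M} (hw : w ∈ F) :
    ∫ x in H.B b w (11 * ρ), H.N 0 t x ∂H.vol t ≤ H.en b w ρ + k.η2 := by
  have h0 := S.ρ_pos
  have h1 := S.ρ_le
  have h2 := S.tr ht hE (w := w) (r := 11 * ρ) (by positivity) (by linarith [S.Kρ])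
    fun x h1 h2 => S.mem_out' hw (by linarith) (by linarith)
  have h3 := en_mono S.T.ok S.memb w (show 2 * (11 * ρ) ≤ k.K * ρ by linarith)
  have h4 := en_mono S.T.ok S.memb w (show ρ / k.K ≤ ρ from div_le_self h0.le
    (by linarith [k.K_ge]))
  linarith [S.cd.ann w hw]

theorem ptw {y : M} (hy : y ∈ Out (H.B τ (z τ) (2 * L * a)) F Ω) :
    H.N 0 t y ≤ k.CE / (k.lam * (γ / 8)) ^ 4 := by
  have h0 := S.θ_pos
  have h1 : k.lam * (γ / 8) ≤ k.r1 := by
    linarith [S.θ_le, S.γ_le, S.ρ_le, S.Kρ, S.T.σ_le, S.T.a_le, S.cd.γ_pos]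
  have h2 : 0 < k.cE * (k.lam * (γ / 8)) ^ 2 := by have := k.cE_pos; positivity
  rcases le_total b (t + k.cE * (k.lam * (γ / 8)) ^ 2) with h | h
  · refine k.reg b (S.T.late S.hb) y _ h0 h1 ?_ t (S.memt ht) (abs_le.2 ⟨by linarith, ?_⟩)
    · have := en_mono S.T.ok S.memb y (show k.lam * (γ / 8) ≤ γ by
        linarith [S.θ_le, S.cd.γ_pos])
      linarith [S.cd.reg y hy.1 hy.2, k.ε0_pos]
    · linarith [ht.2]
  · exact k.reg _ (S.T.late ⟨by linarith [ht.1], h.trans S.hb.2⟩) y _ h0 h1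
      (hE _ ⟨by linarith, h⟩ y hy) t (S.memt ht) (abs_le.2 ⟨by linarith, by linarith⟩)

/-- concentration at a much smaller scale happens near the caps -/
theorem near {y : M} (hy : y ∈ H.B τ (z τ) (2 * L * a)) {r : ℝ} (hr : 0 < r)
    (hrμ : r ≤ k.μ * (k.lam * (γ / 8))) (he : k.ε0 / 8 < H.en t y r) :
    ∃ w ∈ F, H.d b w y < 3 * ρ := by
  have h0 := S.θ_pos
  have h1 : r ≤ γ / 8 := hrμ.trans ((mul_le_of_le_one_left h0.le k.μ_le).trans S.θ_le)
  have h2 := S.γ_le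
  have h3 := S.ρ_le
  have h4 := S.Kρ.trans S.T.σ_le
  have hd := S.T.deep (S.ht' ht) (S.ann' ht hE) S.α'_le hy hr (by linarith) he
  by_contra hc
  push Not at hc
  have hs : ∀ x ∈ H.B t y r, x ∈ Out (H.B τ (z τ) (2 * L * a)) F Ω := fun x hx => by
    have hx' : H.d t y x < r := hx
    refine ⟨S.T.deep2 (S.ht' ht) (S.ann' ht hE) S.α'_le hd (by linarith), fun w hw hΩ => ?_⟩
    have a1 : H.d b w x < 2 * ρ := (S.cd.cap w hw).hi hΩ
    have := S.in_lt ht hE hw a1.le le_rfl (y := y) (r := r)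
      (by rw [S.T.ok.dist.symm t (S.memt ht)]; exact hx') (by linarith)
    linarith [hc w hw]
  have := S.T.ok.int.fin t (S.memt ht)
  have a1 : H.en t y r ≤ ∫ _x in H.B t y r, k.CE / (k.lam * (γ / 8)) ^ 4 ∂H.vol t :=
    setIntegral_mono_on (S.T.ok.alg.integrable S.T.ok.int (S.memt ht)
      (S.T.ok.alg.s0_N (S.memt ht) 0)).integrableOn (integrable_const _).integrableOn
      (HC.isOpen_B S.T.ok.dist (S.memt ht) _ _).measurableSet fun x hx => S.ptw ht hE (hs x hx)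
  rw [setIntegral_const, smul_eq_mul] at a1
  have a2 := k.up t (S.T.late (S.ht' ht)) y r hr
  have a3 := k.CE_pos
  have a4 := k.CV_pos
  have a5 : (H.vol t).real (H.B t y r) * (k.CE / (k.lam * (γ / 8)) ^ 4) ≤
      k.CV * (k.μ * (k.lam * (γ / 8))) ^ 4 * (k.CE / (k.lam * (γ / 8)) ^ 4) := by
    gcongr
    exact a2.trans (by gcongr)
  have a6 : k.CV * (k.μ * (k.lam * (γ / 8))) ^ 4 * (k.CE / (k.lam * (γ / 8)) ^ 4) =
      k.CE * k.CV * k.μ ^ 4 := by
    generalize k.lam * (γ / 8) = θ at h0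
    field_simp
  linarith [k.μ_en]

/-- the event happens near a cap -/
theorem caseA {y : M} (hy : y ∈ Out (H.B τ (z τ) (2 * L * a)) F Ω)
    (he : k.ε0 / 2 < H.en t y (γ / 8)) : ∃ w ∈ F, H.d b w y < 3 * ρ := by
  have h0 := S.cd.γ_pos
  have h2 := S.γ_le
  have h3 := S.ρ_le
  have h4 := S.Kρ
  have h5 := S.T.σ_le
  have hε := k.ε0_pos
  have hd := S.T.deep (S.ht' ht) (S.ann' ht hE) S.α'_le hy.1 (r := γ / 8) (by positivity)
    (by linarith) (by linarith)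
  by_contra hc
  push Not at hc
  have hs : ∀ x, H.d b y x < γ → x ∈ Out (H.B τ (z τ) (2 * L * a)) F Ω := fun x hx => by
    refine ⟨S.T.deep2 S.hb S.ann S.α_le hd (by linarith), fun w hw hΩ => ?_⟩
    have a1 : H.d b w x < 2 * ρ := (S.cd.cap w hw).hi hΩ
    have a2 := S.T.ok.dist.tri b S.memb w x y
    have a3 := S.T.ok.dist.symm b S.memb x y
    linarith [hc w hw]
  have a1 := S.tr ht hE (w := y) (r := γ / 4) (by positivity) (by linarith)
    fun x _ h => hs x (by linarith)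
  have a2 : H.en t y (γ / 8) ≤ ∫ x in H.B b y (γ / 4), H.N 0 t x ∂H.vol t :=
    intN_mono S.T.ok (S.memt ht) fun x hx => by
      have := cross_lt S.T.ok (S.memt ht) S.memb two_pos (S.cp2 ht hE) (w := y) (α := 0) (β := γ)
        (fun x _ h => hs x h) (x := y) (A := 0) (S.T.ok.dist.self b S.memb y).le le_rfl hx
        (by linarith)
      show H.d b y x < γ / 4
      linarith
  have a3 := en_mono S.T.ok S.memb y (show 2 * (γ / 4) ≤ γ by linarith)
  linarith [S.cd.reg y hy.1 hy.2, k.η2_le, k.ε3_le]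

/-- the whole energy of a cluster does not leave its cap -/
theorem caseB {w y : M} (hw : w ∈ F) (hy : y ∈ Out (H.B τ (z τ) (2 * L * a)) F Ω)
    (hd : H.d b w y < 3 * ρ) : H.en t y (k.β * ρ) ≤ H.en b w ρ - k.ε3 := by
  by_contra hc
  push Not at hc
  have h0 := S.ρ_pos
  have h3 := S.ρ_le
  have h4 := S.Kρ
  have hθ := k.θv_pos
  have hΛ := k.Λ_gt
  have a1 : H.en t y (4 * ρ) ≤ ∫ x in H.B b w (11 * ρ), H.N 0 t x ∂H.vol t :=
    intN_mono S.T.ok (S.memt ht) fun x hx => by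
      have := S.in_lt ht hE hw hd.le (by linarith) hx (by linarith)
      show H.d b w x < 11 * ρ
      linarith
  have a2 := S.en_up ht hE hw
  have a3 := en_mono S.T.ok S.memb w (show γ ≤ ρ by linarith [S.γ_le, S.cd.γ_pos])
  have a4 := k.nv t (S.T.late (S.ht' ht)) y ρ h0 (by linarith [S.T.σ_le, S.T.a_le])
    (by linarith [S.cd.en w hw, k.ε3_le]) (by linarith)
  obtain ⟨W, hW, hv, hl⟩ := (S.cd.cap w hw).big y (show H.d b w y < 4 * ρ by linarith) (hy.2 w hw)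
  have hx1 : 0 < Real.exp δ := Real.exp_pos _
  have cp := ((S.reg ht hE).cp S.T.ok
    (Real.exp_le_exp.2 (S.T.int_le ht.1 ht.2 S.hb.2))).2
  have hsub : W ⊆ H.B t y (k.Λ * (k.θv * ρ)) := fun x hx => by
    have he : 0 < (k.Λ - Real.exp δ) * (k.θv * ρ) / 4 := by
      have := S.T.exp_lt
      have : 0 < k.Λ - Real.exp δ := by linarith
      positivity
    obtain ⟨u, hu, hu1, hu2⟩ := S.T.ok.dist.approx t (S.memt ht) y _ he
    have b1 := hl u hu (Real.exp δ) hx1.le (fun v hv hΩ => by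
      have b2 : H.d b w v < 8 * ρ := hv
      refine (cp u hu v (S.mem_out hw (by linarith) hΩ)).trans ?_
      exact mul_le_of_le_one_right (sq_nonneg _) (hu1 v)) x hx
    have b2 := abs_le.1 (hu2 x)
    have b3 := abs_le.1 (hu2 y)
    rw [S.T.ok.dist.self t (S.memt ht)] at b3
    have b4 := (abs_le.1 b1).2
    show H.d t y x < k.Λ * (k.θv * ρ)
    nlinarith
  have := S.T.ok.int.fin t (S.memt ht)
  have a5 := k.vol t (S.memt ht) b S.memb
    (abs_le.2 ⟨by linarith [ht.2, S.T.σ_pos, S.T.σ_le, S.T.a_le],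
      by linarith [S.T.len, ht.1, S.hb.2]⟩) W
  have a6 : (H.vol t).real W ≤ k.v1 * (k.Λ * (k.θv * ρ)) ^ 4 := (measureReal_mono hsub).trans a4
  have a7 : k.Λ * (H.vol t).real W ≤ k.Λ * (k.v1 * (k.Λ * (k.θv * ρ)) ^ 4) := by gcongr
  have a8 : k.Λ ^ 5 * k.v1 * (k.θv * ρ) ^ 4 < k.v2 * (k.θv * ρ) ^ 4 :=
    mul_lt_mul_of_pos_right k.v12 (by positivity)
  nlinarith

/-- the potential drops -/
theorem pot {y : M} (hy : y ∈ Out (H.B τ (z τ) (2 * L * a)) F Ω)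
    (he : k.ε0 / 2 < H.en t y (γ / 8)) {γ' ρ' : ℝ} {F' : Finset M} {Ω' : M → Set M}
    (C : Cd k (H.B τ (z τ) (2 * L * a)) t γ' ρ' F' Ω')
    (hρ : k.K * ρ' ≤ k.μ * (k.lam * (γ / 8))) :
    (∀ w ∈ F', H.d τ (z τ) w < α') ∧
      ∑ w ∈ F', H.en t w ρ' ^ 2 ≤ ∑ w ∈ F, H.en b w ρ ^ 2 - k.ε3 * k.ε0 / 32 := by
  classical
  have h0 := S.ρ_pos
  have h1 := S.γ_le
  have h2 := S.ρ_le
  have hK := k.K_ge
  have hγ' := C.γ_pos
  have hγρ := C.γρ
  have hρ' : 0 < ρ' := by nlinarith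
  have hγ'' : γ' ≤ ρ' := by nlinarith
  have hρK : 44 * ρ' ≤ k.K * ρ' := by nlinarith
  have hθ : k.μ * (k.lam * (γ / 8)) ≤ γ / 8 :=
    (mul_le_of_le_one_left S.θ_pos.le k.μ_le).trans S.θ_le
  have ok := S.T.ok
  have mt := S.memt ht
  have hex : ∀ v, ∃ w, v ∈ F' → w ∈ F ∧ H.d b w v < 3 * ρ := fun v => by
    by_cases hv : v ∈ F'
    · obtain ⟨w, hw, hd⟩ := S.near ht hE (C.mem v hv) hγ' (by linarith) (C.en v hv)
      exact ⟨w, fun _ => ⟨hw, hd⟩⟩
    · exact ⟨v, fun h => absurd h hv⟩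
  choose π hπ using hex
  constructor
  · intro v hv
    have hL := S.T.L_ge
    have hC := S.T.C0_ge
    have ha := S.T.a_pos
    have := S.T.out_lt S.hb S.ann S.α_le (S.loc _ (hπ v hv).1).le le_rfl (hπ v hv).2
      (by nlinarith [S.α'_ge, S.α'_le])
    linarith [S.α'_ge]
  obtain ⟨w0, hw0, hd0⟩ := S.caseA ht hE hy he
  have hB := S.caseB ht hE hw0 hy hd0
  have sub : ∀ v ∈ F', H.B t v ρ' ⊆ H.B b (π v) (11 * ρ) := fun v hv x hx => by
    have := S.in_lt ht hE (hπ v hv).1 (hπ v hv).2.le (by linarith) hx (by linarith)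
    show H.d b (π v) x < 11 * ρ
    linarith
  have sum_le : ∀ p ∈ F, ∑ v ∈ F' with π v = p, H.en t v ρ' ≤ H.en b p ρ + k.η2 := fun p hp =>
    (sum_en_le ok mt _ (fun i hi j hj hij => by
        linarith [C.sep i (Finset.mem_filter.1 hi).1 j (Finset.mem_filter.1 hj).1 hij])
      fun i hi => (Finset.mem_filter.1 hi).2 ▸ sub i (Finset.mem_filter.1 hi).1).trans
      (S.en_up ht hE hp)
  have nn : ∀ v, 0 ≤ H.en t v ρ' := fun v => HC.en_nonneg ok.evo mt v ρ'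
  have hβ : γ ≤ k.β * ρ := by
    have a1 := S.cd.γρ
    have a2 := k.Kβ
    have a3 := S.cd.γ_pos
    have a4 : 0 < k.β := by nlinarith
    nlinarith
  have one : ∀ v ∈ F', π v = w0 → H.en t v ρ' ≤ H.en b w0 ρ - k.ε3 := fun v hv e => by
    by_cases hc : H.d t y v < k.β * ρ / 2
    · refine le_trans (intN_mono ok mt fun x hx => ?_) hB
      have a1 : H.d t v x < ρ' := hx
      have a2 := ok.dist.tri t mt y v x
      show H.d t y x < k.β * ρ
      linarith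
    · have iN := (ok.alg.integrable ok.int mt (ok.alg.s0_N mt 0))
      have a1 := setIntegral_union (μ := H.vol t) (f := H.N 0 t) (s := H.B t v ρ')
        (t := H.B t y (γ / 8)) (Set.disjoint_left.2 fun x h1 h2 => by
          have a1 : H.d t v x < ρ' := h1
          have a2 : H.d t y x < γ / 8 := h2
          have a3 := ok.dist.tri t mt y x v
          have a4 := ok.dist.symm t mt x v
          linarith [S.cd.γ_pos]) (HC.isOpen_B ok.dist mt _ _).measurableSet iN.integrableOn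
        iN.integrableOn
      have a2 := intN_mono ok mt (S := H.B t v ρ' ∪ H.B t y (γ / 8)) (S' := H.B b w0 (11 * ρ))
        (union_subset (e ▸ sub v hv) fun x hx => by
          have := S.in_lt ht hE hw0 hd0.le (by linarith) hx (by linarith)
          show H.d b w0 x < 11 * ρ
          linarith)
      have a3 := S.en_up ht hE hw0
      unfold HC.en at he a3 ⊢
      linarith [k.η2_le, k.ε3_le, k.ε0_pos]
  have enE : ∀ p, H.en b p ρ ≤ k.E := fun p =>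
    (intN_le ok S.memb _).trans (k.hE b (S.T.late S.hb))
  have hη := k.η2_pos
  have inner : ∀ p ∈ F, ∑ v ∈ F' with π v = p, H.en t v ρ' ^ 2 ≤ H.en b p ρ ^ 2 +
      k.η2 * (2 * k.E + 1) - if p = w0 then k.ε3 * k.ε0 / 16 else 0 := fun p hp => by
    have e0 := HC.en_nonneg ok.evo S.memb p ρ
    have e1 := enE p
    have key : ∀ m, 0 ≤ m → (∀ v ∈ F', π v = p → H.en t v ρ' ≤ m) →
        ∑ v ∈ F' with π v = p, H.en t v ρ' ^ 2 ≤ m * (H.en b p ρ + k.η2) := fun m hm h =>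
      calc _ ≤ ∑ v ∈ F' with π v = p, m * H.en t v ρ' := Finset.sum_le_sum fun v hv => by
            rw [sq]
            exact mul_le_mul_of_nonneg_right
              (h v (Finset.mem_filter.1 hv).1 (Finset.mem_filter.1 hv).2) (nn v)
        _ = m * ∑ v ∈ F' with π v = p, H.en t v ρ' := by rw [Finset.mul_sum]
        _ ≤ _ := mul_le_mul_of_nonneg_left (sum_le p hp) hm
    split_ifs with e
    · subst e
      have a3 := en_mono ok S.memb p (show γ ≤ ρ by linarith [S.cd.γ_pos])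
      have a4 := S.cd.en p hp
      have a5 := key _ (by linarith [k.ε3_le, k.ε0_pos]) one
      have a6 := k.η2_le
      have a7 := k.ε3_pos
      have a8 : k.ε3 / 2 * (k.ε0 / 8) ≤ (k.ε3 - k.η2) * H.en b p ρ :=
        mul_le_mul (by linarith) (by linarith) (by linarith [k.ε0_pos]) (by linarith)
      nlinarith [mul_pos hη a7, mul_nonneg hη.le (show 0 ≤ 2 * k.E + 1 by linarith)]
    · have a5 := key (H.en b p ρ + k.η2) (by linarith) fun v hv e' =>
        (Finset.single_le_sum (f := fun v => H.en t v ρ') (fun v _ => nn v)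
          (Finset.mem_filter.2 ⟨hv, e'⟩)).trans (sum_le p hp)
      nlinarith [k.η2_le1]
  rw [← Finset.sum_fiberwise_of_maps_to (g := π) (t := F) fun v hv => (hπ v hv).1]
  refine (Finset.sum_le_sum inner).trans ?_
  rw [Finset.sum_sub_distrib, Finset.sum_add_distrib, Finset.sum_ite_eq' F w0, if_pos hw0,
    Finset.sum_const, nsmul_eq_mul]
  have c1 : (F.card : ℝ) ≤ 8 * k.E / k.ε0 := by
    rw [le_div_iff₀ k.ε0_pos]; linarith [S.cd.card]
  have c2 : (F.card : ℝ) * (k.η2 * (2 * k.E + 1)) ≤ 8 * k.E / k.ε0 * (k.η2 * (2 * k.E + 1)) :=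
    mul_le_mul_of_nonneg_right c1 (mul_nonneg hη.le (by
      linarith [enE w0, HC.en_nonneg ok.evo S.memb w0 ρ]))
  linarith [k.η2_pot]

end Sg

end Crest.Agent.N207.T

end
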