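import Crest.Agent.N207.T.Trk2

/-!
# Row 207 (helper36): cluster tracking, part 3: the induction, the constants, `TRKZ`
-/

set_option autoImplicit false
set_option linter.unusedSectionVars false

open scoped ContDiff Topology
open Set MeasureTheory Filter

noncomputable section

namespace Crest.Agent.N207.T

variable {M : Type*} [TopologicalSpace M] [CompactSpace M] [MeasurableSpace M]
  [OpensMeasurableSpace M] {H : HC M}

/-- clusters exist at every scale -/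
def HCd (k : Kn H) (g : ℝ) : Prop :=
  ∀ t ∈ Ico (H.T / 2) H.T, ∀ (U : Set M) (r : ℝ), 0 < r → r ≤ k.r1 →
    ∃ (F : Finset M) (ρ : ℝ) (Ω : M → Set M), Cd k U t (g * r) ρ F Ω ∧ k.K * ρ ≤ r

theorem core {k : Kn H} {s τ a σ L ϑ A B δ C0 : ℝ} {z : ℝ → M} {ζ : ℝ → ℝ}
    (T : Tk k s τ a σ L ϑ A B δ C0 z ζ) {g : ℝ} (hg : 0 < g) (hg1 : g ≤ 1) (hcd : HCd k g) {N : ℕ}
    (hN : k.E ^ 2 < N * (k.ε3 * k.ε0 / 32))
    (hϑ : ϑ ≤ k.lam * (g * (σ / (N + 1) * (k.μ * k.lam * g / 8) ^ N) / 8))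
    (h0 : ∀ y, H.d τ (z τ) y < 2 * L * a → ∀ r, 0 < r → r ≤ a → k.ε0 / 8 < H.en τ y r →
      H.d τ (z τ) y < 2 * r + σ / 8) : Ann H τ (z τ) ϑ k.ε0 s σ (2 * L * a) := by
  set q := k.μ * k.lam * g / 8 with hq
  have hσ := T.σ_pos
  have hK := k.K_ge
  have hl := k.lam_pos
  have q0 : 0 < q := by have := k.μ_pos; positivity
  have q1 : q ≤ 1 := by
    have a1 : k.μ * k.lam ≤ 1 := mul_le_one₀ k.μ_le hl.le k.lam_le
    have a2 : k.μ * k.lam * g ≤ 1 := mul_le_one₀ a1 hg.le hg1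
    linarith
  have hN1 : (1 : ℝ) ≤ N + 1 := by linarith [Nat.cast_nonneg (α := ℝ) N]
  have r0 : 0 < σ / (N + 1) := by positivity
  have r0σ : σ / (N + 1) ≤ σ := div_le_self hσ.le hN1
  have rj : ∀ j : ℕ, σ / (N + 1) * q ^ j ≤ σ / (N + 1) := fun j =>
    mul_le_of_le_one_right r0.le (pow_le_one₀ q0.le q1)
  have key : ∀ j : ℕ, j ≤ N → Ann H τ (z τ) ϑ k.ε0 s σ (2 * L * a) ∨
      ∃ (b : ℝ) (F : Finset M) (ρ : ℝ) (Ω : M → Set M), b ∈ Icc s τ ∧
        Ann H τ (z τ) ϑ k.ε0 b (σ / 2 + j * (σ / (N + 1) / 2)) (2 * L * a) ∧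
        Cd k (H.B τ (z τ) (2 * L * a)) b (g * (σ / (N + 1) * q ^ j)) ρ F Ω ∧
        k.K * ρ ≤ σ / (N + 1) * q ^ j ∧
        (∀ w ∈ F, H.d τ (z τ) w < σ / 2 + j * (σ / (N + 1) / 2)) ∧
        ∑ w ∈ F, H.en b w ρ ^ 2 ≤ k.E ^ 2 - j * (k.ε3 * k.ε0 / 32) := fun j => by
    induction j with
    | zero =>
      intro _
      obtain ⟨F, ρ, Ω, C, hρ⟩ := hcd τ (T.late ⟨T.le, le_rfl⟩) (H.B τ (z τ) (2 * L * a))
        (σ / (N + 1) * q ^ 0) (by positivity) (by linarith [rj 0, T.σ_le, T.a_le])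
      have c1 := C.γ_pos
      have c2 := C.γρ
      have c3 : 0 < ρ := by nlinarith
      have c4 : 44 * (g * (σ / (N + 1) * q ^ 0)) ≤ ρ := by nlinarith
      have c5 : 44 * ρ ≤ k.K * ρ := by nlinarith
      refine Or.inr ⟨τ, F, ρ, Ω, ⟨T.le, le_rfl⟩, fun t ht => absurd ht.1 (not_lt.2 ht.2), C, hρ,
        fun w hw => ?_, ?_⟩
      · have := h0 w (C.mem w hw) _ c1 (by linarith [rj 0, T.σ_le]) (C.en w hw)
        simp only [Nat.cast_zero, zero_mul, add_zero]
        linarith [rj 0]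
      · have hE := k.hE τ (T.late ⟨T.le, le_rfl⟩)
        have a1 := (sum_en_le T.ok T.memτ F (r := ρ) (W := univ)
          (fun i hi j hj hij => by linarith [C.sep i hi j hj hij]) fun _ _ => subset_univ _).trans
          ((intN_le T.ok T.memτ _).trans hE)
        have E0 : 0 ≤ k.E := (integral_nonneg fun y => T.ok.evo.N_nonneg 0 τ T.memτ y).trans hE
        calc _ ≤ ∑ w ∈ F, k.E * H.en τ w ρ := Finset.sum_le_sum fun v _ => by
              rw [sq]
              exact mul_le_mul_of_nonneg_right ((intN_le T.ok T.memτ _).trans hE)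
                (HC.en_nonneg T.ok.evo T.memτ v ρ)
          _ = k.E * ∑ w ∈ F, H.en τ w ρ := by rw [Finset.mul_sum]
          _ ≤ k.E * k.E := mul_le_mul_of_nonneg_left a1 E0
          _ = _ := by simp [sq]
    | succ j ih =>
      intro hj
      rcases ih (Nat.le_of_succ_le hj) with h | ⟨b, F, ρ, Ω, hb, hA, C, hρ, hloc, hΦ⟩
      · exact Or.inl h
      have c1 := C.γ_pos
      have c2 := C.γρ
      have c3 : 0 < ρ := by nlinarith
      have c5 : 44 * ρ ≤ k.K * ρ := by nlinarith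
      have hj' : ((j + 1 : ℕ) : ℝ) ≤ N + 1 := by
        have : ((j + 1 : ℕ) : ℝ) ≤ N := by exact_mod_cast hj
        linarith
      have hα : σ / 2 + ((j + 1 : ℕ) : ℝ) * (σ / (N + 1) / 2) ≤ σ := by
        have a1 : ((j + 1 : ℕ) : ℝ) * (σ / (N + 1) / 2) ≤ (N + 1) * (σ / (N + 1) / 2) := by gcongr
        have a2 : ((N : ℝ) + 1) * (σ / (N + 1) / 2) = σ / 2 := by field_simp
        linarith
      have S : Sg k s τ a σ L ϑ A B δ C0 z ζ b (σ / 2 + j * (σ / (N + 1) / 2))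
          (σ / 2 + ((j + 1 : ℕ) : ℝ) * (σ / (N + 1) / 2)) (g * (σ / (N + 1) * q ^ j)) ρ F Ω :=
        ⟨T, hb, hA, C, hloc, by push_cast; linarith [rj j], hα.trans T.σ_le, by linarith [rj j],
          hϑ.trans (by
            have : q ^ N ≤ q ^ j := pow_le_pow_of_le_one q0.le q1 (Nat.le_of_succ_le hj)
            gcongr)⟩
      obtain ⟨t, ht, hE, h | ⟨y, hy, he⟩⟩ := S.event
      · exact Or.inl ((h ▸ S.ann' ht hE).mono le_rfl hα)
      obtain ⟨F', ρ', Ω', C', hρ'⟩ := hcd t (T.late (S.ht' ht)) (H.B τ (z τ) (2 * L * a))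
        (σ / (N + 1) * q ^ (j + 1)) (by positivity) (by linarith [rj (j + 1), T.σ_le, T.a_le])
      obtain ⟨p1, p2⟩ := S.pot ht hE hy he C' (hρ'.trans_eq (by rw [pow_succ, hq]; ring))
      exact Or.inr ⟨t, F', ρ', Ω', S.ht' ht, S.ann' ht hE, C', hρ', p1, by push_cast; linarith⟩
  rcases key N le_rfl with h | ⟨b, F, ρ, Ω, -, -, -, -, -, hΦ⟩
  · exact h
  · have : 0 ≤ ∑ w ∈ F, H.en b w ρ ^ 2 := Finset.sum_nonneg fun _ _ => sq_nonneg _
    linarith

theorem exists_kn (h : H.Ok) (c : H.COut) (d : H.DOut) (hP : H.EPers) (hR : H.EReg) (hNV : NV H)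
    (hCL : CL H) {ε : ℝ} (hε : 0 < ε) :
    ∃ (k : Kn H) (g : ℝ), k.ε0 ≤ ε ∧ 0 < k.r1 ∧ 0 < g ∧ g ≤ 1 ∧ HCd k g := by
  classical
  have hT : 0 < H.T / 2 := half_pos h.alg.T_pos
  have mem : ∀ t ∈ Ico (H.T / 2) H.T, t ∈ Ioo 0 H.T := fun t ht => ⟨hT.trans_le ht.1, ht.2⟩
  obtain ⟨εE, cE, rE, hεE, hcE, hrE, -, hreg⟩ := hR _ hT
  obtain ⟨CE, hCE, hreg⟩ := hreg 0
  set ε0 := min ε εE with hε0
  have e0 : 0 < ε0 := lt_min hε hεE
  obtain ⟨cP, lam, rP, hcP, hlam, hrP, hpers⟩ := hP _ hT (ε0 / 2) (by positivity)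
  obtain ⟨E, hE, hEN, -⟩ := d.glob _ hT
  obtain ⟨CV, hCV, hup⟩ := c.up _ hT
  obtain ⟨D, CT, -, hCT, htr⟩ := tr2 h c d
  obtain ⟨θ, v1, v2, hθ, -, hv1, hv12, ⟨KN, rN, n0, hKN, hrN, hlo⟩, εU, β, rU, hεU, hβ, hβ1, hrU,
    hnv⟩ := hNV (ε0 / 16) (by positivity)
  obtain ⟨Λ, hΛ1, hΛ2, hΛ⟩ : ∃ Λ : ℝ, 1 < Λ ∧ Λ ≤ 2 ∧ Λ ^ 5 * v1 < v2 := by
    have h1 : ∀ᶠ x : ℝ in 𝓝 1, x ^ 5 * v1 < v2 :=
      (by fun_prop : Continuous fun x : ℝ => x ^ 5 * v1).continuousAt.eventually_lt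
        continuousAt_const (by simpa using hv12)
    have h2 : ∀ᶠ x : ℝ in 𝓝 1, x < 2 := eventually_lt_nhds one_lt_two
    obtain ⟨x, hx1, hx2⟩ := (((h1.and h2).filter_mono nhdsWithin_le_nhds).and
      (self_mem_nhdsWithin : Ioi (1 : ℝ) ∈ 𝓝[>] 1)).exists
    exact ⟨x, hx2, hx1.2.le, hx1.1⟩
  obtain ⟨KR, hKR⟩ := h.evo.R_bd
  have hKR' : ∀ t ∈ Ioo 0 H.T, ∀ x, |H.R t x| ≤ |KR| + 1 := fun t ht x => by
    linarith [hKR t ht x, le_abs_self KR]
  have hlog : 0 < Real.log Λ / (|KR| + 1) := div_pos (Real.log_pos hΛ1) (by positivity)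
  set ε3 := min (ε0 / 16) (εU / 2) with hε3
  have e3 : 0 < ε3 := lt_min (by positivity) (by positivity)
  set η2 := min (min (ε3 / 2) 1) (ε3 * ε0 / 32 / (8 * E / ε0 * (2 * E + 1))) with hη2
  have e2 : 0 < η2 := lt_min (lt_min (by positivity) one_pos) (by positivity)
  have e23 : η2 ≤ ε3 / 2 := (min_le_left _ _).trans (min_le_left _ _)
  set μ := min 1 (ε0 / 8 / (CE * (εE + 1) * CV)) with hμ
  have m0 : 0 < μ := lt_min one_pos (by positivity)
  set K := max 44 (max KN (1 / β)) with hK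
  set r1 := min (min (min 1 rE) (min rP rU)) (min rN (Real.log Λ / (|KR| + 1))) with hr1
  have r10 : 0 < r1 := lt_min (lt_min (lt_min one_pos hrE) (lt_min hrP hrU)) (lt_min hrN hlog)
  have r11 : r1 ≤ 1 := (min_le_left _ _).trans ((min_le_left _ _).trans (min_le_left _ _))
  have r1E : r1 ≤ rE := (min_le_left _ _).trans ((min_le_left _ _).trans (min_le_right _ _))
  have r1P : r1 ≤ rP := (min_le_left _ _).trans ((min_le_right _ _).trans (min_le_left _ _))
  have r1U : r1 ≤ rU := (min_le_left _ _).trans ((min_le_right _ _).trans (min_le_right _ _))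
  have r1N : r1 ≤ rN := (min_le_right _ _).trans (min_le_left _ _)
  have r1L : r1 ≤ Real.log Λ / (|KR| + 1) := (min_le_right _ _).trans (min_le_right _ _)
  have K44 : 44 ≤ K := le_max_left _ _
  have KKN : KN ≤ K := (le_max_left _ _).trans (le_max_right _ _)
  obtain ⟨g, hg, hcl⟩ := hCL (ε0 / 8) (η2 / 2) K E n0 (by positivity) (by positivity)
    (by linarith)
  let k : Kn H :=
    { ε0 := ε0, E := E, K := K, cP := cP, lam := min lam 1, cE := cE, CE := CE * (εE + 1), CV := CV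
      CT := CT, β := β, θv := θ, v1 := v1, v2 := v2, Λ := Λ, ε3 := ε3, η2 := η2, μ := μ, r1 := r1
      ε0_pos := e0, hE := hEN, K_ge := K44, cP_pos := hcP, lam_pos := lt_min hlam one_pos
      lam_le := min_le_right _ _, cE_pos := hcE, CE_pos := by positivity, CV_pos := hCV
      CT_pos := hCT, β_le := hβ1
      Kβ := by
        have : 1 / β ≤ K := (le_max_right _ _).trans (le_max_right _ _)
        rwa [div_le_iff₀ hβ] at this
      θv_pos := hθ, v1_pos := hv1, Λ_gt := hΛ1, Λ_le := hΛ2, v12 := hΛ, ε3_pos := e3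
      ε3_le := min_le_left _ _, η2_pos := e2, η2_le := e23
      η2_le1 := (min_le_left _ _).trans (min_le_right _ _)
      η2_pot := by
        have : η2 ≤ ε3 * ε0 / 32 / (8 * E / ε0 * (2 * E + 1)) := min_le_right _ _
        rw [le_div_iff₀ (by positivity)] at this
        linarith
      μ_pos := m0, μ_le := min_le_left _ _
      μ_en := by
        have a1 : μ ≤ ε0 / 8 / (CE * (εE + 1) * CV) := min_le_right _ _
        rw [le_div_iff₀ (by positivity)] at a1
        have a2 : μ ^ 4 ≤ μ := pow_le_of_le_one m0.le (min_le_left _ _) (by norm_num)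
        have a3 : CE * (εE + 1) * CV * μ ^ 4 ≤ CE * (εE + 1) * CV * μ := by gcongr
        linarith
      r1_le := r11
      pers := fun t ht x r hr hr1 he u hu hut => by
        have a1 := hpers t ht x r hr (hr1.trans r1P) he u hu hut
        have a2 := en_mono h hu x (show min lam 1 * r ≤ lam * r by
          gcongr; exact min_le_left _ _)
        linarith
      reg := fun t ht x r hr hr1 he u hu hut => by
        have a0 : H.en t x r ≤ εE := he.trans (min_le_right _ _)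
        have a1 := ((hreg t ht x r hr (hr1.trans r1E) a0 x (show H.d t x x < r / 2 by
          rw [h.dist.self t (mem t ht)]; positivity)).1 u hu hut).1
        refine a1.trans ?_
        simp only [mul_zero, add_zero]
        gcongr
        exact hr1.trans r11
      up := hup
      tr := fun R h1 h2 h3 h4 h5 w α h6 h7 h8 => (htr R h1 h2 h3 h4 h5 w α h6 h7 h8).2.1
      nv := fun t ht y ρ hρ hρ1 h1 h2 => hnv t ht y ρ hρ (hρ1.trans r1U) h1
        (by linarith [show ε3 ≤ εU / 2 from min_le_right _ _]) _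
        ⟨le_mul_of_one_le_left (by positivity) hΛ1.le, by gcongr⟩
      vol := fun u hu t ht hut S => by
        have := h.int.fin u hu
        have a1 := h.int.vol_le hKR' u hu t ht S
        have a2 : Real.exp ((|KR| + 1) * |t - u|) ≤ Λ := by
          rw [← Real.exp_log (by linarith : 0 < Λ), Real.exp_le_exp]
          have := hut.trans r1L
          rw [le_div_iff₀ (by positivity)] at this
          linarith
        rw [Measure.smul_apply, smul_eq_mul] at a1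
        have a3 := ENNReal.toReal_mono (ENNReal.mul_ne_top ENNReal.ofReal_ne_top
          (measure_ne_top _ _)) a1
        rw [ENNReal.toReal_mul, ENNReal.toReal_ofReal (Real.exp_pos _).le] at a3
        exact a3.trans (mul_le_mul_of_nonneg_right a2 ENNReal.toReal_nonneg) }
  have hcd : HCd k g := fun t ht U r hr hr1 => by
    choose Bad hBad hcap using hlo t ht
    obtain ⟨F, ρ, f1, f2, f3, f4, f5, f6, f7, f8, f9⟩ := hcl t (mem t ht) (hEN t ht) U r Bad hr hBad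
    have gr : 0 < g * r := by positivity
    have ρ0 : 0 < ρ := by nlinarith
    have a1 : ρ / K ≤ ρ / KN := by gcongr
    have a2 : KN * ρ ≤ K * ρ := by gcongr
    have hex : ∀ w, ∃ Ω : Set M, w ∈ F → Cap H t w ρ θ v2 Ω := fun w => by
      by_cases hw : w ∈ F
      · obtain ⟨Ω, hΩ⟩ := hcap w ρ ρ0 (by linarith [show r ≤ r1 from hr1])
          (fun j hj => (f8 w hw j hj).imp (fun h => h.trans_le a1) fun h => a2.trans_lt h) (by
            have := en_mono h (mem t ht) w (show g * r ≤ ρ / KN from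
              le_trans (by rw [le_div_iff₀ (by linarith)]; linarith) a1)
            linarith [f5 w hw])
        exact ⟨Ω, fun _ => hΩ⟩
      · exact ⟨∅, fun h => absurd h hw⟩
    choose Ω hΩ using hex
    exact ⟨F, ρ, Ω, ⟨f1, gr, f2, f4, f5, f6, f7, hΩ, fun y hy h => f9 y hy fun w hw =>
      not_lt.1 fun hc => h w hw ((hΩ w hw).lo hc)⟩, f3⟩
  refine ⟨k, g, min_le_left _ _, r10, hg, ?_, hcd⟩
  obtain ⟨F, ρ, Ω, C, hρ⟩ := hcd (H.T / 2) ⟨le_rfl, by linarith⟩ univ r1 r10 le_rfl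
  have a1 : K * (g * r1) ≤ ρ := C.γρ
  have a2 : K * ρ ≤ r1 := hρ
  have a3 : 0 < g * r1 := by positivity
  have a5 : g * r1 ≤ K * (g * r1) := le_mul_of_one_le_left a3.le (by linarith)
  have a6 : ρ ≤ K * ρ := le_mul_of_one_le_left (by linarith) (by linarith)
  have a4 : g * r1 ≤ 1 * r1 := by linarith
  exact le_of_mul_le_mul_right a4 r10

theorem Conc.mono {t : ℝ} {U : Set M} {z : M} {a R ε ε' : ℝ} (h : Conc H t U z a R ε)
    (hε : ε ≤ ε') : Conc H t U z a R ε' :=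
  fun x hx y hy r h1 h2 h3 => h x hx y hy r h1 h2 (hε.trans_lt h3)

theorem trkz (h : H.Ok) (c : H.COut) (d : H.DOut) (hP : H.EPers) (hR : H.EReg) (hNV : NV H)
    (hCL : CL H) (hX : CTX H) : TRKZ H := by
  intro εb hεb
  obtain ⟨ε0, A, B, hε0, hA, hB, hB0, hX⟩ := hX
  obtain ⟨ε1, C0, θ0, hε1, hC0, hθ0, hX⟩ := hX εb hεb
  obtain ⟨k, g, kε, kr, hg, hg1, hcd⟩ := exists_kn h c d hP hR hNV hCL hε0
  have k0 := k.ε0_pos
  refine ⟨min ε1 (k.ε0 / 8), C0, lt_min hε1 (by positivity), hC0, fun L hL => ?_⟩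
  obtain ⟨L', l1, l2⟩ : ∃ L' : ℝ, L ≤ L' ∧ C0 + 4 ≤ L' := ⟨max _ _, le_max_left _ _, le_max_right _ _⟩
  obtain ⟨C, hC, hX⟩ := hX L' (by linarith)
  refine ⟨C, by linarith, fun Kr hKr => ?_⟩
  obtain ⟨N, hN⟩ := exists_nat_gt (k.E ^ 2 / (k.ε3 * k.ε0 / 32))
  rw [div_lt_iff₀ (by have := k.ε3_pos; positivity)] at hN
  obtain ⟨θ, θp, θ1, θ2⟩ : ∃ θ : ℝ, 0 < θ ∧ θ ≤ θ0 ∧
      θ ≤ k.lam * (g * (1 / (N + 1) * (k.μ * k.lam * g / 8) ^ N) / 8) :=
    ⟨min _ _, lt_min hθ0 (by have := k.lam_pos; have := k.μ_pos; positivity), min_le_left _ _,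
      min_le_right _ _⟩
  refine ⟨fun j => B j / θ ^ j, fun j => div_nonneg (hB j) (by positivity), fun δ hδ => ?_⟩
  have hCT := k.CT_pos
  have hη := k.η2_pos
  have hB1 := hB 1
  have lp := Real.log_pos k.Λ_gt
  obtain ⟨δ', δp, δ1, δ2, δ3⟩ : ∃ δ' : ℝ, 0 < δ' ∧ δ' ≤ δ ∧ δ' ≤ Real.log k.Λ / 2 ∧
      δ' ≤ k.η2 / 4 / (k.CT * (A * B 1 / θ ^ 3) + 1) :=
    ⟨min δ (min _ _), lt_min hδ (lt_min (by positivity) (by positivity)), min_le_left _ _,
      (min_le_right _ _).trans (min_le_left _ _), (min_le_right _ _).trans (min_le_right _ _)⟩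
  obtain ⟨c', r', hc', hr', hX⟩ := hX Kr hKr θ ⟨θp, θ1⟩ δ' δp
  refine ⟨c', min r' (min k.r1 (k.η2 / 4 / k.CT)), hc', lt_min hr' (lt_min kr (by positivity)),
    fun s τ a σ z Y h1 h2 h3 h4 h5 h6 h7 h8 h9 h10 h11 h12 => ?_⟩
  obtain ⟨ζ, z1, z2, z3, z4⟩ := hX s τ a σ z Y h1 h2 h3 (h4.trans (min_le_left _ _)) h5 h6 h7
    (h8.trans (min_le_left _ _))
    (fun t ht => ⟨(h9 t ht).1, (h9 t ht).2.1.mono (min_le_left _ _), (h9 t ht).2.2⟩) h11 h12
  have ha : 0 < a := h5.trans_le h6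
  have ar : a ≤ k.r1 := h8.trans ((min_le_right _ _).trans (min_le_left _ _))
  have mem : ∀ t ∈ Icc s τ, t ∈ Ioo 0 H.T := fun t ht =>
    ⟨by linarith [h.alg.T_pos, ht.1, sq_nonneg a], ht.2.trans_lt h3⟩
  have hCa : 2 * L' * a ≤ C * a := by gcongr
  have aC : a ≤ C * a := le_mul_of_one_le_left ha.le (by linarith)
  have T : Tk k s τ a σ L' (θ * σ) (A / (θ * σ) ^ 2) (B 1 / (θ * σ)) δ' C0 z ζ :=
    { ok := h, s_ge := by linarith [sq_nonneg a], le := h2, lt := h3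
      len := h4.trans ((min_le_right _ _).trans (min_le_left _ _)), σ_pos := h5, σ_le := h6
      a_le := ar, C0_ge := hC0, L_ge := l2, A_nn := by positivity, B_nn := by positivity
      cont := z1, nn := z2, int := z3
      exp_lt := by
        rw [← Real.exp_log (by linarith [k.Λ_gt] : 0 < k.Λ), Real.exp_lt_exp]
        linarith
      err := by
        have a1 := δ3
        rw [le_div_iff₀ (by positivity)] at a1
        have a2 : a ≤ k.η2 / 4 / k.CT := h8.trans ((min_le_right _ _).trans (min_le_right _ _))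
        rw [le_div_iff₀ hCT] at a2
        have a3 : A / (θ * σ) ^ 2 * (B 1 / (θ * σ)) * σ ^ 3 = A * B 1 / θ ^ 3 := by field_simp
        have a4 : σ ^ 2 ≤ a :=
          (pow_le_of_le_one h5.le (h6.trans (ar.trans k.r1_le)) two_ne_zero).trans h6
        have a5 : k.CT * σ ^ 2 ≤ k.CT * a := by gcongr
        rw [a3]
        linarith
      conc := fun t ht y hy r hr hra he =>
        (h9 t ⟨by linarith [sq_nonneg a, ht.1], ht.2⟩).2.1 y (hy.trans_le hCa) y
          (show H.d t y y < C * a by rw [h.dist.self t (mem t ht)]; linarith) r hr (hra.trans aC)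
          ((min_le_right _ _).trans_lt he)
      key := fun t1 ht1 hA => by
        obtain ⟨p1, p2⟩ := z4 t1 ht1 fun t ht y y1 y2 => (hA t ht y y1 y2).trans kε
        refine ⟨p1, fun t ht y y1 y2 => ?_⟩
        obtain ⟨q1, q2⟩ := p2 t ht y y1 (y2.trans kε)
        have zt := z2 t ⟨ht1.1.trans ht.1.le, ht.2⟩
        refine ⟨q1, ?_, ?_⟩
        · have := q2 0
          rw [pow_zero, one_mul] at this
          exact this.trans (mul_le_of_le_one_left zt hB0)
        · have := q2 1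
          rw [pow_one] at this
          rw [div_mul_eq_mul_div, le_div_iff₀ (by positivity)]
          linarith }
  have hAnn := core T hg hg1 hcd hN (by
      calc θ * σ ≤ k.lam * (g * (1 / (N + 1) * (k.μ * k.lam * g / 8) ^ N) / 8) * σ := by
            gcongr
        _ = _ := by ring)
    fun y hy r hr hra he => h10 y (hy.trans_le hCa) y
      (show H.d τ y y < C * a by rw [h.dist.self τ T.memτ]; linarith) r hr (hra.trans aC)
      ((min_le_right _ _).trans_lt he)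
  obtain ⟨p1, p2⟩ := z4 s ⟨le_rfl, h2⟩ fun t ht y y1 y2 => (hAnn t ht y (h6.trans y1) y2).trans kε
  refine ⟨fun t ht => p1 t (Ioc_subset_Icc_self ht), ζ, z1, z2, z3.trans δ1,
    fun t ht y y1 y2 j => ?_⟩
  have y3 : H.d τ (z τ) y < 2 * L' * a :=
    y2.trans_lt (mul_lt_mul_of_pos_right (by linarith) ha)
  have := (p2 t ⟨ht.1, ht.2.le⟩ y y3 ((hAnn t ⟨ht.1, ht.2.le⟩ y y1 y3).trans kε)).2 j
  rw [div_mul_eq_mul_div, le_div_iff₀ (by positivity)]
  rw [mul_pow] at this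
  linarith

end Crest.Agent.N207.T

end
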