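import Crest.Agent.R247.Mcs14_816

/-!
Row 207 (helper78): annular Bishop-Gromov, part 1: local contraction with barriers based at a fixed
distance from the centre (adapted from `R247/Mcs12`, `R247/Lc4`).
-/

set_option autoImplicit false
set_option maxSynthPendingDepth 3
set_option linter.unusedSectionVars false

open Bundle Set Filter Topology MeasureTheory Metric
open scoped Manifold ContDiff ENNReal NNReal
open Crest.GeometryTopology.CoordMetric Crest.GeometryTopology.ChartCurvature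
open Crest.GeometryTopology.PointedLimit
open Crest.GeometryTopology.MTW Crest.Agent.R244 Crest.Agent.R226
open Crest.Agent.R226.ChartMet842
open Crest.Agent.R226.CutSmooth77 (SC)
open Crest.Agent.R202.Tens Crest.Agent.R247 Crest.Agent.R247.Ms322 Crest.Agent.R247.Sm879
open Crest.Agent.R247.Mcs816 Crest.Agent.R247.Lc582
open Crest.Agent.R247.Bo84 (mLap mGam inCh gam)

noncomputable section

namespace Crest.Agent.N207.Up

variable {n : ℕ} {M : Type*} [MetricSpace M] [ChartedSpace (EuclideanSpace ℝ (Fin n)) M]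
  [IsManifold (𝓡 n) ∞ M]
  [RiemannianBundle (fun p : M => TangentSpace (𝓡 n) p)]
  [IsContMDiffRiemannianBundle (𝓡 n) ∞ (EuclideanSpace ℝ (Fin n)) (fun p : M => TangentSpace (𝓡 n) p)]

local notation "𝔼" => EuclideanSpace ℝ (Fin n)

variable (n) in
/-- `Ric ≥ K` at `p` -/
def RicAt (p : M) (K : ℝ) : Prop :=
  ∀ v : EuclideanSpace ℝ (Fin n), K * quadForm (chartMetric n M p) (chartCentre n M p) v ≤
    ∑ i, ∑ j, ricci (chartMetric n M p) (chartCentre n M p) i j * v i * v j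

variable [IsRiemannianManifold (𝓡 n) M] [ProperSpace M]

theorem mDev_ge' {K : ℝ} {p : M} (hK : RicAt n p K) {f : M → ℝ}
    (hf : ContMDiffAt (𝓡 n) 𝓘(ℝ) ∞ f p) : K * mGam n f f p ≤ mDev n f p := by
  rw [mDev_eq]
  have hg := Bo84.isRiemannianOn_chartMetric (n := n) p
  have hc : chartCentre n M p ∈ (chartAt 𝔼 p).target := mem_chart_target 𝔼 p
  have hf2 : ContDiffAt ℝ 2 (inCh n p f) (chartCentre n M p) :=
    Bo84.contDiffAt_centre (by norm_cast) (hf.of_le (by norm_cast))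
  have h1 := hessDev_nonneg hg hc hf2
  have h2 := ricQ_lower hg hc (inCh n p f) (K := K) hK
  have h3 : mGam n f f p = gam (chartMetric n M p) (inCh n p f) (inCh n p f) (chartCentre n M p) :=
    rfl
  rw [h3]
  linarith

/-- Laplacian comparison with a Ricci bound only along the minimisers -/
theorem mLap_le' (hm : ExM M) {κ : ℝ} {z y : M} (hne : z ≠ y) (hend : SC n z y)
    (hK : ∀ p, dist z p + dist p y = dist z y → RicAt n p (-κ)) :
    mLap n (halfDistSq z) y ≤ n + κ * dist z y ^ 2 / 3 := by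
  obtain ⟨γ, h0, h1, hγ⟩ := exists_unit hm z y
  have hD : 0 < dist z y := dist_pos.2 hne
  set D := dist z y with hDd
  rw [← h1] at hend
  have hDm : D ∈ Icc 0 D := ⟨hD.le, le_rfl⟩
  have h0m : (0:ℝ) ∈ Icc 0 D := ⟨le_rfl, hD.le⟩
  have hdz : ∀ t ∈ Icc 0 D, dist z (γ t) = t := by
    intro t ht
    rw [← h0, hγ 0 h0m t ht, zero_sub, abs_neg, abs_of_nonneg ht.1]
  have e1 : ∀ t ∈ Icc 0 D, dist (γ t) (γ D) = D - t := fun t ht => by
    rw [hγ t ht D hDm, abs_sub_comm, abs_of_nonneg (by linarith [ht.2])]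
  have hsc : ∀ t ∈ Icc 0 D, SC n z (γ t) := by
    intro t ht
    rcases eq_or_lt_of_le ht.2 with h | h
    · rw [h]; exact hend
    · refine sc_of_btw (y' := γ D) hm ?_ ?_
      · rw [e1 t ht, hdz t ht, hdz D hDm]; ring
      · intro h'
        have := e1 t ht
        rw [h', dist_self] at this
        linarith
  have hγc : ContinuousOn γ (Icc 0 D) := by
    have : LipschitzOnWith 1 γ (Icc 0 D) := by
      refine LipschitzOnWith.of_dist_le_mul fun s hs t ht => ?_
      rw [hγ s hs t ht, Real.dist_eq]; simp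
    exact this.continuousOn
  have hwc : ContinuousOn (fun s => (n:ℝ) - mLap n (halfDistSq z) (γ s)) (Icc 0 D) := by
    intro s hs
    refine continuousWithinAt_const.sub ?_
    exact (continuousAt_mLap (hsc s hs)).comp_continuousWithinAt (hγc s hs)
  obtain ⟨B, hB⟩ := (isCompact_Icc.image_of_continuousOn hwc).isBounded.exists_norm_le
  have := ode_lower (κ := κ) hD hD (B := B) (fun s hs => hB _ ⟨s, ⟨hs.1.le, hs.2.le⟩, rfl⟩)
    (hwc.mono Ioc_subset_Icc_self) (fun s hs => hasDerivAt_defect hm hγ h0 hs) fun s hs => by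
      have hs' : s ∈ Icc 0 D := ⟨hs.1.le, hs.2.le⟩
      have k1 := mDev_ge' (hK (γ s) (by rw [← h1, e1 s hs', hdz s hs']; ring))
        (contMDiffAt_cost (hsc s hs'))
      have k2 : mGam n (halfDistSq z) (halfDistSq z) (γ s) = s ^ 2 := by
        have hsrc := mem_chart_source 𝔼 (γ s)
        rw [Bo84.mGam_chart' hsrc, inCh_eq_fz, gam_fz hm ((chartAt 𝔼 (γ s)).map_source hsrc)
          (by rw [(chartAt 𝔼 (γ s)).left_inv hsrc]; exact hsc s hs'), fz,
          (chartAt 𝔼 (γ s)).left_inv hsrc, halfDistSq, hdz s hs']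
        ring
      rw [k2] at k1
      exact k1
  rw [h1] at this
  linarith

variable [MeasurableSpace M] [BorelSpace M]

/-- local contraction on the manifold. -/
theorem exists_locC [IsFiniteMeasureOnCompacts (μHE[n] : Measure M)] (hm : ExM M) {x y0 : M}
    {δ0 Λ H : ℝ} (hδ0p : 0 < δ0) (hδ1 : δ0 ≤ dist x y0 / 4)
    (hL : ∀ z, dist x z = δ0 → dist z y0 = dist x y0 - δ0 → SC n z y0 →
      mLap n (halfDistSq z) y0 ≤ Λ) (hH : (1 + δ0 / (dist x y0 - δ0)) * Λ < H) :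
    ∃ W, IsOpen W ∧ y0 ∈ W ∧ ∃ τ0 > 0, LocC (μHE[n] : Measure M) x W H τ0 := by
  have hd0 : 0 < dist x y0 := by linarith
  obtain ⟨d, hd⟩ : ∃ d, dist x y0 = d := ⟨_, rfl⟩
  rw [hd] at hd0 hδ1 hL hH
  obtain ⟨b0, hb0⟩ : ∃ b0 : 𝔼, b0 = chartAt 𝔼 y0 y0 := ⟨_, rfl⟩
  have hb0t : b0 ∈ (chartAt 𝔼 y0).target := by
    rw [hb0]; exact mem_chart_target 𝔼 y0
  have hXb0 : (chartAt 𝔼 y0).symm b0 = y0 := by
    rw [hb0]; exact (chartAt 𝔼 y0).left_inv (mem_chart_source 𝔼 y0)
  have hZc : IsCompact (SS x δ0 y0) := isCompact_SS x δ0 y0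
  have hZO : ∀ z ∈ SS x δ0 y0, (z, b0) ∈ OO n y0 := by
    intro z hz
    have h1 : dist x z = δ0 := hz.1
    have h2 : dist z y0 = d - δ0 := by rw [hz.2, hd]
    refine ⟨hb0t, ?_, ?_⟩
    · show z ≠ (chartAt 𝔼 y0).symm b0
      rw [hXb0]
      apply dist_pos.1
      rw [h2]; linarith
    · show ((chartAt 𝔼 y0).symm b0, z) ∈ Om M
      rw [hXb0]
      refine mem_Om_of_btw' (x := x) (dist_pos.1 (by rw [h1]; exact hδ0p)) ?_
      rw [h1, h2, hd]; ring
  have hZH : ∀ z ∈ SS x δ0 y0, lapw (gm (n := n) y0) (dens (n := n) y0) (FF n x y0 z) b0 <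
      H * dens (n := n) y0 b0 := by
    intro z hz
    have h1 : dist x z = δ0 := hz.1
    have h2 : dist z y0 = d - δ0 := by rw [hz.2, hd]
    have hsc := sc_of_OO (n := n) hm (q := (z, b0)) (hZO z hz)
    have h3 : laplaceBeltrami (chartMetric n M y0) (fz (n := n) z y0) b0 ≤ Λ := by
      have h4 := hL z h1 h2 (by rw [← hXb0]; exact hsc)
      rw [hb0]; exact h4
    have h5 := lapw_FF (n := n) hm x (q := (z, b0)) (hZO z hz) h3
    refine h5.trans_lt ?_
    have hw := dens_pos (n := n) y0 hb0t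
    refine mul_lt_mul_of_pos_right ?_ hw
    show (1 + dist x z / dist z ((chartAt 𝔼 y0).symm b0)) * Λ < _
    rw [hXb0, h1, h2]
    exact hH
  obtain ⟨K, hK, hZK, r, hr, hrT, hKO, C0, hLF⟩ :=
    exists_LF (bg_chart (n := n) y0) (jf_barrier hm x y0) hZc hb0t hZO hZH
  -- shrink the ball
  have hcX : ContinuousAt (chartAt 𝔼 y0).symm b0 := (chartAt 𝔼 y0).continuousAt_symm hb0t
  have hev1 : ∀ᶠ b in 𝓝 b0, SS x δ0 ((chartAt 𝔼 y0).symm b) ⊆ interior K := by
    have h1 : ∀ᶠ q in 𝓝 ((chartAt 𝔼 y0).symm b0), SS x δ0 q ⊆ interior K := by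
      rw [hXb0]; exact SS_eventually hZK
    exact hcX.eventually h1
  have hev2 : ∀ᶠ b in 𝓝 b0, d / 2 < dist x ((chartAt 𝔼 y0).symm b) := by
    have h1 : ∀ᶠ q in 𝓝 ((chartAt 𝔼 y0).symm b0), d / 2 < dist x q := by
      have hc : ContinuousAt (fun q => dist x q) y0 := by fun_prop
      rw [hXb0]
      exact hc.eventually (lt_mem_nhds (by show d / 2 < dist x y0; rw [hd]; linarith))
    exact hcX.eventually h1
  have hev3 : ∀ᶠ b in 𝓝 b0, dist x ((chartAt 𝔼 y0).symm b) < 2 * d := by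
    have h1 : ∀ᶠ q in 𝓝 ((chartAt 𝔼 y0).symm b0), dist x q < 2 * d := by
      have hc : ContinuousAt (fun q => dist x q) y0 := by fun_prop
      rw [hXb0]
      exact hc.eventually (gt_mem_nhds (by show dist x y0 < 2 * d; rw [hd]; linarith))
    exact hcX.eventually h1
  obtain ⟨r1, hr1, hr1'⟩ := Metric.eventually_nhds_iff.1 (hev1.and (hev2.and hev3))
  obtain ⟨r2, hr2p, hr2r, hr2r1⟩ : ∃ r2 : ℝ, 0 < r2 ∧ r2 ≤ r ∧ r2 ≤ r1 :=
    ⟨min r r1, lt_min hr hr1, min_le_left _ _, min_le_right _ _⟩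
  have hsub : ball b0 r2 ⊆ ball b0 r := ball_subset_ball hr2r
  have hsubc : closedBall b0 r2 ⊆ (chartAt 𝔼 y0).target :=
    (closedBall_subset_closedBall hr2r).trans hrT
  have hgood : ∀ b ∈ ball b0 r2, SS x δ0 ((chartAt 𝔼 y0).symm b) ⊆ K ∧
      d / 2 < dist x ((chartAt 𝔼 y0).symm b) ∧ dist x ((chartAt 𝔼 y0).symm b) < 2 * d := by
    intro b hb
    have := hr1' (lt_of_lt_of_le (mem_ball.1 hb) hr2r1)
    exact ⟨this.1.trans interior_subset, this.2⟩
  obtain ⟨C1, hC1, hdist⟩ := dist_le_chart (n := n) y0 hsubc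
  -- the dense sequence
  have hKne : K.Nonempty := by
    obtain ⟨c, hc1, hc2⟩ := hm.pt x y0 (t := δ0) hδ0p.le (by rw [hd]; linarith)
    exact ⟨c, interior_subset (hZK ⟨hc1, hc2⟩)⟩
  obtain ⟨zk, hzk, hdense⟩ := exists_dense_seq' hKne
  obtain ⟨C, hCp, hCC0, hCC1, hCd⟩ : ∃ C : ℝ, 0 < C ∧ C0 ≤ C ∧ C1 ≤ C ∧ 2 * d ≤ C :=
    ⟨|C0| + C1 + 2 * d, by positivity, by have := le_abs_self C0; linarith,
      by have := abs_nonneg C0; linarith, by have := abs_nonneg C0; linarith⟩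
  have hLF' := (hLF zk hzk).mono isOpen_ball hsub hCC0
  have hMF := mf_of (n := n) hm (x := x) (y0 := y0) (b0 := b0) (r := r2) (δ := δ0) (d := d)
    (C1 := C1) (C := C) (K := K) hd0 hδ0p.le (by linarith) hK
    (fun z hz b hb => hKO ⟨hz, ball_subset_closedBall (hsub hb)⟩) hgood hdist hCC1 hCd hzk hdense
  -- the neighbourhood
  refine ⟨(chartAt 𝔼 y0).source ∩ (chartAt 𝔼 y0) ⁻¹' ball b0 (r2 / 2),
    (chartAt 𝔼 y0).isOpen_inter_preimage isOpen_ball,
    ⟨mem_chart_source 𝔼 y0, by rw [mem_preimage, ← hb0]; exact mem_ball_self (by positivity)⟩,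
    min 1 (r2 / (2 * C)), by positivity, ?_⟩
  refine locC_of (E := 𝔼) (μHE[n] : Measure M) hLF' hMF (φ := chartAt 𝔼 y0)
    ((chartAt 𝔼 y0).continuousOn.mono inter_subset_left)
    (fun m hm' => (chartAt 𝔼 y0).left_inv hm'.1) (min_le_left _ _) ?_ ?_
  · intro m hmW y hy
    have h1 : dist (chartAt 𝔼 y0 m) b0 < r2 / 2 := hmW.2
    have h2 : dist y (chartAt 𝔼 y0 m) ≤ C * min 1 (r2 / (2 * C)) := hy
    have h3 : C * min 1 (r2 / (2 * C)) ≤ r2 / 2 := by
      calc C * min 1 (r2 / (2 * C)) ≤ C * (r2 / (2 * C)) := by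
            gcongr; exact min_le_right _ _
        _ = r2 / 2 := by field_simp
    rw [mem_ball]
    have := dist_triangle y (chartAt 𝔼 y0 m) b0
    linarith
  · intro B hB hBm
    exact muHE_symm_image y0 (hB.trans (ball_subset_closedBall.trans hsubc)) hBm

end Crest.Agent.N207.Up
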