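import Crest.Agent.N207.T.Up1
import Crest.Agent.R247.Bgr2_546
import Crest.Agent.N207.A.Arr
import Crest.Agent.N207.V.Basic

/-!
Row 207 (helper78): annular Bishop-Gromov, part 2: contraction on an annulus.
-/

set_option autoImplicit false
set_option maxSynthPendingDepth 3
set_option linter.unusedSectionVars false

open Bundle Set Filter Topology MeasureTheory Metric
open scoped Manifold ContDiff ENNReal NNReal
open Crest.GeometryTopology.CoordMetric Crest.GeometryTopology.ChartCurvature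
open Crest.Agent.R247 Crest.Agent.R247.Sm879 Crest.Agent.R247.Mcs816

noncomputable section

namespace Crest.Agent.N207.Up

section metric

variable {M : Type*} [MetricSpace M] [ProperSpace M] [MeasurableSpace M] [BorelSpace M]

/-- contraction on an annulus with a constant exponent -/
theorem contraction_ann {μ : Measure M} [IsFiniteMeasureOnCompacts μ] {x : M} (hx : NonBr x)
    {b R H : ℝ} (_hb : 0 ≤ b)
    (hloc : ∀ y, b ≤ dist x y → dist x y ≤ R → ∃ W, IsOpen W ∧ y ∈ W ∧ ∃ τ0 > 0, LocC μ x W H τ0)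
    {A : Set M} (hA : IsCompact A) {τ : ℝ} (hτ : 0 ≤ τ)
    (hAR : ∀ y ∈ A, b ≤ Real.exp (-τ) * dist x y ∧ dist x y ≤ R) :
    ENNReal.ofReal (Real.exp (-(H * τ))) * μ A ≤ μ (Ipt x (Real.exp (-τ)) A) := by
  set Q : Set M := closedBall x R ∩ {y | b ≤ dist x y} with hQdef
  have hQ : IsCompact Q := (isCompact_closedBall x R).inter_right
    (isClosed_le continuous_const (by fun_prop))
  have hch : ∀ y ∈ Q, ∃ W, IsOpen W ∧ y ∈ W ∧ ∃ τ0 > 0, LocC μ x W H τ0 := fun y hy =>
    hloc y hy.2 (by have := hy.1; rwa [mem_closedBall, dist_comm] at this)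
  choose! W hW hyW τ0 hτ0 hL using hch
  obtain ⟨s, hs, hcov⟩ := hQ.elim_nhds_subcover W (fun y hy => (hW y hy).mem_nhds (hyW y hy))
  obtain ⟨τ1, hτ1, hτ1'⟩ : ∃ τ1 > 0, ∀ y ∈ s, τ1 ≤ τ0 y := by
    classical
    rcases s.eq_empty_or_nonempty with rfl | hne'
    · exact ⟨1, one_pos, by simp⟩
    · obtain ⟨y0, hy0, hmin⟩ := s.exists_min_image τ0 hne'
      exact ⟨τ0 y0, hτ0 y0 (hs y0 hy0), hmin⟩
  have hU : LocC μ x Q H τ1 :=
    (LocC.of_cover hx s W (fun y hy => hW y (hs y hy)) (P := Q) fun y hy =>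
      (hL y (hs y hy)).mono inter_subset_left le_rfl (hτ1' y hy)).mono
      (fun y hy => ⟨hcov hy, hy⟩) le_rfl le_rfl
  obtain ⟨k, hk⟩ := exists_nat_gt (τ / τ1)
  have k0 : (0 : ℝ) < k := lt_of_le_of_lt (by positivity) hk
  set δ := τ / k with hδd
  have hδ : 0 ≤ δ := by positivity
  have hδ1 : δ ≤ τ1 := by
    rw [hδd, div_le_iff₀ k0]; rw [div_lt_iff₀ hτ1] at hk; linarith
  have step : ∀ m : ℕ, (m : ℝ) * δ ≤ τ →
      ENNReal.ofReal (Real.exp (-(H * (m * δ)))) * μ A ≤ μ (Ipt x (Real.exp (-(m * δ))) A) := by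
    intro m
    induction m with
    | zero => intro _; simp [Ipt_one]
    | succ m ih =>
      intro hm
      push_cast at hm ⊢
      have hmδ : 0 ≤ (m : ℝ) * δ := by positivity
      have ih' := ih (by nlinarith)
      set A' := Ipt x (Real.exp (-(m * δ))) A with hA'
      have hA'Q : A' ⊆ Q := by
        rintro z ⟨y, hy, h1, -⟩
        have e1 : Real.exp (-(m * δ)) ≤ 1 := Real.exp_le_one_iff.2 (by linarith)
        have e2 : Real.exp (-τ) ≤ Real.exp (-(m * δ)) := Real.exp_le_exp.2 (by linarith)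
        refine ⟨?_, ?_⟩
        · rw [mem_closedBall, dist_comm, h1]
          exact (mul_le_of_le_one_left dist_nonneg e1).trans (hAR y hy).2
        · show b ≤ dist x z
          rw [h1]
          exact (hAR y hy).1.trans (mul_le_mul_of_nonneg_right e2 dist_nonneg)
      have h1 := hU A' hA'Q (isCompact_Ipt x _ hA) δ hδ hδ1
      have h2 : Ipt x (Real.exp (-δ)) A' ⊆ Ipt x (Real.exp (-((m + 1) * δ))) A := by
        have := Ipt_Ipt (x := x) (s := Real.exp (-(m * δ))) (t := Real.exp (-δ)) (A := A)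
        rw [← Real.exp_add] at this
        have e : -δ + -(m * δ) = -((m + 1) * δ) := by ring
        rwa [e] at this
      refine le_trans ?_ (measure_mono h2)
      refine le_trans ?_ h1
      refine le_trans ?_ (mul_le_mul_right ih' _)
      rw [← mul_assoc (ENNReal.ofReal _), ← ENNReal.ofReal_mul (Real.exp_pos _).le, ← Real.exp_add]
      refine le_of_eq ?_
      congr 3; ring
  have e : (k : ℝ) * δ = τ := by rw [hδd]; field_simp
  have := step k e.le
  rwa [e] at this

end metric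

section riem

variable {n : ℕ} {M : Type*} [MetricSpace M] [ChartedSpace (EuclideanSpace ℝ (Fin n)) M]
  [IsManifold (𝓡 n) ∞ M]
  [RiemannianBundle (fun p : M => TangentSpace (𝓡 n) p)]
  [IsContMDiffRiemannianBundle (𝓡 n) ∞ (EuclideanSpace ℝ (Fin n)) (fun p : M => TangentSpace (𝓡 n) p)]
  [IsRiemannianManifold (𝓡 n) M] [ProperSpace M] [MeasurableSpace M] [BorelSpace M]

/-- annular volume comparison -/
theorem vol_ann (x : M) {s b r τ κ : ℝ} (hs : 0 < s) (hb : 4 * s ≤ b) (hκ : 0 ≤ κ) (hτ : 0 ≤ τ)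
    (hn : 1 ≤ n) (hK : ∀ p, s ≤ dist x p → dist x p ≤ r → RicAt n p (-κ)) :
    ENNReal.ofReal (Real.exp (-((n + 3 * n * (s / b) + κ * r ^ 2) * τ))) *
      (μHE[n] : Measure M) {y | b ≤ Real.exp (-τ) * dist x y ∧ dist x y ≤ r} ≤
      (μHE[n] : Measure M) (closedBall x (Real.exp (-τ) * r)) := by
  have := locFin n M
  have hm := Bgr546.exM_of_riemannian n M
  have b0 : 0 < b := by linarith
  have hA : IsCompact {y | b ≤ Real.exp (-τ) * dist x y ∧ dist x y ≤ r} :=
    (isCompact_closedBall x r).of_isClosed_subset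
      ((isClosed_le (f := fun _ => b) (g := fun y => Real.exp (-τ) * dist x y) continuous_const
        (by fun_prop)).inter (isClosed_le (f := fun y => dist x y) (g := fun _ => r) (by fun_prop)
        continuous_const))
      fun y hy => by rw [mem_closedBall, dist_comm]; exact hy.2
  refine (contraction_ann (nonBr n hm x) b0.le (R := r) (fun y h1 h2 => ?_) hA hτ
    fun y hy => hy).trans (measure_mono fun z hz => dist_Ipt (Real.exp_pos _).le
      (fun y hy => by rw [mem_closedBall, dist_comm]; exact hy.2) hz)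
  refine exists_locC hm hs (by linarith) (Λ := n + κ * r ^ 2 / 3) (fun z e1 e2 hsc => ?_) ?_
  · have hne : z ≠ y := dist_pos.1 (by rw [e2]; linarith)
    refine (mLap_le' hm (κ := κ) hne hsc fun p hp => hK p ?_ ?_).trans ?_
    · have t1 := dist_triangle x p y
      have := dist_nonneg (x := z) (y := p)
      linarith
    · have t1 := dist_triangle x z p
      have := dist_nonneg (x := p) (y := y)
      linarith
    · have : dist z y ^ 2 ≤ r ^ 2 := pow_le_pow_left₀ dist_nonneg (by linarith) 2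
      nlinarith
  · have q0 : 0 < s / b := by positivity
    have q1 : s / b ≤ 1 / 4 := by rw [div_le_iff₀ b0]; linarith
    have q2 : s / (dist x y - s) ≤ 2 * (s / b) := by
      rw [← mul_div_assoc, div_le_div_iff₀ (by linarith) b0]; nlinarith
    have n1 : (1 : ℝ) ≤ n := by exact_mod_cast hn
    have k0 : 0 ≤ κ * r ^ 2 := by positivity
    nlinarith [mul_le_mul_of_nonneg_right q2 (show 0 ≤ n + κ * r ^ 2 / 3 by positivity),
      mul_le_mul_of_nonneg_right q1 k0, mul_pos q0 (show (0 : ℝ) < n by linarith)]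

end riem

variable {M : Type*} [TopologicalSpace M] [ChartedSpace E4 M] [IsManifold 𝓘(ℝ, E4) ∞ M]
  [T3Space M] [ConnectedSpace M] [CompactSpace M] [MeasurableSpace M] [BorelSpace M]

theorem ricAt_of (g : Met 4 M) (p : M) {κ : ℝ} (h : √(g.rc 0 p) ≤ κ) :
    RicAt 4 (M := Sl g) p (-κ) := by
  intro v
  have hA := (V.riem g p).posDef _ (mem_chart_target E4 p)
  have k := Ar.abs_evT_le hA (ricT (g.G p) (ctr 4 p)) ![v, v]
  have e1 : evT (ricT (g.G p) (ctr 4 p)) ![v, v] =
      ∑ i, ∑ j, ricci (g.G p) (ctr 4 p) i j * v i * v j := by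
    rw [evT, ← (finTwoArrowEquiv (Fin 4)).symm.sum_comp, Fintype.sum_prod_type]
    refine Finset.sum_congr rfl fun i _ => Finset.sum_congr rfl fun j _ => ?_
    simp [ricT]; ring
  have b0 := Ar.bil_nonneg hA v
  rw [e1, Fin.prod_univ_two] at k
  simp only [Matrix.cons_val_zero, Matrix.cons_val_one, Matrix.cons_val_fin_one] at k
  rw [Real.mul_self_sqrt b0] at k
  have e2 : quadForm (g.G p) (ctr 4 p) v = R202.Tens.bil (g.G p (ctr 4 p)) v v :=
    (R202.Tens.bil_apply _ _ _).symm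
  have k2 : √(ipA (g.G p (ctr 4 p))⁻¹ (ricT (g.G p) (ctr 4 p)) (ricT (g.G p) (ctr 4 p))) ≤ κ := h
  show -κ * quadForm (g.G p) (ctr 4 p) v ≤ ∑ i, ∑ j, ricci (g.G p) (ctr 4 p) i j * v i * v j
  rw [e2]
  nlinarith [(abs_le.1 k).1, mul_le_mul_of_nonneg_right k2 b0]

/-- **annular Bishop-Gromov** for a metric on a compact 4-manifold -/
theorem bg_ann (g : Met 4 M) [IsFiniteMeasure g.vol] (x : M) {s b r r2 κ : ℝ} (hs : 0 < s)
    (hb : 4 * s ≤ b) (hκ : 0 ≤ κ) (h2 : 0 < r2) (h3 : r2 ≤ r)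
    (hK : ∀ p, s ≤ g.d x p → g.d x p ≤ r → √(g.rc 0 p) ≤ κ) :
    g.vol.real {y | b / r2 * r ≤ g.d x y ∧ g.d x y ≤ r} ≤
      Real.exp ((12 * (s / b) + κ * r ^ 2) * Real.log (r / r2)) * (r / r2) ^ 4 *
        g.vol.real {y | g.d x y ≤ r2} := by
  have r0 : 0 < r := h2.trans_le h3
  have q : 1 ≤ r / r2 := (one_le_div h2).2 h3
  have k := vol_ann (n := 4) (M := Sl g) x hs hb hκ (Real.log_nonneg q) (by norm_num) (r := r)
    fun p h1 h4 => ricAt_of g p (hK p h1 h4)
  have e : Real.exp (-Real.log (r / r2)) = r2 / r := by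
    rw [Real.exp_neg, Real.exp_log (by positivity), inv_div]
  rw [e, div_mul_cancel₀ _ r0.ne'] at k
  have s1 : {y : M | b / r2 * r ≤ g.d x y ∧ g.d x y ≤ r} =
      {y : Sl g | b ≤ r2 / r * dist (α := Sl g) x y ∧ dist (α := Sl g) x y ≤ r} := by
    ext y
    show b / r2 * r ≤ g.d x y ∧ g.d x y ≤ r ↔ b ≤ r2 / r * g.d x y ∧ g.d x y ≤ r
    rw [div_mul_eq_mul_div, div_le_iff₀ h2, div_mul_eq_mul_div r2, le_div_iff₀ r0, mul_comm r2]
  have s2 : {y : M | g.d x y ≤ r2} = closedBall (α := Sl g) x r2 := by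
    ext y
    exact (mem_closedBall' (α := Sl g)).symm
  have k' : ENNReal.ofReal _ * g.vol _ ≤ g.vol _ := k
  have k2 := ENNReal.toReal_mono (measure_ne_top _ _) k'
  rw [ENNReal.toReal_mul, ENNReal.toReal_ofReal (Real.exp_pos _).le] at k2
  rw [s1, s2]
  have e2 : Real.exp ((12 * (s / b) + κ * r ^ 2) * Real.log (r / r2)) * (r / r2) ^ 4 =
      Real.exp (((4 : ℕ) + 3 * (4 : ℕ) * (s / b) + κ * r ^ 2) * Real.log (r / r2)) := by
    rw [← Real.exp_log (show 0 < (r / r2) ^ 4 by positivity), ← Real.exp_add, Real.log_pow]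
    congr 1; push_cast; ring
  rw [e2]
  rw [Real.exp_neg, inv_mul_le_iff₀ (Real.exp_pos _)] at k2
  exact k2

end Crest.Agent.N207.Up
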