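import Crest.Agent.N207.T.Up2
import Crest.Agent.N207.T.Lo2
import Crest.Agent.N207.C.Max

/-!
Row 207 (helper78): the volume ratio at a concentration point (`NVUp`).
-/

set_option autoImplicit false
set_option linter.unusedSectionVars false

open scoped ContDiff Manifold Topology RealInnerProductSpace
open Set MeasureTheory Filter Metric
open Crest.GeometryTopology.CoordMetric Crest.GeometryTopology.ChartCurvature
  Crest.GeometryTopology.MetricFamily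

noncomputable section

namespace Crest.Agent.N207.T

open Sk

/-- the volume of a half ball -/
theorem vol_half {ν : E4} (hν : ν ≠ 0) {r : ℝ} (hr : 0 < r) :
    volume.real (ball (0 : E4) r ∩ {x | 0 ≤ ⟪x, ν⟫}) ≤ om / 2 * r ^ 4 := by
  set P : Set E4 := ball 0 r ∩ {x | 0 < ⟪x, ν⟫} with hP
  have cν : Continuous fun x : E4 => ⟪x, ν⟫ := by fun_prop
  have mP : MeasurableSet P := (isOpen_ball.inter (isOpen_lt continuous_const cν)).measurableSet
  have z : volume ((ℝ ∙ ν)ᗮ : Submodule ℝ E4).carrier = 0 := by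
    refine Measure.addHaar_submodule volume _ fun h => hν ?_
    have : ν ∈ (ℝ ∙ ν)ᗮ := h ▸ Submodule.mem_top
    exact inner_self_eq_zero.1 (Submodule.mem_orthogonal_singleton_iff_inner_right.1 this)
  have fin : ∀ S : Set E4, S ⊆ ball 0 r → volume S ≠ ⊤ := fun S hS =>
    ((measure_mono hS).trans_lt measure_ball_lt_top).ne
  have e1 : volume.real (ball (0 : E4) r ∩ {x | 0 ≤ ⟪x, ν⟫}) ≤ volume.real P := by
    refine ENNReal.toReal_mono (fin P inter_subset_left) ?_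
    refine (measure_mono (t := P ∪ ((ℝ ∙ ν)ᗮ : Submodule ℝ E4).carrier) fun x hx => ?_).trans
      ((measure_union_le _ _).trans (by rw [z, add_zero]))
    rcases (show 0 ≤ ⟪x, ν⟫ from hx.2).eq_or_lt with h | h
    · exact Or.inr (Submodule.mem_orthogonal_singleton_iff_inner_left.2 h.symm)
    · exact Or.inl ⟨hx.1, h⟩
  have e2 : volume.real (-P) = volume.real P := by rw [Measure.real, Measure.measure_neg]; rfl
  have d : Disjoint P (-P) := by
    rw [Set.disjoint_left]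
    intro x h1 h2
    have a : 0 < ⟪x, ν⟫ := h1.2
    have b : 0 < ⟪-x, ν⟫ := h2.2
    rw [inner_neg_left] at b
    linarith
  have s2 : -P ⊆ ball 0 r := fun x hx => by simpa using hx.1
  have e3 := measureReal_union (μ := volume) d mP.neg (fin P inter_subset_left) (fin _ s2)
  have e4 : volume.real (P ∪ -P) ≤ om * r ^ 4 := by
    rw [← vol_ball 0 hr]
    exact measureReal_mono (union_subset inter_subset_left s2) measure_ball_lt_top.ne
  linarith

/-- every orbit meets a half space -/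
theorem orbit_half {Γ : Subgroup (E4 ≃ₗᵢ[ℝ] E4)} (h : Grp Γ) :
    ∃ ν : E4, ν ≠ 0 ∧ ∀ x : E4, ∃ g ∈ Γ, 0 ≤ ⟪g x, ν⟫ := by
  obtain ⟨⟨γ, hγ⟩, h1⟩ := Subgroup.ne_bot_iff_exists_ne_one.1 h.ne
  have := h.fin
  set e : E4 := EuclideanSpace.single 0 1 with he
  have e0 : e ≠ 0 := by simp [he]
  refine ⟨e - γ.symm e, fun hz => h1 (Subtype.ext (h.free γ hγ e e0 ?_)), fun x => ?_⟩
  · rw [sub_eq_zero] at hz
    conv_lhs => rw [hz]
    exact γ.apply_symm_apply e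
  · obtain ⟨g, hg⟩ := Finite.exists_max fun g : Γ => ⟪g.1 x, e⟫
    refine ⟨g.1, g.2, ?_⟩
    have k := hg (⟨γ, hγ⟩ * g)
    have e1 : ⟪((⟨γ, hγ⟩ * g : Γ) : E4 ≃ₗᵢ[ℝ] E4) x, e⟫ = ⟪g.1 x, γ.symm e⟫ := by
      rw [← γ.inner_map_map (g.1 x), γ.apply_symm_apply]; rfl
    rw [inner_sub_right]
    linarith

theorem near_det {κ : ℝ} (hκ : 0 < κ) : ∃ η, 0 < η ∧ ∀ G : Matrix (Fin 4) (Fin 4) ℝ,
    (∀ i j, |G i j - (1 : Matrix (Fin 4) (Fin 4) ℝ) i j| ≤ η) → √G.det ≤ 1 + κ := by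
  have c1 : ContinuousAt (fun G : Fin 4 → Fin 4 → ℝ => √(Matrix.of G).det)
      (1 : Matrix (Fin 4) (Fin 4) ℝ) := (continuous_id.matrix_det.sqrt).continuousAt
  have c2 := c1.eventually (gt_mem_nhds (show √(Matrix.of (1 : Matrix (Fin 4) (Fin 4) ℝ)).det < 1 + κ by
    have : Matrix.of (1 : Matrix (Fin 4) (Fin 4) ℝ) = 1 := rfl
    rw [this]; simpa using hκ))
  obtain ⟨η, hη, h⟩ := Metric.eventually_nhds_iff.1 c2
  refine ⟨η / 2, by positivity, fun G hG => (h (y := G) ?_).le⟩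
  refine lt_of_le_of_lt ((dist_pi_le_iff (by positivity)).2 fun i =>
    (dist_pi_le_iff (by positivity)).2 fun j => hG i j) (half_lt_self hη)

variable {M : Type*} [TopologicalSpace M] [ChartedSpace E4 M] [IsManifold 𝓘(ℝ, E4) ∞ M]
  [T3Space M] [ConnectedSpace M] [CompactSpace M] [MeasurableSpace M] [BorelSpace M]

/-- sharp volume bound in a neck -/
theorem vol_neck (g : Met 4 M) {N : Nk M} (hT : N.Top) {κ r : ℝ} (hκ : 0 ≤ κ) (hr : 0 < r)
    (hb : r ≤ N.b) (hG : ∀ x ∈ shell N.a N.b, √(g.pm N.Ψ x).det ≤ 1 + κ) :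
    g.vol.real (N.Ψ '' shell N.a r) ≤ (1 + κ) * (om / 2 * r ^ 4) := by
  obtain ⟨ν, hν, h⟩ := orbit_half hT.grp
  set B : Set E4 := shell N.a r ∩ {x | 0 ≤ ⟪x, ν⟫} with hB
  have sB : B ⊆ shell N.a N.b := fun x hx => ⟨hx.1.1, hx.1.2.trans_le hb⟩
  have mB : MeasurableSet B :=
    (((isOpen_lt continuous_const continuous_norm).inter
      (isOpen_lt continuous_norm continuous_const)).measurableSet).inter
      (isClosed_le continuous_const (by fun_prop)).measurableSet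
  have s1 : N.Ψ '' shell N.a r ⊆ N.Ψ '' B := by
    rintro _ ⟨x, hx, rfl⟩
    obtain ⟨γ, hγ, h1⟩ := h x
    have m : γ x ∈ shell N.a r := by simpa only [shell, mem_ofPred_eq, γ.norm_map] using hx
    exact ⟨γ x, ⟨m, h1⟩, ((hT.fib x ⟨hx.1, hx.2.trans_le hb⟩ _ (sB ⟨m, h1⟩)).2 ⟨γ, hγ, rfl⟩).symm⟩
  have s2 : B ⊆ ball (0 : E4) r ∩ {x | 0 ≤ ⟪x, ν⟫} := fun x hx => ⟨by simpa using hx.1.2, hx.2⟩
  have f2 : volume (ball (0 : E4) r ∩ {x | 0 ≤ ⟪x, ν⟫}) ≠ ⊤ :=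
    ((measure_mono inter_subset_left).trans_lt measure_ball_lt_top).ne
  have k : g.vol (N.Ψ '' shell N.a r) ≤
      ENNReal.ofReal (1 + κ) * volume (ball (0 : E4) r ∩ {x | 0 ≤ ⟪x, ν⟫}) := by
    refine (measure_mono s1).trans ((V.vol_par_le hT.par g sB mB).trans ?_)
    refine (setLIntegral_mono' mB fun x hx => ENNReal.ofReal_le_ofReal (hG x (sB hx))).trans ?_
    rw [setLIntegral_const]
    exact mul_le_mul_right (measure_mono s2) _
  have k2 := ENNReal.toReal_mono (ENNReal.mul_ne_top ENNReal.ofReal_ne_top f2) k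
  rw [ENNReal.toReal_mul, ENNReal.toReal_ofReal (by positivity)] at k2
  exact k2.trans (mul_le_mul_of_nonneg_left (vol_half hν hr) (by positivity))

/-- pigeonhole on scales -/
theorem exists_gap {Bad : Finset ℤ} {n0 : ℕ} (h : Bad.card ≤ n0) {c Λ : ℝ} (hc : 0 < c)
    (hΛ : 1 ≤ Λ) : ∃ i ≤ n0, ∀ j ∈ Bad, (2 : ℝ) ^ j < c * Λ ^ i ∨ c * Λ ^ (i + 1) / 2 < (2 : ℝ) ^ j := by
  by_contra! hn
  choose! f hf h1 h2 using hn
  have key : ∀ i ≤ n0, ∀ i' ≤ n0, i < i' → f i ≠ f i' := fun i hi i' hi' hlt he => by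
    have a1 := h2 i hi
    have a2 := h1 i' hi'
    have a3 : c * Λ ^ (i + 1) ≤ c * Λ ^ i' :=
      mul_le_mul_of_nonneg_left (pow_le_pow_right₀ hΛ hlt) hc.le
    have a4 : 0 < c * Λ ^ (i + 1) := by positivity
    rw [he] at a1
    linarith
  have := Finset.card_le_card_of_injOn (s := Finset.range (n0 + 1)) (t := Bad) f
    (fun i hi => hf i (Nat.lt_succ_iff.1 (Finset.mem_range.1 hi))) fun i hi i' hi' he => by
      have b1 := Nat.lt_succ_iff.1 (Finset.mem_range.1 hi)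
      have b2 := Nat.lt_succ_iff.1 (Finset.mem_range.1 hi')
      rcases lt_trichotomy i i' with h | h | h
      · exact absurd he (key i b1 i' b2 h)
      · exact h
      · exact absurd he.symm (key i' b2 i b1 h)
  rw [Finset.card_range] at this
  omega

/-- the volume of a ball whose boundary lies in a long neck -/
theorem vol_ball_neck (g : Met 4 M) [IsFiniteMeasure g.vol] {N : Nk M} (hT : N.Top) {y : M}
    {ξ η V r2 : ℝ} (hξ : 0 < ξ) (hξ1 : ξ ≤ 1) (hη : η ≤ ξ / 12) (h2 : 0 < r2) (hb : N.b = 2 * r2)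
    (ha : N.a ≤ ξ / 4 * r2) (hV : |V| * N.a ≤ ξ * r2) (hv : g.vol.real N.In ≤ V * N.a ^ 4)
    (hG : ∀ x ∈ shell N.a N.b, √(g.pm N.Ψ x).det ≤ 1 + ξ)
    (d1 : ∀ x ∈ shell N.a N.b, (1 - 4 * η) * (‖x‖ - N.a) ≤ g.d y (N.Ψ x))
    (d2 : ∀ p ∉ N.Om N.b, (1 - 4 * η) * (N.b - N.a) ≤ g.d y p) :
    g.vol.real {p | g.d y p ≤ r2} ≤ (ξ + (1 + ξ) ^ 5 * (om / 2)) * r2 ^ 4 := by
  have a0 := hT.a_pos
  have s1 : {p | g.d y p ≤ r2} ⊆ N.In ∪ N.Ψ '' shell N.a ((1 + ξ) * r2) := by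
    intro p hp
    have hp' : g.d y p ≤ r2 := hp
    by_cases h : p ∈ N.Om N.b
    · rcases h with h | ⟨x, hx, rfl⟩
      · exact Or.inl h
      refine Or.inr ⟨x, ⟨hx.1, ?_⟩, rfl⟩
      have k := (d1 x hx).trans hp'
      by_contra! hn
      have k1 : (1 + 3 * ξ / 4) * r2 ≤ ‖x‖ - N.a := by linarith
      have k2 : 1 - ξ / 3 ≤ 1 - 4 * η := by linarith
      have := mul_le_mul k2 k1 (by positivity) (by linarith)
      nlinarith [mul_pos hξ h2, mul_le_mul_of_nonneg_right hξ1 (mul_pos hξ h2).le]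
    · have k := (d2 p h).trans hp'
      have k1 : 7 / 4 * r2 ≤ N.b - N.a := by nlinarith
      have k2 : 2 / 3 ≤ 1 - 4 * η := by linarith
      have := mul_le_mul k2 k1 (by positivity) (by linarith)
      linarith
  have k1 := vol_neck g hT hξ.le (r := (1 + ξ) * r2) (by positivity) (by nlinarith) hG
  have k2 : V * N.a ^ 4 ≤ ξ * r2 ^ 4 := by
    have a1 : N.a ^ 3 ≤ r2 ^ 3 := pow_le_pow_left₀ a0.le (by nlinarith) 3
    calc V * N.a ^ 4 ≤ |V| * N.a * N.a ^ 3 := by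
          rw [mul_assoc, ← pow_succ']; exact mul_le_mul_of_nonneg_right (le_abs_self V) (by positivity)
      _ ≤ ξ * r2 * r2 ^ 3 := mul_le_mul hV a1 (by positivity) (by positivity)
      _ = _ := by ring
  have k3 := (measureReal_mono s1).trans (measureReal_union_le (μ := g.vol) _ _)
  calc _ ≤ ξ * r2 ^ 4 + (1 + ξ) * (om / 2 * ((1 + ξ) * r2) ^ 4) := by linarith
    _ = _ := by ring

/-- Ricci bound on a regular annulus -/
theorem ric_ann {F : Flow M} (hB : Base F) : ∃ εU r0 C : ℝ, 0 < εU ∧ 0 < r0 ∧ 0 < C ∧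
    ∀ t ∈ late F, ∀ (y : M) (σ ρ : ℝ), 0 < σ → σ ≤ ρ → ρ ≤ r0 →
      F.hc.en t y (4 * ρ) ≤ F.hc.en t y σ + εU → ∀ p, 2 * σ ≤ (F.m t).d y p →
        (F.m t).d y p ≤ 2 * ρ → √((F.m t).rc 0 p) ≤ C / σ := by
  obtain ⟨ε0, c, r0, hε0, hc, hr0, -, h⟩ := hB.e.reg (F.T / 2) (half_pos F.hT)
  obtain ⟨C, hC, h⟩ := h 0
  refine ⟨ε0, r0, √C, hε0, hr0, Real.sqrt_pos.2 hC, fun t ht y σ ρ s0 s1 r1 he p p1 p2 => ?_⟩
  have ht' : t ∈ Ioo 0 F.hc.T := ⟨(half_pos F.hT).trans_le ht.1, ht.2⟩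
  have D := hB.ok.dist
  have oB : ∀ x r, IsOpen (F.hc.B t x r) := fun x r => isOpen_lt (D.cont t ht' x) continuous_const
  have i0 := hB.ok.alg.integrable hB.ok.int ht' (hB.ok.alg.s0_N ht' 0)
  have p1' : 2 * σ ≤ F.hc.d t y p := p1
  have p2' : F.hc.d t y p ≤ 2 * ρ := p2
  have dj : Disjoint (F.hc.B t y σ) (F.hc.B t p σ) := by
    rw [Set.disjoint_left]
    intro z h1 h2
    have a : F.hc.d t y z < σ := h1
    have b : F.hc.d t p z < σ := h2
    have := D.tri t ht' y z p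
    rw [D.symm t ht' z p] at this
    linarith
  have e1 : F.hc.en t y σ + F.hc.en t p σ ≤ F.hc.en t y (4 * ρ) := by
    unfold HC.en
    rw [← setIntegral_union dj (oB p σ).measurableSet i0.integrableOn i0.integrableOn]
    refine setIntegral_mono_set i0.integrableOn
      (Eventually.of_forall fun z => hB.ok.evo.N_nonneg 0 t ht' z) (LE.le.eventuallyLE ?_)
    rintro z (hz | hz)
    · have a : F.hc.d t y z < σ := hz
      show F.hc.d t y z < 4 * ρ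
      linarith
    · have a : F.hc.d t p z < σ := hz
      have := D.tri t ht' y p z
      show F.hc.d t y z < 4 * ρ
      linarith
  have k := ((h t ht p σ s0 (s1.trans r1) (by linarith) p (by
    show F.hc.d t p p < σ / 2
    rw [D.self t ht']; positivity)).1 t ht' (by simp; positivity)).2
  refine Real.sqrt_le_iff.2 ⟨by positivity, ?_⟩
  rw [div_pow, Real.sq_sqrt hC.le]
  exact k

theorem exists_xi {v : ℝ} (hv : om / 2 < v) : ∃ ξ : ℝ, 0 < ξ ∧ ξ ≤ 1 ∧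
    ξ + Real.exp ξ * (ξ + (1 + ξ) ^ 5 * (om / 2)) ≤ v := by
  have c : ContinuousAt (fun ξ : ℝ => ξ + Real.exp ξ * (ξ + (1 + ξ) ^ 5 * (om / 2))) 0 := by
    fun_prop
  have := (c.eventually (gt_mem_nhds (show _ < v by simpa using hv))).filter_mono
    (nhdsWithin_le_nhds (s := Ioi 0))
  obtain ⟨ξ, h1, h2⟩ := (this.and (Ioc_mem_nhdsGT one_pos)).exists
  exact ⟨ξ, h2.1, h2.2, h1.le⟩

theorem num_b2 {K l L Λ σ r2 : ℝ} (K0 : 0 < K) (l0 : 0 < l) (σ0 : 0 < σ) (L1 : 32 * K ≤ l * L)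
    (LΛ : L ≤ Λ) (b1 : σ * (l * Λ) ≤ 4 * K * (l * r2)) : 4 * (2 * σ) ≤ l * r2 := by
  have h1 := L1.trans (mul_le_mul_of_nonneg_left LΛ l0.le)
  refine le_of_mul_le_mul_left ?_ (show 0 < 4 * K by positivity)
  nlinarith [mul_le_mul_of_nonneg_left h1 σ0.le]

theorem num_lg {K L σ r r2 : ℝ} {n : ℕ} (K0 : 0 < K) (r0 : 0 < r) (r20 : 0 < r2) (L0 : 0 < L)
    (L4 : 32 * K ≤ L) (h2 : r ≤ 2 * (σ * L ^ 2 * (L ^ 2) ^ n)) (h3 : σ * L ^ 2 ≤ 4 * K * r2) :
    Real.log (r / r2) ≤ (2 * n + 1) * L := by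
  have h1 : r / r2 ≤ L * (L ^ 2) ^ n := by
    rw [div_le_iff₀ r20]
    have h4 : 0 < (L ^ 2) ^ n := by positivity
    have h5 := mul_le_mul_of_nonneg_right h3 h4.le
    have h6 := mul_le_mul_of_nonneg_right L4 (mul_pos h4 r20).le
    nlinarith [mul_pos K0 (mul_pos h4 r20)]
  refine (Real.log_le_log (by positivity) h1).trans ?_
  rw [← pow_mul, ← pow_succ', Real.log_pow]
  push_cast
  exact mul_le_mul_of_nonneg_left ((Real.log_le_sub_one_of_pos L0).trans (by linarith))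
    (by positivity)

theorem num_ex {K l L σ r2 ξ m : ℝ} (K0 : 0 < K) (l0 : 0 < l) (σ0 : 0 < σ) (L0 : 0 < L)
    (r20 : 0 < r2) (ξ0 : 0 < ξ) (L3 : 192 * K * m ≤ l * ξ * L)
    (b1 : σ * (l * L ^ 2) ≤ 4 * K * (l * r2)) : 12 * (2 * σ / (l * r2)) * (m * L) ≤ ξ / 2 := by
  rw [← mul_div_assoc, div_mul_eq_mul_div, div_le_iff₀ (by positivity)]
  refine le_of_mul_le_mul_left ?_ (show 0 < 8 * K by positivity)
  have h2 := mul_le_mul_of_nonneg_right L3 (mul_pos σ0 L0).le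
  have h3 := mul_le_mul_of_nonneg_left b1 ξ0.le
  nlinarith

theorem num_a {a V ξ r2 : ℝ} (a0 : 0 < a) (V0 : 0 ≤ V) (ξ1 : ξ ≤ 1) (r20 : 0 < r2)
    (a1 : a * (4 * (1 + V)) ≤ ξ * r2) :
    a ≤ ξ / 4 * r2 ∧ V * a ≤ ξ * r2 ∧ ξ / 4 * r2 ≤ r2 / 4 :=
  ⟨by nlinarith [mul_nonneg a0.le V0], by nlinarith [mul_nonneg a0.le V0], by nlinarith⟩

end Crest.Agent.N207.T

end
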