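import Crest.Agent.N207.T.St
import Crest.Agent.N207.GE.Dist
import Crest.Agent.N207.D.QLoc
import Crest.Agent.N207.Rad.Neck2

/-!
# Row 207 (helper69): block TOP, leaf `WD`, part 1: small kit
-/

set_option autoImplicit false
set_option linter.unusedSectionVars false

open scoped ContDiff Manifold Topology
open Set MeasureTheory Filter
open Crest.GeometryTopology.CoordMetric Crest.GeometryTopology.ChartCurvature
  Crest.GeometryTopology.MetricFamily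

noncomputable section

namespace Crest.Agent.N207.T.W

open Sk Rad

theorem wt_two {a b : ℝ} (ha : 0 < a) {x : E4} (hx : x ∈ shell a b) : wt a b x ≤ 2 := by
  have h0 : 0 < ‖x‖ := ha.trans hx.1
  have h1 : √(a / ‖x‖) ≤ 1 := Real.sqrt_le_one.2 ((div_le_one h0).2 hx.1.le)
  have h2 : √(‖x‖ / b) ≤ 1 := Real.sqrt_le_one.2 ((div_le_one (h0.trans hx.2)).2 hx.2.le)
  unfold wt; linarith

theorem wt_nn (a b : ℝ) (x : E4) : 0 ≤ wt a b x := by unfold wt; positivity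

theorem div_le_wt {a b : ℝ} (ha : 0 < a) {x : E4} (hx : a < ‖x‖) : a / ‖x‖ ≤ wt a b x := by
  have h0 : 0 < ‖x‖ := ha.trans hx
  have h1 : a / ‖x‖ ≤ 1 := (div_le_one h0).2 hx.le
  have h2 : a / ‖x‖ ≤ √(a / ‖x‖) := by
    refine Real.le_sqrt_of_sq_le ?_
    have : 0 ≤ a / ‖x‖ := by positivity
    nlinarith
  have h3 := Real.sqrt_nonneg (‖x‖ / b)
  unfold wt; linarith

theorem jg_mono {m m' : ℕ} {G : MetricField 4} {x : E4} {s e e' : ℝ} (h : JG m G x s e)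
    (hm : m' ≤ m) (he : e ≤ e') : JG m' G x s e' :=
  fun k hk i j => (h k (hk.trans hm) i j).trans he

theorem jall_mono {C C' : ℕ → ℝ} {G : MetricField 4} {x : E4} {s w w' : ℝ} (h : JAll C G x s w)
    (he : ∀ k, C k * w ≤ C' k * w') : JAll C' G x s w' :=
  fun k i j => (h k i j).trans (he k)

variable {M : Type*} [TopologicalSpace M] [ChartedSpace E4 M] [IsManifold 𝓘(ℝ, E4) ∞ M]
  [T3Space M] [ConnectedSpace M] [CompactSpace M] [MeasurableSpace M] [BorelSpace M]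
  {F : Flow M} {N N' : Nk M}

theorem om_sub_res (N : Nk M) (a' b' r : ℝ) : N.Om r ⊆ (N.res a' b').Om r := by
  rintro p (h | ⟨x, hx, rfl⟩)
  · exact Or.inl (Or.inl h)
  · rcases le_or_gt ‖x‖ a' with e | e
    · exact Or.inl (Or.inr ⟨x, ⟨hx.1, e⟩, rfl⟩)
    · exact Or.inr ⟨x, ⟨e, hx.2⟩, rfl⟩

theorem res_in_mono (N : Nk M) {a' a'' : ℝ} (b' b'' : ℝ) (h : a' ≤ a'') :
    (N.res a' b').In ⊆ (N.res a'' b'').In :=
  union_subset_union_right _ (image_mono fun _ hx => ⟨hx.1, hx.2.trans h⟩)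

theorem cmp_of_res {a' b' a'' b'' ρ1 ρ2 : ℝ} (h : Cmp (N.res a' b') (N'.res a'' b'') ρ1 ρ2)
    (h1 : N.a < a') (h2 : a' < ρ1) (h3 : N'.a < a'') (h4 : a'' < ρ1) : Cmp N N' ρ1 ρ2 :=
  fun r hr => ⟨(om_sub_res N a' b' _).trans ((h r hr).1.trans (res_om h3 (h4.trans_le hr.1)).le),
    (om_sub_res N' a'' b'' _).trans ((h r hr).2.trans (res_om h1 (h2.trans_le hr.1)).le)⟩

theorem sn_rough {s η η' : ℝ} {m : ℕ} (h : SN F s η N) (h0 : 0 ≤ η) (h1 : 2 * η ≤ η')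
    (hm : m ≤ 2) : Rough (F.m s) N m η' 192 :=
  ⟨fun x hx => jg_mono (h.jet x hx) hm
    (by nlinarith [mul_le_mul_of_nonneg_left (wt_two h.top.a_pos hx) h0]), h.vol⟩

theorem fin_vol (hB : Base F) {s : ℝ} (hs : s ∈ late F) : IsFiniteMeasure (F.m s).vol :=
  hB.ok.int.fin s (late_Ioo hs)

theorem rough_res (hB : Base F) {s η V a' b' : ℝ} {m : ℕ} (hs : s ∈ late F) (hT : N.Top)
    (h : Rough (F.m s) N m η V) (hη : η ≤ 1 / 100) (hV : 192 ≤ V) (h1 : 2 * N.a ≤ a')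
    (h2 : 2 * a' ≤ N.b) (h3 : b' ≤ N.b) : Rough (F.m s) (N.res a' b') m η V := by
  have ha := hT.a_pos
  have := fin_vol hB hs
  refine ⟨fun x hx => h.jet x (shell_mono (show N.a ≤ a' by linarith) h3 hx), ?_⟩
  have h4 := (measureReal_mono (res_in_sub (N := N) (a' := a') (b' := b') (r := 2 * a')
    (by linarith))).trans (hT.vol_Om (F.m s) (h.mono (Nat.zero_le _) hη le_rfl)
      ⟨by linarith, h2⟩)
  have h5 : (2 * N.a) ^ 4 ≤ a' ^ 4 := pow_le_pow_left₀ (by positivity) h1 4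
  have h6 : 0 < N.a ^ 4 := by positivity
  show _ ≤ V * a' ^ 4
  nlinarith

theorem mass_nn (hB : Base F) {s : ℝ} (hs : s ∈ late F) (A : Set M) : 0 ≤ mass (F.m s) A :=
  integral_nonneg fun y => hB.ok.evo.Q_nonneg 0 s (late_Ioo hs) y

theorem mass_mono (hB : Base F) {s : ℝ} (hs : s ∈ late F) {A B : Set M} (h : A ⊆ B) :
    mass (F.m s) A ≤ mass (F.m s) B :=
  setIntegral_mono_set (hB.ok.alg.integrable hB.ok.int (late_Ioo hs)
    (hB.ok.alg.s0_Q (late_Ioo hs) 0)).integrableOn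
    (Eventually.of_forall fun z => hB.ok.evo.Q_nonneg 0 s (late_Ioo hs) z) h.eventuallyLE

/-- the mass inside a good neck -/
theorem mass_le (hB : Base F) (hS : SW F) : ∃ C r1 : ℝ, 0 < C ∧ 0 < r1 ∧ ∀ (s η : ℝ) (N : Nk M),
    SN F s η N → 0 ≤ η → η ≤ 1 / 200 → N.b ≤ r1 → 2 * N.a ≤ N.b → ∀ ρ ∈ Icc N.a N.b,
      mass (F.m s) (N.Om ρ) ≤ C * ρ ^ 2 := by
  obtain ⟨K, r1, hK, hr, -, h⟩ := hS 192
  obtain ⟨C, hC, hq⟩ := HC.qLoc hB.ok hB.c hB.d (half_pos F.hT)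
  refine ⟨C * (2 + K) ^ 2, r1, by positivity, hr, fun s η N hN h0 h1 h2 h3 ρ hρ => ?_⟩
  obtain ⟨z, hz⟩ := hN.top.ne
  have ha := hN.top.a_pos
  have hρ0 : 0 < ρ := ha.trans_le hρ.1
  have h4 := (h s hN.late N hN.top (sn_rough hN h0 (by linarith) (Nat.zero_le _)) h2 h3 z hz ρ hρ).1
  have h5 : N.Om ρ ⊆ F.hc.B s z ((2 + K) * ρ) := fun q hq => by
    have h6 := h4 q hq
    have h7 : K * N.a ≤ K * ρ := mul_le_mul_of_nonneg_left hρ.1 (by linarith)
    show (F.m s).d z q < _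
    linarith
  refine (mass_mono hB hN.late h5).trans ((hq s hN.late z _ (by positivity)).trans (le_of_eq ?_))
  ring

/-- the energy of a small set is small -/
theorem en_small (hB : Base F) {s : ℝ} (hs : s ∈ late F) : ∃ C : ℝ, 0 ≤ C ∧ ∀ A : Set M,
    ∫ q in A, (F.m s).rm 0 q ∂(F.m s).vol ≤ C * (F.m s).vol.real A := by
  have := fin_vol hB hs
  have hc : Continuous ((F.m s).rm 0) := hB.ok.alg.s0_cont (hB.ok.alg.s0_N (late_Ioo hs) 0)
  obtain ⟨C, hC⟩ := (isCompact_univ.image hc).isBounded.exists_norm_le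
  refine ⟨max C 0, le_max_right _ _, fun A => ?_⟩
  refine (le_abs_self _).trans ?_
  exact norm_setIntegral_le_of_norm_le_const (measure_lt_top _ _) fun x _ =>
    (hC _ ⟨x, mem_univ _, rfl⟩).trans (le_max_left _ _)

end Crest.Agent.N207.T.W

end
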