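import Crest.Agent.N207.T.Wd1

/-!
# Row 207 (helper69): block TOP, leaf `WD`, part 2: the constants, the easy fields
-/

set_option autoImplicit false
set_option linter.unusedSectionVars false

open scoped ContDiff Manifold Topology
open Set MeasureTheory Filter
open Crest.GeometryTopology.CoordMetric Crest.GeometryTopology.ChartCurvature
  Crest.GeometryTopology.MetricFamily

noncomputable section

namespace Crest.Agent.N207.T.W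

open Sk Rad

variable {M : Type*} [TopologicalSpace M] [ChartedSpace E4 M] [IsManifold 𝓘(ℝ, E4) ∞ M]
  [T3Space M] [ConnectedSpace M] [CompactSpace M] [MeasurableSpace M] [BorelSpace M]

/-- the constants -/
structure Ks (M : Type*) where
  p : M
  m : ℕ
  η1 : ℝ
  δ : ℝ
  e : ℝ
  ε : ℝ
  KE : ℝ
  KC : ℝ
  K' : ℝ
  cG : ℝ
  cF : ℝ
  CG : ℝ
  K0 : ℝ
  K1 : ℝ
  K : ℝ
  δS : ℝ
  cS : ℝ
  R : ℝ
  c : ℝ
  l : ℝ
  ts : ℝ
  V1 : ℝ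
  V : ℝ
  Cs : ℕ → ℝ
  Ns : Nk M

/-- the numerical constraints -/
structure Ks.Num (k : Ks M) : Prop where
  m2 : 2 ≤ k.m
  η1 : k.η1 ≤ 1 / 100
  δ : k.δ ≤ 1 / 100
  e0 : 0 < k.e
  e1 : k.e ≤ 1 / 400
  ε : 0 < k.ε
  KE : 2 ≤ k.KE
  KC : 2 ≤ k.KC
  K' : 2 ≤ k.K'
  cG1 : k.cG ≤ 1
  CG : 1 ≤ k.CG
  K0 : 2 ≤ k.K0
  K1 : 64 * k.KC * k.K0 ≤ k.K1
  KK1 : 2 * k.K1 ≤ k.K
  KK2 : 64 * k.KC * k.KE ≤ k.K
  KK3 : 4 * k.K0 * k.K' ≤ k.K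
  δS0 : 0 < k.δS
  δS : k.CG * (4 * k.e + k.δS) ≤ k.δ
  R1 : 2 * (k.K' * k.R) ≤ 1
  c0 : 0 < k.c
  c1 : 32 * k.KC * k.KE * (2 * k.c) ≤ k.cG
  c2 : 4 * k.K' * k.c ≤ k.cG
  c3 : 4 * k.K' * k.c ≤ k.cF
  c4 : k.c * (1 + 16 * k.K0 ^ 2 * k.K1 ^ 2 * k.V) ≤ 16 * k.cS
  l0 : 0 < k.l
  l1 : k.K ^ 2 * k.l ≤ k.R
  l2 : 16384 * k.K * k.l ≤ k.R
  l3 : 4 * k.K0 ^ 2 * k.l ≤ k.c
  V1 : 192 ≤ k.V1
  V : 12 ≤ k.V
  Cs : ∀ j, 0 ≤ k.Cs j

/-- the leaves, at these constants -/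
structure Ks.Ok (k : Ks M) (F : Flow M) : Prop extends k.Num where
  base : Base F
  ts : k.ts ∈ late F
  res : RES F
  far : ∀ a, 0 < a → a < k.K' * k.R → ∃ (N : Nk M) (t0 : ℝ), t0 ∈ late F ∧ N.Top ∧ N.a = a ∧
    N.b = k.K' * k.R ∧ k.p ∈ N.In ∧ ∀ s ∈ Ico t0 F.T, Rough (F.m s) N 2 k.η1 k.V1
  gnl : ∀ t ∈ late F, ∀ N : Nk M, N.Top → Rough (F.m t) N 2 k.η1 k.V1 → N.b ≤ k.K' * k.R →
    k.K' ^ 3 * N.a ≤ N.b → ∃ N' : Nk M, N'.a = k.K' * N.a ∧ N'.b = N.b / k.K' ∧ N.In ⊆ N'.In ∧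
      (∀ r, N'.a ≤ r → r ≤ N'.b → N.Om r ⊆ N'.Om (2 * r)) ∧ GN F k.m k.e k.Cs k.cG t N'
  cen : ∀ s ∈ Ico k.ts F.T, ∀ N : Nk M, SN F s (2 * k.e) N → N.b ≤ 2 * (k.K' * k.R) →
    k.KE * N.a ≤ k.R / 32 → 8 * (k.R / 32) ≤ N.b → k.p ∈ N.Om (k.R / 32) →
    (k.ε ≤ ∫ q in N.In, (F.m s).rm 0 q ∂(F.m s).vol) ∧
      ∀ N' : Nk M, SN F s (2 * k.e) N' → N'.b ≤ 2 * (k.K' * k.R) → k.KE * N'.a ≤ k.R / 32 →
        8 * (k.R / 32) ≤ N'.b → k.p ∈ N'.Om (k.R / 32) → (N.In ∩ N'.In).Nonempty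
  cmpl : ∀ t ∈ late F, ∀ N N' : Nk M, N.Top → N'.Top →
    Rough (F.m t) N 0 (1 / 100) 192 → Rough (F.m t) N' 0 (1 / 100) 192 →
    N.b ≤ 2 * (k.K' * k.R) → N'.b ≤ 2 * (k.K' * k.R) → ∀ a0 ρ1 ρ2 : ℝ, N.a ≤ a0 → N'.a ≤ a0 →
    k.KC * a0 ≤ ρ1 → ρ2 ≤ N.b → ρ2 ≤ N'.b → (N.Om a0 ∩ N'.Om a0).Nonempty → Cmp N N' ρ1 ρ2
  mass : ∀ (s : ℝ) (N : Nk M), SN F s (2 * k.e) N → N.b ≤ k.R → 2 * N.a ≤ N.b →
    ∀ ρ ∈ Icc N.a N.b, mass (F.m s) (N.Om ρ) ≤ k.V / 4 * ρ ^ 2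
  fin : ∀ t ∈ late F, ∀ (N N' : Nk M) (ρ1 ρ2 : ℝ), N.Top → N'.Top → Rough (F.m t) N 2 k.δ 192 →
    Rough (F.m t) N' 2 k.δ 192 → 2 * N.a ≤ ρ1 → 2 * N'.a ≤ ρ1 → ρ2 ≤ N.b → 2 * ρ2 ≤ N'.b →
    64 * ρ1 ≤ ρ2 → N'.b ≤ 2 * (k.K' * k.R) → Cmp N N' ρ1 ρ2 →
    ∃ N'' : Nk M, N''.Top ∧ N''.a = 2 * N.a ∧ N''.b = N'.b / 2 ∧ N'.In ⊆ N''.Om ρ2 ∧
      ∀ s < F.T, |s - t| ≤ k.cF * N.a → Rough (F.m s) N'' 2 k.η1 192
  glue : ∀ (g : Met 4 M) (N N' : Nk M) (r1 r2 : ℝ), N.Top → N'.Top →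
    Rough g N 2 (4 * k.e + k.δS) 192 → Rough g N' 2 (4 * k.e + k.δS) 192 → 2 * N.a ≤ r1 →
    2 * N'.a ≤ r1 → r2 ≤ N.b → r2 ≤ N'.b → 64 * r1 ≤ r2 → Cmp N N' r1 r2 →
    ∃ N'' : Nk M, N''.Top ∧ N''.a = N.a ∧ N''.b = N'.b ∧ N''.In = N.In ∧
      Rough g N'' 2 (k.CG * (4 * k.e + k.δS)) 192 ∧ ∀ r ∈ Icc r2 N'.b, N''.Om r = N'.Om r
  stat : ∀ (s τ l l' : ℝ) (N : ℝ → Nk M) (Y : ℝ → ℝ), s ≤ τ → l' ≤ l → l ≤ k.K * l' →
    k.K1 * l ≤ k.R / 32 → k.ts ≤ s - (k.K0 * l) ^ 2 →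
    (∀ t ∈ Icc (s - (k.K0 * l) ^ 2) τ, SN F t (2 * k.e) (N t) ∧ (N t).a ≤ l ∧ (N t).b = k.R ∧
      k.p ∈ (N t).Om (k.R / 32) ∧ Sk.mass (F.m t) ((N t).Om (k.K1 * l)) ≤ Y t) →
    (N τ).a = l' → IntervalIntegrable Y volume (s - (k.K0 * l) ^ 2) τ →
    (τ - s) * ∫ t in (s - (k.K0 * l) ^ 2)..τ, Y t ≤ k.cS * l ^ 4 → ∀ t ∈ Ioc s τ,
      (∀ x ∈ shell (k.K0 * l') (64 * k.KC * k.K0 * l),
        JG 2 ((F.m t).pm (N τ).Ψ) x ‖x‖ (2 * (2 * k.e) + k.δS)) ∧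
      ((N τ).In ∩ (N t).Om (k.K0 * l)).Nonempty
  ns : ∀ s ∈ Ico k.ts F.T, SN F s (2 * k.e) k.Ns
  ns_a : k.Ns.a = k.R / (4096 * k.KC * k.KE)
  ns_b : k.Ns.b = 2 * (k.K' * k.R)
  ns_p : k.p ∈ k.Ns.In

namespace Ks

/-- a rough neck of inner radius `lam / K'` -/
def P (k : Ks M) (F : Flow M) (lam t : ℝ) : Prop :=
  ∃ N : Nk M, N.Top ∧ N.a = lam / k.K' ∧ N.b = k.K' * k.R ∧ k.p ∈ N.Om (k.R / 64) ∧
    Rough (F.m t) N 2 k.η1 k.V1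

/-- a good neck of inner radius `lam` -/
structure G (k : Ks M) (F : Flow M) (lam v : ℝ) (N : Nk M) : Prop where
  mem : v ∈ Ico k.ts F.T
  a : N.a = lam
  b : N.b = k.R
  p : k.p ∈ N.Om (k.R / 32)
  gn : GN F k.m k.e k.Cs k.cG v N

variable {k : Ks M} {F : Flow M} {lam v s t r : ℝ} {N N' : Nk M}

namespace Num

variable (h : k.Num)
include h

theorem K_ge : 512 ≤ k.K := by nlinarith [h.KK1, h.K1, h.KC, h.K0]

theorem K'_le : 8 * k.K' ≤ k.K := by nlinarith [h.KK3, h.K0, h.K']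

theorem R_pos : 0 < k.R := by
  have := h.K_ge; have := h.l0
  exact lt_of_lt_of_le (by positivity) h.l1

theorem R_le : k.R ≤ k.K' * k.R := by nlinarith [h.R_pos, h.K']

theorem c_le : 8 * k.c ≤ k.cG := by nlinarith [h.c2, h.c0, h.K']

theorem cG0 : 0 < k.cG := by linarith [h.c_le, h.c0]

theorem l_le : 8388608 * k.l ≤ k.R := by nlinarith [h.l2, h.K_ge, h.l0]

theorem kce : 4 ≤ k.KC * k.KE := by nlinarith [h.KC, h.KE]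

theorem KE_le : 128 * k.KE ≤ k.K := by nlinarith [h.KK2, h.KC, h.KE]

theorem lam_pos (n : ℕ) : 0 < k.l / k.K ^ n := by
  have := h.K_ge; have := h.l0; positivity

theorem lam_le (n : ℕ) : k.l / k.K ^ n ≤ k.l :=
  div_le_self h.l0.le (one_le_pow₀ (by linarith [h.K_ge]))

theorem e_le : 4 * k.e + k.δS ≤ k.δ := by nlinarith [h.δS, h.CG, h.e0, h.δS0]

end Num

namespace Ok

variable (h : k.Ok F)
include h

theorem late (hs : s ∈ Ico k.ts F.T) : s ∈ late F := ⟨h.ts.1.trans hs.1, hs.2⟩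

theorem snap (hG : k.G F lam v N) (hs : s ∈ Ico k.ts F.T) (h1 : lam < r) (h2 : r < k.R)
    (h3 : |s - v| ≤ k.cG * r) : SN F s (2 * k.e) (N.res r k.R) := by
  have := h.res _ _ _ _ v N r s hG.gn h.m2 h.e0.le h.cG0 (by linarith [hG.b, h.R1, h.R_le])
    (hG.a ▸ h1) (hG.b ▸ h2) (h.late hs) h3
  rwa [hG.b] at this

theorem r0 (hN : SN F s (2 * k.e) N) : Rough (F.m s) N 0 (1 / 100) 192 :=
  sn_rough hN (by linarith [h.e0]) (by linarith [h.e1]) (Nat.zero_le _)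

theorem ev (h0 : 0 < lam) (h1 : lam ≤ k.l) : ∃ t0 < F.T, ∀ t ∈ Ico t0 F.T, k.P F lam t := by
  have := h.K'
  obtain ⟨N, t0, a1, a2, a3, a4, a5, a6⟩ := h.far (lam / k.K') (by positivity)
    (lt_of_le_of_lt (div_le_self h0.le (by linarith)) (by linarith [h.l_le, h.R_le, h.l0]))
  exact ⟨t0, a1.2, fun t ht => ⟨N, a2, a3, a4, N.In_sub _ a5, a6 t ht⟩⟩

theorem mono (h0 : 0 < lam) (h1 : lam ≤ k.l) (ht : t ∈ Ico k.ts F.T) (hP : k.P F (lam / k.K) t) :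
    k.P F lam t := by
  obtain ⟨N, a1, a2, a3, a4, a5⟩ := hP
  have := h.K'
  have := h.K_ge
  have b1 : lam / k.K' ≤ lam := div_le_self h0.le (by linarith)
  have b2 : 2 * N.a ≤ lam / k.K' := by
    rw [a2, div_right_comm, ← mul_div_assoc, div_le_iff₀ (by positivity)]
    nlinarith [show 0 < lam / k.K' by positivity]
  have b3 : 2 * (lam / k.K') ≤ N.b := by linarith [h.l_le, h.R_le, h.l0]
  exact ⟨N.res (lam / k.K') (k.K' * k.R), res_top a1 (by linarith [a1.a_pos])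
    (by linarith [a1.a_pos]) a3.ge, rfl, rfl, om_sub_res _ _ _ _ a4,
    rough_res h.base (h.late ht) a1 a5 h.η1 h.V1 b2 b3 a3.ge⟩

theorem ex (h0 : 0 < lam) (h1 : lam ≤ k.l) (hv : v ∈ Ico k.ts F.T) (hP : k.P F lam v) :
    ∃ N, k.G F lam v N := by
  obtain ⟨N, a1, a2, a3, a4, a5⟩ := hP
  have := h.K'
  obtain ⟨N', b1, b2, -, b4, b5⟩ := h.gnl v (h.late hv) N a1 a5 a3.le (by
    rw [a2, a3, show k.K' ^ 3 * (lam / k.K') = k.K' * (k.K' * lam) by field_simp]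
    refine mul_le_mul_of_nonneg_left ?_ (by linarith)
    nlinarith [h.K'_le, h.l2, h.l0, mul_le_mul_of_nonneg_left h1 (show 0 ≤ k.K' by linarith)])
  have c1 : N'.a = lam := by rw [b1, a2]; field_simp
  have c2 : N'.b = k.R := by rw [b2, a3]; field_simp
  refine ⟨N', hv, c1, c2, ?_, b5⟩
  have := b4 (k.R / 64) (by linarith [h.l_le, h.l0]) (by linarith [h.R_pos]) a4
  rwa [show 2 * (k.R / 64) = k.R / 32 by ring] at this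

theorem cen' (hG : k.G F lam v N) (hs : s ∈ Ico k.ts F.T) (h1 : lam < r)
    (h2 : k.KE * r ≤ k.R / 32) (h3 : |s - v| ≤ k.cG * r) :
    (k.ε ≤ ∫ q in (N.res r k.R).In, (F.m s).rm 0 q ∂(F.m s).vol) ∧
      ∀ N' : Nk M, SN F s (2 * k.e) N' → N'.b ≤ 2 * (k.K' * k.R) → k.KE * N'.a ≤ k.R / 32 →
        8 * (k.R / 32) ≤ N'.b → k.p ∈ N'.Om (k.R / 32) → ((N.res r k.R).In ∩ N'.In).Nonempty := by
  have hr : 0 < r := (hG.a ▸ hG.gn.top.a_pos).trans h1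
  exact h.cen s hs _ (h.snap hG hs h1 (by nlinarith [h.KE, h.R_pos]) h3)
    (show k.R ≤ _ by linarith [h.R_le, h.R_pos]) h2 (show _ ≤ k.R by linarith [h.R_pos])
    (om_sub_res _ _ _ _ hG.p)

theorem fail (ht : t ∈ Ico k.ts F.T) : ∃ n, ¬k.P F (k.l / k.K ^ n) t := by
  by_contra! hc
  obtain ⟨C, hC, hb⟩ := en_small h.base (h.late ht)
  have hK := h.K_ge
  have key : ∀ n, k.ε ≤ C * (192 * (2 * (k.l / k.K ^ n)) ^ 4) := fun n => by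
    have a0 := h.lam_pos n
    have a1 := h.lam_le n
    obtain ⟨N, hG⟩ := h.ex a0 a1 ht (hc n)
    have a2 : |t - t| ≤ k.cG * (2 * (k.l / k.K ^ n)) := by
      have := h.cG0; rw [sub_self, abs_zero]; positivity
    have a3 : k.KE * (2 * (k.l / k.K ^ n)) ≤ k.R / 32 := by
      nlinarith [h.KE_le, h.l2, h.l0, h.KE,
        mul_le_mul_of_nonneg_left a1 (show 0 ≤ k.KE by linarith [h.KE])]
    exact (h.cen' hG ht (by linarith) a3 a2).1.trans ((hb _).trans (mul_le_mul_of_nonneg_left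
      (h.snap hG ht (by linarith) (by linarith [h.l_le, h.l0]) a2).vol hC))
  have lim : Tendsto (fun n : ℕ => C * (192 * (2 * (k.l / k.K ^ n)) ^ 4)) atTop
      (𝓝 (C * (192 * (2 * 0) ^ 4))) :=
    ((((tendsto_pow_atTop_atTop_of_one_lt (by linarith : 1 < k.K)).const_div_atTop
      k.l).const_mul 2).pow 4 |>.const_mul 192).const_mul C
  have := ge_of_tendsto' lim key
  simp at this
  linarith [h.ε]

theorem far' {η u : ℝ} {m : ℕ} (hm : m ≤ k.m) (hη : 2 * k.e ≤ η) (hG : k.G F lam v N)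
    (hu : |u - v| ≤ k.c * lam) (h1 : lam ≤ r) (hs : s ∈ Ico k.ts F.T) (h2 : |s - u| ≤ k.c * r)
    {x : E4} (hx : x ∈ shell r k.R) :
    JG m ((F.m s).pm N.Ψ) x ‖x‖ (η * (wt lam k.R x + |s - u| / ‖x‖ / k.c)) ∧
      JAll (fun j => 4 * k.Cs j) ((F.m s).pm N.Ψ) x ‖x‖ 1 := by
  have a0 : 0 < lam := hG.a ▸ hG.gn.top.a_pos
  have a1 : lam < ‖x‖ := h1.trans_lt hx.1
  have a2 : 0 < ‖x‖ := a0.trans a1
  have a3 : |s - v| ≤ |s - u| + k.c * lam := (abs_sub_le _ u _).trans (by linarith)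
  have hc := h.c0
  have hc8 := h.c_le
  have a4 : |s - v| ≤ k.cG * ‖x‖ := by nlinarith [hx.1]
  have a5 : x ∈ shell lam k.R := ⟨a1, hx.2⟩
  obtain ⟨b1, b2⟩ := hG.gn.jet x (by rw [hG.a, hG.b]; exact a5) s hs.2 a4
  rw [hG.a, hG.b] at b1 b2
  have a6 : |s - v| / ‖x‖ / k.cG ≤ |s - u| / ‖x‖ / k.c + wt lam k.R x :=
    calc _ ≤ (|s - u| + k.c * lam) / ‖x‖ / k.c := by gcongr; linarith
      _ = |s - u| / ‖x‖ / k.c + lam / ‖x‖ := by field_simp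
      _ ≤ _ := by linarith [div_le_wt (b := k.R) a0 a1]
  have a7 : |s - v| / ‖x‖ / k.cG ≤ 1 := by
    rw [div_div, div_le_one (by have := h.cG0; positivity)]; linarith
  have a8 : 0 ≤ |s - u| / ‖x‖ / k.c := by positivity
  have a9 := wt_nn lam k.R x
  refine ⟨jg_mono b1 hm ?_, jall_mono b2 fun j => ?_⟩
  · nlinarith [h.e0]
  · nlinarith [h.Cs j, wt_two a0 a5]

theorem good {η : ℝ} {m : ℕ} (hm : m ≤ k.m) (hη : 2 * k.e ≤ η) (h1 : lam ≤ k.l)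
    (hG : k.G F lam v N) (hs : s ∈ Ico k.ts F.T) (h2 : |s - v| ≤ 2 * (k.c * lam)) :
    Good (F.m s) N m η (fun j => 4 * k.Cs j) k.V ∧ ∀ r ∈ Icc lam k.R,
      (F.m s).vol.real (N.Om r) ≤ k.V * r ^ 4 ∧ Sk.mass (F.m s) (N.Om r) ≤ k.V * r ^ 2 := by
  have a0 : 0 < lam := hG.a ▸ hG.gn.top.a_pos
  have hc := h.c0
  have hc8 := h.c_le
  have hl := h.l_le
  have := fin_vol h.base (h.late hs)
  have vol : ∀ r ∈ Icc lam k.R, (F.m s).vol.real (N.Om r) ≤ k.V * r ^ 4 := fun r hr =>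
    (hG.gn.vol s (late_Ioo (h.late hs)) (by nlinarith [h.R1, h.R_le]) r
      (by rw [hG.a, hG.b]; exact hr)).trans (mul_le_mul_of_nonneg_right h.V (by positivity))
  have jet : ∀ x ∈ shell N.a N.b, JG k.m ((F.m s).pm N.Ψ) x ‖x‖ (k.e * (2 * wt N.a N.b x)) ∧
      JAll k.Cs ((F.m s).pm N.Ψ) x ‖x‖ (2 * wt N.a N.b x) := fun x hx => by
    have a1 : lam < ‖x‖ := hG.a ▸ hx.1
    have a2 : 0 < ‖x‖ := a0.trans a1
    obtain ⟨b1, b2⟩ := hG.gn.jet x hx s hs.2 (by nlinarith)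
    have a6 : |s - v| / ‖x‖ / k.cG ≤ wt N.a N.b x :=
      calc _ ≤ (k.cG * lam) / ‖x‖ / k.cG := by gcongr; exacts [h.cG0.le, by nlinarith]
        _ = lam / ‖x‖ := by have := h.cG0; field_simp
        _ ≤ _ := by rw [hG.a]; exact div_le_wt a0 a1
    exact ⟨jg_mono b1 le_rfl (by nlinarith [h.e0]), jall_mono b2 fun j => by nlinarith [h.Cs j]⟩
  refine ⟨⟨fun x hx => jg_mono (jet x hx).1 hm (by nlinarith [wt_nn N.a N.b x]),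
    fun x hx => jall_mono (jet x hx).2 fun j => by nlinarith [wt_nn N.a N.b x, h.Cs j],
    (measureReal_mono (N.In_sub lam)).trans (hG.a ▸ vol lam ⟨le_rfl, by linarith⟩)⟩,
    fun r hr => ⟨vol r hr, ?_⟩⟩
  have b1 := h.snap hG hs (r := 2 * lam) (by linarith) (by linarith) (by nlinarith)
  have b2 := h.mass s _ b1 le_rfl (show 2 * (2 * lam) ≤ k.R by linarith) (max r (2 * lam))
    ⟨le_max_right _ _, max_le hr.2 (show 2 * lam ≤ k.R by linarith)⟩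
  have b3 : max r (2 * lam) ^ 2 ≤ (2 * r) ^ 2 :=
    pow_le_pow_left₀ (by positivity) (max_le (by linarith [hr.1]) (by linarith [hr.1])) 2
  refine (mass_mono h.base (h.late hs) ((om_sub_res _ _ _ _).trans
    (Nk.Om_mono _ (le_max_left _ _)))).trans (b2.trans ?_)
  nlinarith [h.V]

theorem cmp {lam' v' : ℝ} (hG : k.G F lam v N) (hG' : k.G F lam' v' N') (h1 : k.K * lam ≤ r)
    (h2 : k.K * lam' ≤ r) (h3 : |v - v'| ≤ 2 * (k.c * r)) : Cmp N N' r k.R := by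
  rcases lt_or_ge k.R r with hr | hr
  · exact fun x hx => absurd (hx.1.trans hx.2) hr.not_ge
  have a0 : 0 < lam := hG.a ▸ hG.gn.top.a_pos
  have a0' : 0 < lam' := hG'.a ▸ hG'.gn.top.a_pos
  have hK := h.K_ge
  have r0 : 0 < r := lt_of_lt_of_le (by positivity) h1
  have hk := h.kce
  have hC := h.KC
  have hE := h.KE
  obtain ⟨r', e, r1⟩ : ∃ r', r = 32 * k.KC * k.KE * r' ∧ 0 < r' :=
    ⟨r / (32 * k.KC * k.KE), by field_simp, by positivity⟩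
  have b1 : lam < r' := by
    by_contra! hc
    nlinarith [h.KK2, mul_le_mul_of_nonneg_left hc (show 0 ≤ k.KC * k.KE by linarith)]
  have b2 : lam' < r' := by
    by_contra! hc
    nlinarith [h.KK2, mul_le_mul_of_nonneg_left hc (show 0 ≤ k.KC * k.KE by linarith)]
  have b3 : k.KE * r' ≤ k.R / 32 := by nlinarith [mul_pos (show 0 < k.KE by linarith) r1]
  have b4 : r' < r := by nlinarith
  have b5 : k.KC * r' ≤ r := by nlinarith [mul_pos (show 0 < k.KC by linarith) r1]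
  have b6 : |v - v| ≤ k.cG * r' := by have := h.cG0; rw [sub_self, abs_zero]; positivity
  have b7 : |v - v'| ≤ k.cG * r' := by
    have := mul_le_mul_of_nonneg_right h.c1 r1.le
    rw [e] at h3; linarith
  have s1 := h.snap hG hG.mem b1 (by linarith) b6
  have s2 := h.snap hG' hG.mem b2 (by linarith) b7
  have hR : k.R ≤ 2 * (k.K' * k.R) := by linarith [h.R_le, h.R_pos]
  have c1 := (h.cen' hG hG.mem b1 b3 b6).2 _ s2 hR b3 (show _ ≤ k.R by linarith [h.R_pos])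
    (om_sub_res _ _ _ _ hG'.p)
  exact cmp_of_res (h.cmpl v s1.late _ _ s1.top s2.top (h.r0 s1) (h.r0 s2) hR hR r' r k.R le_rfl
    le_rfl b5 le_rfl le_rfl (c1.mono (inter_subset_inter (Nk.In_sub _ _) (Nk.In_sub _ _))))
    (hG.a ▸ b1) b4 (hG'.a ▸ b2) b4

end Ok

end Ks

end Crest.Agent.N207.T.W

end
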