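import Crest.Agent.N207.T.Wd2

/-!
# Row 207 (helper69): block TOP, leaf `WD`, part 3: `back` and `stat`
-/

set_option autoImplicit false
set_option linter.unusedSectionVars false

open scoped ContDiff Manifold Topology
open Set MeasureTheory Filter
open Crest.GeometryTopology.CoordMetric Crest.GeometryTopology.ChartCurvature
  Crest.GeometryTopology.MetricFamily

noncomputable section

namespace Crest.Agent.N207.T.W

open Sk Rad

/-- a function which is constant before `s` and equal to `Y` on `[s, τ)` -/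
theorem glue_int {Y Z : ℝ → ℝ} {a s τ C : ℝ} (h1 : a ≤ s) (h2 : s ≤ τ)
    (hY : IntervalIntegrable Y volume s τ) (e1 : ∀ t < s, Z t = C) (e2 : ∀ t ∈ Ioo s τ, Z t = Y t) :
    IntervalIntegrable Z volume a τ ∧ ∫ t in a..τ, Z t = (s - a) * C + ∫ t in s..τ, Y t := by
  have i1 : IntervalIntegrable Z volume a s := by
    rw [intervalIntegrable_iff_integrableOn_Ioo_of_le h1]
    exact (integrableOn_const (C := C) (by simp)).congr_fun (fun t ht => (e1 t ht.2).symm)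
      measurableSet_Ioo
  have i2 : IntervalIntegrable Z volume s τ := by
    rw [intervalIntegrable_iff_integrableOn_Ioo_of_le h2] at hY ⊢
    exact hY.congr_fun (fun t ht => (e2 t ht).symm) measurableSet_Ioo
  refine ⟨i1.trans i2, ?_⟩
  rw [← intervalIntegral.integral_add_adjacent_intervals i1 i2]
  congr 1
  · rw [intervalIntegral.integral_of_le h1, integral_Ioc_eq_integral_Ioo,
      setIntegral_congr_fun measurableSet_Ioo (g := fun _ => C) fun t ht => e1 t ht.2]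
    simp [h1]
  · rw [intervalIntegral.integral_of_le h2, intervalIntegral.integral_of_le h2,
      integral_Ioc_eq_integral_Ioo, integral_Ioc_eq_integral_Ioo]
    exact setIntegral_congr_fun measurableSet_Ioo e2

variable {M : Type*} [TopologicalSpace M] [ChartedSpace E4 M] [IsManifold 𝓘(ℝ, E4) ∞ M]
  [T3Space M] [ConnectedSpace M] [CompactSpace M] [MeasurableSpace M] [BorelSpace M]

namespace Ks.Ok

variable {k : Ks M} {F : Flow M} {lam v s t r : ℝ} {N N' : Nk M} (h : k.Ok F)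
include h

theorem as_le : 16384 * k.Ns.a ≤ k.R ∧ k.KE * k.Ns.a ≤ k.R / 32 ∧ k.KC * k.Ns.a ≤ k.R / 64 / 64 ∧
    2 * k.l ≤ k.Ns.a := by
  have hC := h.KC
  have hE := h.KE
  have hR := h.R_pos
  have a0 : 0 < k.Ns.a := by rw [h.ns_a]; positivity
  have e : k.R = 4096 * k.KC * k.KE * k.Ns.a := by rw [h.ns_a]; field_simp
  have hk := h.kce
  refine ⟨by nlinarith, by nlinarith [mul_pos (show 0 < k.KE by linarith) a0],
    by nlinarith [mul_pos (show 0 < k.KC by linarith) a0], ?_⟩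
  by_contra! hc
  nlinarith [h.l2, h.l0, mul_le_mul_of_nonneg_right h.KK2 h.l0.le,
    mul_lt_mul_of_pos_left hc (show 0 < k.KC * k.KE by linarith)]

theorem cmp_ns (hG : k.G F lam v N) (hs : s ∈ Ico k.ts F.T) (h1 : lam < r) (h2 : r ≤ 2 * k.l)
    (h3 : |s - v| ≤ k.cG * r) : Cmp (N.res r k.R) k.Ns (k.R / 64 / 64) (k.R / 64) := by
  obtain ⟨a1, a2, a3, a4⟩ := h.as_le
  have hR := h.R_pos
  have hR' := h.R_le
  have s1 := h.snap hG hs h1 (by linarith [h.l_le, h.l0]) h3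
  have s2 := h.ns s hs
  have c1 := (h.cen' hG hs h1 ((mul_le_mul_of_nonneg_left (h2.trans a4)
    (by linarith [h.KE])).trans a2) h3).2 _ s2 h.ns_b.le a2 (by linarith [h.ns_b])
    (Nk.In_sub _ _ h.ns_p)
  exact h.cmpl s s1.late _ _ s1.top s2.top (h.r0 s1) (h.r0 s2) (show k.R ≤ _ by linarith)
    h.ns_b.le k.Ns.a _ _ (h2.trans a4) le_rfl a3 (show _ ≤ k.R by linarith) (by linarith [h.ns_b])
    (c1.mono (inter_subset_inter (Nk.In_sub _ _) (Nk.In_sub _ _)))

theorem fin' (h1 : lam ≤ k.l) (ht : t ∈ Ico k.ts F.T) (hT : N.Top)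
    (hN : Rough (F.m t) N 2 k.δ 192) (ha : N.a = lam / (2 * k.K')) (hb : N.b = k.R)
    (hc : Cmp N k.Ns (k.R / 64 / 64) (k.R / 64)) (hs : s < F.T) (h2 : |s - t| ≤ 2 * (k.c * lam)) :
    k.P F lam s := by
  obtain ⟨a1, -, -, a4⟩ := h.as_le
  have hR := h.R_pos
  have hR' := h.R_le
  have hK := h.K'
  have a0 := hT.a_pos
  have e : lam = 2 * k.K' * N.a := by rw [ha]; field_simp
  obtain ⟨N'', b1, b2, b3, b4, b5⟩ := h.fin t (h.late ht) N k.Ns _ _ hT (h.ns t ht).top hN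
    (sn_rough (h.ns t ht) (by linarith [h.e0]) (by linarith [h.e_le, h.δS0]) le_rfl)
    (by nlinarith [h.l_le]) (by linarith) (by linarith) (by linarith [h.ns_b]) (by linarith)
    h.ns_b.le hc
  refine ⟨N'', b1, by rw [b2, ha]; field_simp, by rw [b3, h.ns_b]; ring, b4 h.ns_p,
    (b5 s hs ?_).mono le_rfl le_rfl h.V1⟩
  have := mul_le_mul_of_nonneg_right h.c3 a0.le
  rw [e] at h2; linarith

theorem lam_lt (h0 : 0 < lam) : 4 * (lam / k.K) ≤ lam / (2 * k.K') ∧ 4 * (lam / (2 * k.K')) ≤ lam ∧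
    2 * (k.c * lam) ≤ k.cG * (lam / (2 * k.K')) ∧ k.K0 * (2 * (lam / k.K)) ≤ lam / (2 * k.K') := by
  have hK := h.K'
  have hK2 := h.K_ge
  obtain ⟨x, e, hx⟩ : ∃ x, lam = 2 * k.K' * k.K * x ∧ 0 < x :=
    ⟨lam / (2 * k.K' * k.K), by field_simp, by positivity⟩
  have e1 : lam / k.K = 2 * k.K' * x := by rw [e]; field_simp
  have e2 : lam / (2 * k.K') = k.K * x := by rw [e]; field_simp
  rw [e1, e2]
  have hy : 0 < k.K * x := by positivity
  refine ⟨by nlinarith [h.K'_le], by nlinarith, ?_, by nlinarith [h.KK3]⟩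
  have := mul_le_mul_of_nonneg_right h.c2 hy.le
  rw [e]; linarith

theorem back (h0 : 0 < lam) (h1 : lam ≤ k.l) (hG : k.G F (lam / k.K) v N)
    (ht : t ∈ Ico k.ts F.T) (h2 : |t - v| ≤ 2 * (k.c * lam)) : k.P F lam t := by
  obtain ⟨a1, a2, a3, -⟩ := h.lam_lt h0
  have a0 : 0 < lam / k.K := hG.a ▸ hG.gn.top.a_pos
  have s1 := h.snap hG ht (r := lam / (2 * k.K')) (by linarith) (by linarith [h.l_le])
    (h2.trans a3)
  exact h.fin' h1 ht s1.top (sn_rough s1 (by linarith [h.e0]) (by linarith [h.e_le, h.δS0]) le_rfl)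
    rfl rfl (h.cmp_ns hG ht (by linarith) (by linarith) (h2.trans a3)) ht.2
    (by have := h.c0; rw [sub_self, abs_zero]; positivity)

/-- from a static shell to a rough neck -/
theorem join {v' : ℝ} (h0 : 0 < lam) (h1 : lam ≤ k.l) (hG : k.G F (lam / k.K) v N)
    (hG' : k.G F lam v' N') (ht : t ∈ Ico k.ts F.T) (h2 : |t - v| ≤ k.cG)
    (h3 : |t - v'| ≤ k.c * lam)
    (h4 : ∀ x ∈ shell (k.K0 * (2 * (lam / k.K))) (64 * k.KC * k.K0 * (2 * lam)),
      JG 2 ((F.m t).pm N.Ψ) x ‖x‖ (2 * (2 * k.e) + k.δS))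
    (h5 : ((N.res (2 * (lam / k.K)) k.R).In ∩ (N'.res (2 * lam) k.R).Om (k.K0 * (2 * lam))).Nonempty)
    (hs : s < F.T) (h6 : |s - t| ≤ 2 * (k.c * lam)) : k.P F lam s := by
  obtain ⟨a1, a2, a3, a4⟩ := h.lam_lt h0
  have a0 : 0 < lam / k.K := hG.a ▸ hG.gn.top.a_pos
  have hR := h.R_pos
  have hR' := h.R_le
  have hl := h.l_le
  have hC := h.KC
  have hK0 := h.K0
  have hc := h.c0
  have hc8 := h.c_le
  have := fin_vol h.base (h.late ht)
  obtain ⟨ρ, hρ⟩ : ∃ ρ, ρ = k.KC * (k.K0 * (2 * lam)) := ⟨_, rfl⟩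
  have b0 : 2 * (2 * lam) ≤ k.K0 * (2 * lam) := by nlinarith
  have b1 : 2 * (k.K0 * (2 * lam)) ≤ ρ := by nlinarith
  have b2 : 64 * k.KC * k.K0 * (2 * lam) = 64 * ρ := by rw [hρ]; ring
  have b3 : 64 * ρ ≤ k.R / 16384 := by
    have c1 := mul_le_mul (h.K1.trans (show k.K1 ≤ k.K / 2 by linarith [h.KK1])) h1 h0.le
      (by linarith [h.K_ge])
    nlinarith [h.l2]
  rw [b2] at h4
  have s2 := h.snap hG' ht (r := 2 * lam) (by linarith) (by linarith) (by nlinarith)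
  have t1 : (N.res (lam / (2 * k.K')) (64 * ρ)).Top :=
    res_top hG.gn.top (by linarith [hG.a]) (by linarith) (by linarith [hG.b])
  have r1 : Rough (F.m t) (N.res (lam / (2 * k.K')) (64 * ρ)) 2 (4 * k.e + k.δS) 192 := by
    refine ⟨fun x hx => jg_mono (h4 x (shell_mono a4 le_rfl hx)) le_rfl (by linarith), ?_⟩
    refine (measureReal_mono (res_in_sub (r := 2 * (lam / (2 * k.K'))) (by linarith))).trans
      ((hG.gn.vol t (late_Ioo (h.late ht)) h2 _
        ⟨by linarith [hG.a], by linarith [hG.b]⟩).trans (le_of_eq ?_))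
    show _ = 192 * (lam / (2 * k.K')) ^ 4
    ring
  have c1 := h.cmpl t (h.late ht) _ _ t1 s2.top
    (r1.mono (Nat.zero_le _) (h.e_le.trans h.δ) le_rfl) (h.r0 s2) (show 64 * ρ ≤ _ by linarith)
    (show k.R ≤ _ by linarith) (k.K0 * (2 * lam)) ρ (64 * ρ)
    (show lam / (2 * k.K') ≤ _ by linarith) (show 2 * lam ≤ _ by linarith) hρ.ge le_rfl
    (show _ ≤ k.R by linarith) (h5.mono (inter_subset_inter_left _
      ((res_in_mono N _ _ (by linarith)).trans (Nk.In_sub _ _))))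
  obtain ⟨N1, d1, d2, d3, -, d5, d6⟩ := h.glue _ _ _ ρ (64 * ρ) t1 s2.top r1
    (sn_rough s2 (by linarith [h.e0]) (by linarith [h.δS0]) le_rfl)
    (show 2 * (lam / (2 * k.K')) ≤ _ by linarith) (show 2 * (2 * lam) ≤ _ by linarith) le_rfl
    (show _ ≤ k.R by linarith) le_rfl c1
  have c2 := h.cmp_ns hG' ht (r := 2 * lam) (by linarith) (by linarith) (by nlinarith)
  refine h.fin' h1 ht d1 (d5.mono le_rfl h.δS le_rfl) d2 d3 (fun x hx => ?_) hs h6
  rw [d6 (x / 2) ⟨by linarith [hx.1], show _ ≤ k.R by linarith [hx.2]⟩,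
    d6 x ⟨by linarith [hx.1], show _ ≤ k.R by linarith [hx.2]⟩]
  exact c2 x hx

theorem stat' {τ : ℝ} {N : ℝ → Nk M} {v Y : ℝ → ℝ} (h0 : 0 < lam) (h1 : lam ≤ k.l)
    (h2 : k.ts ≤ s - k.c * lam) (h3 : s < τ) (h4 : τ < F.T)
    (h5 : ∀ t ∈ Ico s τ, k.G F lam (v t) (N t) ∧ |t - v t| ≤ k.c * lam ∧
      Sk.mass (F.m t) ((N t).Om (k.K * lam)) ≤ Y t)
    (h6 : k.G F (lam / k.K) (v τ) (N τ)) (h7 : |τ - v τ| ≤ k.c * (lam / k.K))
    (h8 : IntervalIntegrable Y volume s τ)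
    (h9 : (τ - s) * ((∫ t in s..τ, Y t) + lam ^ 4) < k.c * lam ^ 4) (ht : t < F.T)
    (hts : |t - s| ≤ k.c * lam) : k.P F lam t := by
  classical
  obtain ⟨a1, a2, a3, a4⟩ := h.lam_lt h0
  have a0 : 0 < lam / k.K := h6.a ▸ h6.gn.top.a_pos
  have hR := h.R_pos
  have hl := h.l_le
  have hK0 := h.K0
  have hK := h.K_ge
  have hc := h.c0
  have hc8 := h.c_le
  have hcl : 0 < k.c * lam := by positivity
  have hK1 : 256 ≤ k.K1 := by nlinarith [h.K1, h.KC]
  have b1 : (k.K0 * (2 * lam)) ^ 2 ≤ k.c * lam := by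
    have := mul_le_mul_of_nonneg_right ((mul_le_mul_of_nonneg_left h1
      (show 0 ≤ 4 * k.K0 ^ 2 by positivity)).trans h.l3) h0.le
    linarith
  have b2 : k.K1 * (2 * lam) ≤ k.K * lam := by nlinarith [h.KK1]
  have b3 : k.K * lam ≤ k.R / 16384 := by nlinarith [h.l2]
  have b4 : 2 * lam < k.K1 * (2 * lam) := by nlinarith
  have b5 : 2 * (k.c * lam) ≤ k.cG * (2 * lam) := by nlinarith
  have b6 : k.c * (lam / k.K) ≤ k.cG * (2 * (lam / k.K)) := by nlinarith
  have mem : ∀ u ∈ Icc (s - (k.K0 * (2 * lam)) ^ 2) τ, u ∈ Ico k.ts F.T := fun u hu =>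
    ⟨by linarith [hu.1], hu.2.trans_lt h4⟩
  set Z : ℝ → Nk M := fun u => if u < s then (N s).res (2 * lam) k.R else
    if u < τ then (N u).res (2 * lam) k.R else (N τ).res (2 * (lam / k.K)) k.R with hZ
  set W : ℝ → ℝ := fun u => if u < s then k.V * (k.K1 * (2 * lam)) ^ 2 else
    if u < τ then Y u else Sk.mass (F.m u) ((Z u).Om (k.K1 * (2 * lam))) with hW
  have Zτ : Z τ = (N τ).res (2 * (lam / k.K)) k.R := by simp [hZ, h3.not_gt]
  obtain ⟨i1, i2⟩ := glue_int (Z := W) (a := s - (k.K0 * (2 * lam)) ^ 2)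
    (C := k.V * (k.K1 * (2 * lam)) ^ 2) (by linarith [sq_nonneg (k.K0 * (2 * lam))]) h3.le h8
    (fun u hu => by simp [hW, hu]) fun u hu => by simp [hW, hu.1.not_gt, hu.2]
  have y0 : 0 ≤ ∫ t in s..τ, Y t := by
    rw [intervalIntegral.integral_of_le h3.le, integral_Ioc_eq_integral_Ioo]
    exact setIntegral_nonneg measurableSet_Ioo fun u hu => (mass_nn h.base
      (h.late ⟨by linarith [hu.1], hu.2.trans h4⟩) _).trans (h5 u ⟨hu.1.le, hu.2⟩).2.2
  have l4 : 0 < lam ^ 4 := by positivity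
  have y1 : (τ - s) * lam ^ 4 < k.c * lam ^ 4 := by nlinarith [mul_nonneg (sub_pos.2 h3).le y0]
  have y2 : τ - s < k.c := lt_of_mul_lt_mul_right y1 l4.le
  have key := h.stat s τ (2 * lam) (2 * (lam / k.K)) Z W h3.le (by linarith)
    (le_of_eq (by field_simp)) (by linarith) (by linarith) (fun u hu => ?_) (by rw [Zτ]; rfl) i1 ?_
  · obtain ⟨u, u1, u2⟩ := exists_between (lt_min h3 (show s < s + k.c * lam by linarith))
    obtain ⟨u3, u4⟩ := lt_min_iff.1 u2
    obtain ⟨k1, k2⟩ := key u ⟨u1, u3.le⟩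
    have Zu : Z u = (N u).res (2 * lam) k.R := by simp [hZ, u1.not_gt, u3]
    rw [Zτ] at k1 k2
    rw [Zu] at k2
    refine h.join h0 h1 h6 (h5 u ⟨u1.le, u3⟩).1 ⟨by linarith, u3.trans h4⟩ ?_
      (h5 u ⟨u1.le, u3⟩).2.1 k1 k2 ht ?_
    · have c1 : k.c * (lam / k.K) ≤ k.c :=
        mul_le_of_le_one_right hc.le (by linarith [h.R1, h.R_le])
      obtain ⟨c2, c3⟩ := abs_le.1 h7
      exact abs_le.2 ⟨by linarith, by linarith⟩
    · obtain ⟨c2, c3⟩ := abs_le.1 hts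
      exact abs_le.2 ⟨by linarith, by linarith⟩
  · have hu' := mem u hu
    by_cases e1 : u < s
    · obtain ⟨g1, g2, -⟩ := h5 s ⟨le_rfl, h3⟩
      have c1 : |u - v s| ≤ 2 * (k.c * lam) := by
        obtain ⟨c2, c3⟩ := abs_le.1 g2
        exact abs_le.2 ⟨by linarith [hu.1], by linarith⟩
      simp only [hZ, hW, if_pos e1]
      refine ⟨h.snap g1 hu' (by linarith) (by linarith) (c1.trans b5), le_rfl, rfl,
        om_sub_res _ _ _ _ g1.p, ?_⟩
      rw [res_om (by linarith [g1.a]) b4]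
      exact ((h.good (m := 0) (Nat.zero_le _) le_rfl h1 g1 hu' c1).2 _
        ⟨by linarith, by linarith⟩).2
    · by_cases e2 : u < τ
      · obtain ⟨g1, g2, g3⟩ := h5 u ⟨not_lt.1 e1, e2⟩
        simp only [hZ, hW, if_neg e1, if_pos e2]
        refine ⟨h.snap g1 hu' (by linarith) (by linarith) (by linarith), le_rfl, rfl,
          om_sub_res _ _ _ _ g1.p, ?_⟩
        rw [res_om (by linarith [g1.a]) b4]
        exact (mass_mono h.base (h.late hu') (Nk.Om_mono _ b2)).trans g3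
      · obtain rfl : u = τ := le_antisymm hu.2 (not_lt.1 e2)
        simp only [hW, if_neg e1, if_neg e2]
        rw [Zτ]
        exact ⟨h.snap h6 hu' (by linarith) (by linarith) (h7.trans b6),
          show 2 * (lam / k.K) ≤ _ by linarith, rfl, om_sub_res _ _ _ _ h6.p, le_rfl⟩
  · rw [i2]
    have c0 : 0 ≤ 16 * k.K0 ^ 2 * k.K1 ^ 2 * k.V := by have := h.V; positivity
    have c1 := mul_le_mul_of_nonneg_right h.c4 l4.le
    have c2 := mul_le_mul_of_nonneg_left y1.le c0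
    have c3 := mul_pos (sub_pos.2 h3) l4
    linarith

end Ks.Ok

end Crest.Agent.N207.T.W

end
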